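import Vale.Agent.P153.R2.PLAN.Cob
import Vale.Agent.P153.Bd5.B9

/-!
# P153-R2, block TIGH (helper443): a net of circuits of closed edges, connected to the outside

If the open (not in `E`) paths starting in the boxes of the net of spacing `s` stay in the boxes of
twice the size, then the vertices which are not joined to the complement of `V` by paths of edges of
`E` form pieces of size at most `4 s`.
-/

namespace Vale.Agent.P153.R2.NH

open Set Relation
open Vale.Agent.P153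
open Vale.Agent.P153.Topo (Conn)
open Vale.Agent.P153.F.X (stp tE bl Zr)

/-- The vertices joined to the complement of `V` by paths of edges of `E` which touch `V`. -/
def OE (V E : Set Pt) : Set Pt :=
  {v | ∃ y, y ∉ V ∧ ReflTransGen (fun u w => Adj u w ∧ u + w ∈ E ∩ tE V) v y}

/-- `U` has a connected piece of size more than `d`. -/
def Big (d : ℤ) (U : Set Pt) : Prop := ∃ x y, Conn U x y ∧ (d < |x.1 - y.1| ∨ d < |x.2 - y.2|)

theorem Big.mono {d : ℤ} {S T : Set Pt} (h : S ⊆ T) (hb : Big d S) : Big d T := by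
  obtain ⟨x, y, h1, h2⟩ := hb
  exact ⟨x, y, h1.mono h, h2⟩

theorem Big.anti {d d' : ℤ} (h : d' ≤ d) {S : Set Pt} (hb : Big d S) : Big d' S := by
  obtain ⟨x, y, h1, h2⟩ := hb
  exact ⟨x, y, h1, h2.imp (lt_of_le_of_lt h) (lt_of_le_of_lt h)⟩

variable {V E E' : Set Pt}

theorem compl_subset_OE : Vᶜ ⊆ OE V E := fun x hx => ⟨x, hx, ReflTransGen.refl⟩

theorem OE_mono (h : E ⊆ E') : OE V E ⊆ OE V E' := by
  rintro v ⟨y, hy, h1⟩
  exact ⟨y, hy, ReflTransGen.mono (fun u w huw => ⟨huw.1, h huw.2.1, huw.2.2⟩) _ _ h1⟩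

theorem OE_congr (h : ∀ w ∈ tE V, w ∈ E ↔ w ∈ E') : OE V E = OE V E' := by
  have : E ∩ tE V = E' ∩ tE V := by
    ext w
    constructor
    · rintro ⟨h1, h2⟩; exact ⟨(h w h2).1 h1, h2⟩
    · rintro ⟨h1, h2⟩; exact ⟨(h w h2).2 h1, h2⟩
  unfold OE
  rw [this]

theorem OE_head {k w : Pt} (hw : w ∈ OE V E) (hkw : Adj k w) (hE : k + w ∈ E)
    (hV : k ∈ V) : k ∈ OE V E := by
  obtain ⟨y, hy, h1⟩ := hw
  exact ⟨y, hy, ReflTransGen.head ⟨hkw, hE, k, hV, w, hkw, rfl⟩ h1⟩

/-- Leaving a finite set in a fixed direction. -/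
theorem exit {U : Set Pt} (hU : U.Finite) {d : Pt} (hd0 : d ≠ 0) {a : Pt}
    (ha : a ∈ U) : ∃ n : ℕ, (∀ i : ℕ, i ≤ n → a + i • d ∈ U) ∧ a + (n + 1) • d ∉ U := by
  classical
  have hex : ∃ n : ℕ, a + n • d ∉ U := by
    by_contra hcon
    push Not at hcon
    have hinj : Function.Injective fun n : ℕ => a + n • d := by
      intro n m hnm
      have h1 : n • d = m • d := add_left_cancel hnm
      have h2 : (n : ℤ) * d.1 = m * d.1 ∧ (n : ℤ) * d.2 = m * d.2 := by
        have e1 := congrArg Prod.fst h1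
        have e2 := congrArg Prod.snd h1
        simpa using And.intro e1 e2
      by_contra hne
      apply hd0
      have h3 : ((n : ℤ) - m) ≠ 0 := by omega
      refine Prod.ext ?_ ?_
      · have : ((n : ℤ) - m) * d.1 = 0 := by linarith [h2.1, sub_mul (n : ℤ) m d.1]
        exact (mul_eq_zero.1 this).resolve_left h3
      · have : ((n : ℤ) - m) * d.2 = 0 := by linarith [h2.2, sub_mul (n : ℤ) m d.2]
        exact (mul_eq_zero.1 this).resolve_left h3
    exact Set.infinite_range_of_injective hinj (hU.subset (by rintro _ ⟨n, rfl⟩; exact hcon n))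
  have h0 : Nat.find hex ≠ 0 := by
    intro h
    have := Nat.find_spec hex
    rw [h] at this
    simp only [zero_smul, add_zero] at this
    exact this ha
  obtain ⟨n, hn⟩ := Nat.exists_eq_succ_of_ne_zero h0
  refine ⟨n, fun i hi => ?_, ?_⟩
  · by_contra hcon
    have := Nat.find_min' hex hcon
    omega
  · have := Nat.find_spec hex
    rwa [hn] at this

theorem conn_line {S : Set Pt} {d : Pt} (hd : ∀ x, Adj x (x + d)) {a : Pt} (n : ℕ)
    (h : ∀ i : ℕ, i ≤ n → a + i • d ∈ S) : Conn S a (a + n • d) := by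
  induction n with
  | zero =>
    have := h 0 le_rfl
    simp only [zero_smul, add_zero] at this ⊢
    exact Conn.refl this
  | succ n ih =>
    have h1 := ih fun i hi => h i (by omega)
    refine h1.tail ?_ (h (n + 1) le_rfl)
    have : a + (n + 1) • d = a + n • d + d := by rw [succ_nsmul, add_assoc]
    rw [this]
    exact hd _

theorem adj_d {d : Pt} (hd : d = (1, 0) ∨ d = (-1, 0) ∨ d = (0, 1) ∨ d = (0, -1)) (x : Pt) :
    Adj x (x + d) := by
  rw [Topo.adj_iff]
  rcases hd with rfl | rfl | rfl | rfl <;> simp <;> omega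

/-- **The net.** -/
theorem not_big {s N : ℤ} (hs : 1 ≤ s) (hV : V.Finite) (hCC : CC V)
    (hVb : V ⊆ bx 0 (N * s))
    (hgrid : ∀ y : Pt, |y.1| ≤ N → |y.2| ≤ N →
      F.X.Conf E (F.X.bx (s * y.1, s * y.2) s) (F.X.bx (s * y.1, s * y.2) (2 * s))) :
    ¬ Big (4 * s) (OE V E)ᶜ := by
  rintro ⟨x, y, hxy, hbig⟩
  set U : Set Pt := (OE V E)ᶜ with hU
  have hUV : U ⊆ V := fun z hz => by
    by_contra h1
    exact hz (compl_subset_OE h1)
  set M : Set Pt := {v | Conn U x v} with hM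
  have hMU : M ⊆ U := fun v hv => Conn.right_mem hv
  have hMf : M.Finite := hV.subset (hMU.trans hUV)
  have hxM : x ∈ M := Conn.refl hxy.left_mem
  have hyM : y ∈ M := hxy
  have hMx : ∀ a ∈ M, Conn M x a := by
    intro a ha
    refine Conn.ind (P := fun z => Conn M x z) (Conn.refl hxM) ?_ ha
    intro u v hu huv hv ih
    exact ih.tail huv (hu.tail huv hv)
  have hMc : ∀ a ∈ M, ∀ b ∈ M, Conn M a b := fun a ha b hb => (hMx a ha).symm.trans (hMx b hb)
  have hOM : ∀ z, z ∈ OE V E → z ∈ Mᶜ := fun z hz hzM => hMU hzM hz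
  -- the complement of `M` is connected
  have hO : ∀ z, z ∈ OE V E → ∃ w, w ∉ V ∧ Conn Mᶜ z w := by
    rintro z ⟨w, hw, hzw⟩
    refine ⟨w, hw, ?_⟩
    have key : w ∈ OE V E := compl_subset_OE hw
    refine ReflTransGen.head_induction_on (motive := fun u _ => Conn Mᶜ u w) hzw
      (Conn.refl (hOM _ key)) ?_
    intro u v huv hvw ih
    have hu : u ∈ OE V E := ⟨w, hw, ReflTransGen.head huv hvw⟩
    exact (Conn.of_adj (hOM _ hu) ih.left_mem huv.1).trans ih
  have hW1 : ∀ z, z ∈ Mᶜ → ∃ w, w ∉ V ∧ Conn Mᶜ z w := by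
    intro z hz
    by_cases hzO : z ∈ OE V E
    · exact hO z hzO
    · have hzU : z ∈ U := hzO
      have hd : ∀ x : Pt, Adj x (x + (1, 0)) := adj_d (Or.inl rfl)
      obtain ⟨n, h1, h2⟩ := exit (d := (1, 0)) (hV.subset hUV) (by simp) hzU
      have h3 : ∀ i : ℕ, i ≤ n + 1 → z + i • ((1, 0) : Pt) ∈ Mᶜ := by
        intro i hi
        rcases Nat.lt_or_ge n i with h4 | h4
        · have : i = n + 1 := by omega
          subst this
          intro h5
          exact h2 (hMU h5)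
        · intro h5
          apply hz
          have h6 : Conn U z (z + i • ((1, 0) : Pt)) := conn_line hd i fun j hj => h1 j (by omega)
          exact Conn.trans (h5 : Conn U x _) h6.symm
      have h7 := conn_line hd (n + 1) h3
      have h8 : z + (n + 1) • ((1, 0) : Pt) ∈ OE V E := not_not.1 h2
      obtain ⟨w, hw, h9⟩ := hO _ h8
      exact ⟨w, hw, h7.trans h9⟩
  have hVM : Vᶜ ⊆ Mᶜ := compl_subset_compl.2 (hMU.trans hUV)
  have hWc : ∀ a ∈ Mᶜ, ∀ b ∈ Mᶜ, Conn Mᶜ a b := by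
    intro a ha b hb
    obtain ⟨w, hw, h1⟩ := hW1 a ha
    obtain ⟨w', hw', h2⟩ := hW1 b hb
    exact (h1.trans ((hCC w w' hw hw').mono hVM)).trans h2.symm
  -- the boundary edges are open
  have hopen : ∀ k ∈ M, ∀ w, w ∉ M → Adj k w → k + w ∉ E := by
    intro k hk w hw hkw hE
    have hwO : w ∈ OE V E := by
      by_contra h1
      exact hw (Conn.tail (hk : Conn U x k) hkw h1)
    exact hMU hk (OE_head hwO hkw hE (hUV (hMU hk)))
  have hchain : ∀ k ∈ M, ∀ w, w ∉ M → Adj k w → ∀ k' ∈ M, ∀ w', w' ∉ M → Adj k' w' →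
      ReflTransGen (stp E) k k' := by
    intro k hk w hw hkw k' hk' w' hw' hkw'
    have h1 := PLAN.interface_connected (K := M) (W := Mᶜ) disjoint_compl_right hMc hWc
      (fun a ha b _ hb => hb) hk hw hkw hk' hw' hkw'
    have key : ∀ e : Pt × Pt, ReflTransGen (PLAN.Turn M Mᶜ) (k, w) e →
        ReflTransGen (stp E) k e.1 ∧ e.1 ∈ M ∧ e.2 ∉ M ∧ Adj e.1 e.2 := by
      intro e he
      induction he with
      | refl => exact ⟨ReflTransGen.refl, hk, hw, hkw⟩
      | @tail e f _ hf ih =>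
        obtain ⟨ih1, ih2, ih3, ih4⟩ := ih
        obtain ⟨⟨g1, g2, g3⟩, g4⟩ := hf
        refine ⟨?_, g1, g2, g3⟩
        rcases g4 with ⟨g4, -⟩ | ⟨g4, -⟩
        · rw [← g4]; exact ih1
        · have s1 : stp E e.1 e.2 := ⟨ih4, hopen _ ih2 _ ih3 ih4⟩
          have s2 : stp E e.2 f.1 := by
            rw [g4]
            refine ⟨Topo.adj_symm g3, ?_⟩
            rw [add_comm]
            exact hopen _ g1 _ g2 g3
          exact (ih1.tail s1).tail s2
    exact (key _ h1).1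
  -- a boundary edge
  have hdir : ∀ d : Pt, (d = (1, 0) ∨ d = (-1, 0) ∨ d = (0, 1) ∨ d = (0, -1)) → ∀ v ∈ M,
      ∃ n : ℕ, v + n • d ∈ M ∧ v + (n + 1) • d ∉ M := by
    intro d hd v hv
    have hd0 : d ≠ 0 := by rcases hd with rfl | rfl | rfl | rfl <;> simp
    obtain ⟨n, h1, h2⟩ := exit hMf hd0 hv
    exact ⟨n, h1 n le_rfl, h2⟩
  have hadj : ∀ (v d : Pt) (n : ℕ), (∀ x, Adj x (x + d)) → Adj (v + n • d) (v + (n + 1) • d) := by
    intro v d n h
    have : v + (n + 1) • d = v + n • d + d := by rw [succ_nsmul, add_assoc]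
    rw [this]
    exact h _
  obtain ⟨n₀, hk₀, hw₀⟩ := hdir (1, 0) (Or.inl rfl) x hxM
  have ha₀ := hadj x (1, 0) n₀ (adj_d (Or.inl rfl))
  set k₀ : Pt := x + n₀ • ((1, 0) : Pt) with hk₀d
  have hk₀V : k₀ ∈ bx 0 (N * s) := hVb (hUV (hMU hk₀))
  have hk1 : |k₀.1| ≤ N * s := by simpa using hk₀V.1
  have hk2 : |k₀.2| ≤ N * s := by simpa using hk₀V.2
  -- the box of the net
  have hdiv : ∀ a : ℤ, |a| ≤ N * s → |a / s| ≤ N ∧ s * (a / s) ≤ a ∧ a ≤ s * (a / s) + s := by
    intro a ha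
    rw [abs_le] at ha
    have h1 := Int.mul_ediv_add_emod a s
    have h2 := Int.emod_nonneg a (show s ≠ 0 by omega)
    have h3 := Int.emod_lt_of_pos a (show 0 < s by omega)
    refine ⟨abs_le.2 ⟨?_, ?_⟩, by linarith, by linarith⟩
    · rw [Int.le_ediv_iff_mul_le (by omega)]
      linarith [ha.1]
    · by_contra hcon
      push Not at hcon
      have h4 : N + 1 ≤ a / s := hcon
      have h5 : s * (N + 1) ≤ s * (a / s) := mul_le_mul_of_nonneg_left h4 (by omega)
      nlinarith [ha.2]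
  obtain ⟨e1, e2, e3⟩ := hdiv _ hk1
  obtain ⟨f1, f2, f3⟩ := hdiv _ hk2
  have hconf := hgrid (k₀.1 / s, k₀.2 / s) e1 f1 k₀ (by
    show |k₀.1 - s * (k₀.1 / s)| ≤ s ∧ |k₀.2 - s * (k₀.2 / s)| ≤ s
    rw [abs_le, abs_le]
    exact ⟨⟨by linarith, by linarith⟩, by linarith, by linarith⟩)
  set A : ℤ := s * (k₀.1 / s) with hA
  set B : ℤ := s * (k₀.2 / s) with hB
  have hin : ∀ k ∈ M, ∀ w, w ∉ M → Adj k w → |k.1 - A| ≤ 2 * s ∧ |k.2 - B| ≤ 2 * s := by
    intro k hk w hw hkw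
    exact hconf k (hchain k₀ hk₀ _ hw₀ ha₀ k hk w hw hkw)
  have hall : ∀ v ∈ M, |v.1 - A| ≤ 2 * s ∧ |v.2 - B| ≤ 2 * s := by
    intro v hv
    have g1 : v.1 ≤ A + 2 * s := by
      obtain ⟨n, h1, h2⟩ := hdir (1, 0) (Or.inl rfl) v hv
      have h3 := (hin _ h1 _ h2 (hadj v (1, 0) n (adj_d (Or.inl rfl)))).1
      simp only [Prod.fst_add, Prod.smul_fst] at h3
      simp only [nsmul_eq_mul, mul_one] at h3
      have := (abs_le.1 h3).2
      omega
    have g2 : A - 2 * s ≤ v.1 := by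
      obtain ⟨n, h1, h2⟩ := hdir (-1, 0) (Or.inr (Or.inl rfl)) v hv
      have h3 := (hin _ h1 _ h2 (hadj v (-1, 0) n (adj_d (Or.inr (Or.inl rfl))))).1
      simp only [Prod.fst_add, Prod.smul_fst] at h3
      simp only [nsmul_eq_mul, mul_neg, mul_one] at h3
      have := (abs_le.1 h3).1
      omega
    have g3 : v.2 ≤ B + 2 * s := by
      obtain ⟨n, h1, h2⟩ := hdir (0, 1) (Or.inr (Or.inr (Or.inl rfl))) v hv
      have h3 := (hin _ h1 _ h2 (hadj v (0, 1) n (adj_d (Or.inr (Or.inr (Or.inl rfl)))))).2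
      simp only [Prod.snd_add, Prod.smul_snd] at h3
      simp only [nsmul_eq_mul, mul_one] at h3
      have := (abs_le.1 h3).2
      omega
    have g4 : B - 2 * s ≤ v.2 := by
      obtain ⟨n, h1, h2⟩ := hdir (0, -1) (Or.inr (Or.inr (Or.inr rfl))) v hv
      have h3 := (hin _ h1 _ h2 (hadj v (0, -1) n (adj_d (Or.inr (Or.inr (Or.inr rfl)))))).2
      simp only [Prod.snd_add, Prod.smul_snd] at h3
      simp only [nsmul_eq_mul, mul_neg, mul_one] at h3
      have := (abs_le.1 h3).1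
      omega
    exact ⟨abs_le.2 ⟨by omega, by omega⟩, abs_le.2 ⟨by omega, by omega⟩⟩
  have hx' := hall x hxM
  have hy' := hall y hyM
  rw [abs_le, abs_le] at hx' hy'
  rcases hbig with h | h
  · rw [lt_abs] at h
    omega
  · rw [lt_abs] at h
    omega

end Vale.Agent.P153.R2.NH
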