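import Vale.Agent.P153.R2.SDAR.NH
import Vale.Agent.P153.R2.SDAR.NHGeo
import Vale.Agent.P153.Bd5.B25
import Vale.Agent.P153.Bd5.B18
import Vale.Agent.P153.Bd5.B19

/-!
# P153-R2, block TIGH (helper443): the base case of `nh`

In every finite simply connected domain with free data, in a fixed number of boxes of size `s`, the
vertices which are not joined to the outside by vertices with `|h| = 1` form pieces of size at most
`4 s`, with probability at least `1 - q`, `q < 1`.
-/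

namespace Vale.Agent.P153.R2.NH

open Set Relation MeasureTheory
open Vale.Agent.P153
open Vale.Agent.P153.Topo (Conn)
open Vale.Agent.P153.F.X (stp tE bl Zr iE II LocS Fn S_int S_pos S_rsw s_conf s_loc)

theorem abs_eq_one {a : ℤ} : |a| = 1 ↔ a = 1 ∨ a = -1 := by
  constructor
  · intro h
    rcases abs_cases a with ⟨h1, _⟩ | ⟨h1, _⟩ <;> omega
  · rintro (rfl | rfl) <;> rfl

/-- The law with free data at level `0` is the free ensemble. -/
theorem free_eq (F : Finset Pt) : (FreeF F (clo F) : Set Hg) = Cfg (F : Set Pt) (frd (F : Set Pt) 0) := by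
  classical
  have hclo : ∀ y, y ∈ clo F → y ∉ F → y ∈ ebd (F : Set Pt) := by
    intro y hy hyF
    unfold clo at hy
    rw [Finset.mem_union, Finset.mem_biUnion] at hy
    rcases hy with hy | ⟨x, hx, hy⟩
    · exact absurd hy hyF
    · refine ⟨by simpa using hyF, x, by simpa using hx, ?_⟩
      rw [Topo.adj_iff]
      simp only [Finset.mem_insert, Finset.mem_singleton, Prod.ext_iff] at hy
      omega
  ext h
  simp only [Finset.mem_coe, mem_FreeF]
  constructor
  · rintro ⟨h1, h2, h3⟩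
    refine ⟨h1.1, fun x => ?_, fun x _ y hxy => h1.2 x y hxy⟩
    unfold frd
    by_cases hx : x ∈ (F : Set Pt)
    · rw [if_pos hx]; trivial
    · rw [if_neg hx]
      have hx' : x ∉ F := by simpa using hx
      by_cases hxe : x ∈ ebd (F : Set Pt)
      · rw [if_pos hxe]
        have := abs_eq_one.1 (h2 x hx')
        simp only [mem_insert_iff, mem_singleton_iff]
        omega
      · rw [if_neg hxe]
        have h4 : x ∉ clo F := fun hc => hxe (hclo x hc hx')
        simp only [mem_singleton_iff]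
        rw [h3 x h4]; rfl
  · rintro ⟨h1, h2, h3⟩
    have h4 : ∀ x, x ∉ F → |h x| = 1 := by
      intro x hx
      have h5 := h2 x
      unfold frd at h5
      rw [if_neg (by simpa using hx)] at h5
      split_ifs at h5
      · simp only [mem_insert_iff, mem_singleton_iff] at h5
        rw [abs_eq_one]
        omega
      · simp only [mem_singleton_iff] at h5
        rw [abs_eq_one]
        omega
    refine ⟨⟨h1, fun x y hxy => ?_⟩, h4, fun x hx => ?_⟩
    · by_cases hx : x ∈ (F : Set Pt)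
      · exact h3 x hx y hxy
      · by_cases hy : y ∈ (F : Set Pt)
        · rw [abs_sub_comm]; exact h3 y hy x (Topo.adj_symm hxy)
        · have e1 := abs_eq_one.1 (h4 x (by simpa using hx))
          have e2 := abs_eq_one.1 (h4 y (by simpa using hy))
          rw [abs_le]
          omega
    · have hxF : x ∉ (F : Set Pt) := fun hc => hx (sub_clo F x (by simpa using hc))
      have hxe : x ∉ ebd (F : Set Pt) := by
        rintro ⟨-, y, hy, hyx⟩
        exact hx (adj_clo F y (by simpa using hy) x hyx)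
      have h5 := h2 x
      unfold frd at h5
      rw [if_neg hxF, if_neg hxe] at h5
      simp only [mem_singleton_iff] at h5
      omega

theorem finite_tE {V : Set Pt} (hV : V.Finite) : (tE V).Finite := by
  have h1 : tE V ⊆ (fun z : Pt × Pt => z.1 + z.2) '' (V ×ˢ (V ∪ ebd V)) := by
    rintro w ⟨x, hx, y, hxy, rfl⟩
    refine ⟨(x, y), ⟨hx, ?_⟩, rfl⟩
    by_cases hy : y ∈ V
    · exact Or.inl hy
    · exact Or.inr ⟨hy, x, hx, hxy⟩
  exact ((hV.prod (hV.union (ebd_finite hV))).image _).subset h1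

theorem OE_subset_OO {V : Set Pt} {h : Hg} :
    OE V (bl h) ⊆ OO V h 1 := by
  rintro v ⟨y, hy, h1⟩
  refine ReflTransGen.head_induction_on (motive := fun u _ => u ∈ OO V h 1) h1
    (compl_subset_OO hy) ?_
  rintro u w ⟨huw, ⟨x', y', h2, h3, h4, h5⟩, -⟩ _ ih
  refine OO_step ih (Topo.adj_symm huw) (Or.inr ?_)
  have h6 : |h u| = 1 := by
    obtain ⟨a, b⟩ := u
    obtain ⟨c, d⟩ := w
    obtain ⟨a', b'⟩ := x'
    obtain ⟨c', d'⟩ := y'
    rw [Topo.adj_iff] at huw h2
    simp only [Prod.mk_add_mk, Prod.mk.injEq] at h3 huw h2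
    have : (a = a' ∧ b = b') ∨ (a = c' ∧ b = d') := by omega
    rcases this with ⟨rfl, rfl⟩ | ⟨rfl, rfl⟩
    · exact h4
    · exact h5
  show h u ≤ 1
  have := le_abs_self (h u)
  omega

/-- **The base case.** -/
theorem base {P : Measure (Pt → ℤ)} (hP : GFF.Plane P) (hint : S_int P) (hpos : S_pos P)
    (hrsw : S_rsw P) (N : ℕ) : ∃ q : ℝ, 0 ≤ q ∧ q < 1 ∧ ∃ s₀ : ℤ, 1 ≤ s₀ ∧ ∀ s, s₀ ≤ s →
      ∀ V : Set Pt, V.Finite → CC V → V ⊆ bx 0 (N * s) →
        Pr (Cfg V (frd V 0)) {h | Big (4 * s) (UU V h 1)} ≤ q := by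
  classical
  obtain ⟨c, hc, s₁, hs₁, hp⟩ := hpos (2 * (N + 2))
  obtain ⟨c', hc', r₀, hr₀, hr⟩ := hrsw
  refine ⟨max 0 (1 - c / 2), le_max_left _ _, max_lt one_pos (by linarith), max s₁ r₀,
    hs₁.trans (le_max_left _ _), fun s hs V hV hCC hVb => ?_⟩
  have hs1 : 1 ≤ s := hs₁.trans ((le_max_left _ _).trans hs)
  have hsr : r₀ ≤ s := (le_max_right _ _).trans hs
  set G : Finset Pt := hV.toFinset with hG
  have hFV : (G : Set Pt) = V := hV.coe_toFinset
  set m : ℤ := (N : ℤ) + 2 with hm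
  -- the functions
  set Θ : Set Pt → ℝ := F.X.ind (Zr (s * (0 : Pt).1, s * (0 : Pt).2) (m * s)) with hΘ
  set X : Set Pt → ℝ := F.X.ind (fun B => Big (4 * s) (OE V B)ᶜ) with hX
  set D : Set Pt → ℝ := F.X.ind fun B => (∀ y : Pt, |y.1| ≤ (2 * (N + 2) : ℕ) →
    |y.2| ≤ (2 * (N + 2) : ℕ) → Zr (s * y.1, s * y.2) s B) ∧
      Zr (s * (0 : Pt).1, s * (0 : Pt).2) (m * s) B with hD
  have hms : 1 ≤ m * s := by nlinarith
  have hΘl := s_loc (s * (0 : Pt).1, s * (0 : Pt).2) (m * s) hms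
  have hΘF : Fn (tE (G : Set Pt))ᶜ Θ := by
    refine hΘl.2.monoD fun w hw => ?_
    rintro ⟨x, hx, y, hxy, rfl⟩
    apply hw.2
    rw [hFV] at hx
    have hx2 : |x.1| ≤ N * s ∧ |x.2| ≤ N * s := by
      have := hVb hx
      simpa [bx] using this
    rw [Topo.adj_iff] at hxy
    rw [abs_le, abs_le] at hx2
    have e1 : N * s + 2 * s = m * s := by rw [hm]; ring
    refine ⟨x, ?_, y, ?_, Topo.adj_iff.2 hxy, rfl⟩
    · show |x.1 - s * (0 : Pt).1| ≤ m * s - 1 ∧ |x.2 - s * (0 : Pt).2| ≤ m * s - 1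
      simp only [Prod.fst_zero, Prod.snd_zero, mul_zero, sub_zero]
      rw [abs_le, abs_le]
      omega
    · show |y.1 - s * (0 : Pt).1| ≤ m * s - 1 ∧ |y.2 - s * (0 : Pt).2| ≤ m * s - 1
      simp only [Prod.fst_zero, Prod.snd_zero, mul_zero, sub_zero]
      rw [abs_le, abs_le]
      omega
  have hXa : Antitone X := by
    intro B B' hB
    simp only [hX, F.X.ind]
    by_cases h1 : Big (4 * s) (OE V B')ᶜ
    · rw [if_pos h1, if_pos (h1.mono (compl_subset_compl.2 (OE_mono hB)))]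
    · rw [if_neg h1]; split_ifs <;> norm_num
  have hX0 : ∀ B, 0 ≤ X B := fun B => F.X.ind_nonnegD _ _
  have hXl : LocS (tE (G : Set Pt)) X := by
    rw [hFV]
    refine ⟨(finite_tE hV).toFinset, fun w hw => by simpa using hw, fun B B' hB => ?_⟩
    have : OE V B = OE V B' := OE_congr fun w hw => hB w (by simpa using hw)
    simp only [hX, F.X.ind, this]
  have key := F.X.s_lowc hP G X Θ hΘF hXa hX0 hXl
  -- the product with the net vanishes
  have hDX : ∀ B, Θ B * X B + D B ≤ Θ B := by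
    intro B
    by_cases hd : (∀ y : Pt, |y.1| ≤ (2 * (N + 2) : ℕ) →
        |y.2| ≤ (2 * (N + 2) : ℕ) → Zr (s * y.1, s * y.2) s B) ∧
        Zr (s * (0 : Pt).1, s * (0 : Pt).2) (m * s) B
    · have h1 : X B = 0 := by
        simp only [hX, F.X.ind]
        rw [if_neg]
        refine not_big hs1 hV hCC hVb fun y hy1 hy2 => ?_
        have h3 : (N : ℤ) ≤ ((2 * (N + 2) : ℕ) : ℤ) := by push_cast; omega
        exact s_conf _ _ _ hs1 (hd.1 y (hy1.trans h3) (hy2.trans h3))
      have h2 : Θ B = 1 := by simp only [hΘ, F.X.ind, if_pos hd.2]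
      have h3 : D B = 1 := by
        simp only [hD, F.X.ind]
        exact if_pos hd
      rw [h1, h2, h3]; norm_num
    · have h3 : D B = 0 := by
        simp only [hD, F.X.ind]
        exact if_neg hd
      have h4 : 0 ≤ Θ B := F.X.ind_nonnegD _ _
      have h5 : X B ≤ 1 := by
        simp only [hX, F.X.ind]; split_ifs <;> norm_num
      rw [h3]
      nlinarith
  have hD1 : LocS univ D := by
    rw [hD, F.X.locS_iffD]
    have hL : ∀ y : Pt, ∃ Λ : Finset Pt, ∀ B B' : Set Pt, (∀ w ∈ Λ, w ∈ B ↔ w ∈ B') →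
        (Zr (s * y.1, s * y.2) s B ↔ Zr (s * y.1, s * y.2) s B') := fun y => by
      obtain ⟨Λ, -, h2⟩ := F.X.locS_iffD.1 (s_loc (s * y.1, s * y.2) s hs1).2.loc
      exact ⟨Λ, h2⟩
    choose Λ hΛ using hL
    obtain ⟨Λ₀, -, h0⟩ := F.X.locS_iffD.1 hΘl.2.loc
    set J : Finset Pt := Finset.Icc (-(2 * (N + 2) : ℕ) : ℤ) (2 * (N + 2) : ℕ) ×ˢ
      Finset.Icc (-(2 * (N + 2) : ℕ) : ℤ) (2 * (N + 2) : ℕ) with hJ
    refine ⟨J.biUnion Λ ∪ Λ₀, fun w _ => mem_univ w, fun B B' hB => ?_⟩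
    refine and_congr (forall_congr' fun y => forall_congr' fun h1 => forall_congr' fun h2 => ?_)
      (h0 B B' fun w hw => hB w (Finset.mem_union_right _ hw))
    refine hΛ y B B' fun w hw => hB w (Finset.mem_union_left _ (Finset.mem_biUnion.2 ⟨y, ?_, hw⟩))
    rw [hJ, Finset.mem_product, Finset.mem_Icc, Finset.mem_Icc]
    exact ⟨abs_le.1 h1, abs_le.1 h2⟩
  have hΘu : LocS univ Θ := hΘF.loc.monoD (subset_univ _)
  have hXu : LocS univ X := hXl.monoD (subset_univ _)
  have hΘ0 : Θ ∅ = 0 := hΘF.pin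
  have hD0 : D ∅ = 0 := by
    have h3 := hDX ∅
    have h4 : 0 ≤ D ∅ := F.X.ind_nonnegD _ _
    rw [hΘ0] at h3
    linarith
  have i1 := hint Θ (fun _ => 1) hΘu hΘ0 Vale.Agent.P153.F.Top.Pol.one
  have i2 := hint (fun B => Θ B * X B) (fun _ => 1) (hΘu.mulD hXu) (by simp [hΘ0]) Vale.Agent.P153.F.Top.Pol.one
  have i3 := hint D (fun _ => 1) hD1 hD0 Vale.Agent.P153.F.Top.Pol.one
  have hsum : II P (fun B => Θ B * X B) (fun _ => 1) + II P D (fun _ => 1) ≤
      II P Θ (fun _ => 1) := by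
    unfold II
    rw [← integral_add i2 i3]
    refine integral_mono (i2.add i3) i1 fun h => ?_
    simp only [mul_one]
    exact hDX _
  have hD2 : c ≤ II P D (fun _ => 1) := hp s ((le_max_left _ _).trans hs) 0 m (by omega)
    (by simp only [Prod.fst_zero, abs_zero]; push_cast; omega)
    (by simp only [Prod.snd_zero, abs_zero]; push_cast; omega)
  obtain ⟨h5, h6⟩ := hr (m * s) (hsr.trans (by nlinarith)) (s * (0 : Pt).1, s * (0 : Pt).2)
  change c' ≤ II P Θ (fun _ => 1) at h5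
  change II P Θ (fun _ => 1) ≤ 2 at h6
  have h7 : Pr (Cfg V (frd V 0)) {h | Big (4 * s) (UU V h 1)} ≤
      ev (FreeF G (clo G)) (fun h => X (bl h)) := by
    have h9 := free_eq G
    rw [hFV] at h9
    have hfin : (Cfg V (frd V 0)).Finite := by rw [← h9]; exact (FreeF G (clo G)).finite_toSet
    rw [Pr_eq_Ex hfin, ← Ex_eq_ev', h9]
    refine Ex_mono fun h _ => ?_
    show _ ≤ F.X.ind _ _
    unfold ind F.X.ind
    by_cases h1 : Big (4 * s) (UU V h 1)
    · have h2 : Big (4 * s) (OE V (bl h))ᶜ := h1.mono (compl_subset_compl.2 OE_subset_OO)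
      rw [if_pos (show h ∈ {h | Big (4 * s) (UU V h 1)} from h1)]
      exact (if_pos h2).ge
    · rw [if_neg (show ¬ h ∈ {h | Big (4 * s) (UU V h 1)} from h1)]; split_ifs <;> norm_num
  refine h7.trans ((?_ : _ ≤ 1 - c / 2).trans (le_max_right _ _))
  have h8 : 0 ≤ ev (FreeF G (clo G)) (fun h => X (bl h)) := ev_nonneg _ _ fun h _ => hX0 _
  nlinarith

end Vale.Agent.P153.R2.NH
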