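import Vale.Agent.P153.R2.SDAR.Geo
import Vale.Agent.P153.R2.SDAR.NHBase
import Vale.Agent.P153.R2.FLDI.Riem

/-!
P153-R2, block SDAR (helper506): moment bounds for exact data `±1` in arbitrary finite sets of
vertices, from those for free data.
-/

set_option autoImplicit false

namespace Vale.Agent.P153.R2.SDAR

open Filter Topology Set MeasureTheory
open Vale.Agent.P145.PT Vale.Agent.P153 Vale.Agent.P153.F.Top
open Vale.Agent.P153.F.X (vm)
open Vale.Agent.P153.Topo (Conn)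
open Vale.Agent.P153.R2.FLDI (ab ab_nonneg Bx mem_Bx hv_Bx riem_ab pow_close)

variable {V : Set Pt} {η : Hg}

theorem cfg_exa_ne (hη : ∀ x, η x = 1 ∨ η x = -1) : (Cfg V (exa V η)).Nonempty := by
  refine ⟨η, fun x => ?_, fun x => ?_, fun x _ y _ => ?_⟩
  · rcases hη x with h | h <;> rw [h] <;> decide
  · unfold exa
    split_ifs
    · trivial
    · rfl
  · rcases hη x with h | h <;> rcases hη y with h' | h' <;> rw [h, h'] <;> decide

theorem dat_exa (hV : V.Finite) : Dat V (exa V η) := by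
  refine ⟨hV, fun x hx => ?_, hV.subset fun x hx => ?_⟩
  · unfold exa
    rw [if_neg hx]
    exact finite_singleton _
  · by_contra hc
    apply hx
    unfold exa
    rw [if_neg hc]
    exact subsingleton_singleton

theorem exa_sle_two (hη : ∀ x, η x = 1 ∨ η x = -1) (x : Pt) : SLe (exa V η x) (frd V 2 x) := by
  unfold exa frd
  by_cases hx : x ∈ V
  · rw [if_pos hx, if_pos hx]
    exact SLe.refl _
  · rw [if_neg hx, if_neg hx]
    intro a ha b hb
    rw [mem_singleton_iff] at ha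
    have ha' : a = 1 ∨ a = -1 := ha ▸ hη x
    have hb' : b = 1 ∨ b = 3 := by
      split_ifs at hb
      · simpa using hb
      · right; simpa using hb
    have hab : a ≤ b := by rcases ha' with h | h <;> rcases hb' with h' | h' <;> omega
    rw [min_eq_left hab, max_eq_right hab]
    exact ⟨ha, hb⟩

theorem two_sle_exa (hη : ∀ x, η x = 1 ∨ η x = -1) (x : Pt) : SLe (frd V (-2) x) (exa V η x) := by
  unfold exa frd
  by_cases hx : x ∈ V
  · rw [if_pos hx, if_pos hx]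
    exact SLe.refl _
  · rw [if_neg hx, if_neg hx]
    intro a ha b hb
    rw [mem_singleton_iff] at hb
    have hb' : b = 1 ∨ b = -1 := hb ▸ hη x
    have ha' : a = -3 ∨ a = -1 := by
      split_ifs at ha
      · simpa using ha
      · right; simpa using ha
    have hab : a ≤ b := by rcases ha' with h | h <;> rcases hb' with h' | h' <;> omega
    rw [min_eq_left hab, max_eq_right hab]
    exact ⟨ha, hb⟩

theorem hB_mono {B : Finset (ℤ × ℤ)} {δ : ℝ} {f : ℝ × ℝ → ℝ} (hf : ∀ z, 0 ≤ f z) {g h : Hg}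
    (hgh : g ≤ h) : hB B δ f (vm g) ≤ hB B δ f (vm h) := by
  unfold hB
  refine mul_le_mul_of_nonneg_left (Finset.sum_le_sum fun v _ => ?_) (sq_nonneg _)
  refine mul_le_mul_of_nonneg_right ?_ (F.Top.tl_nonneg hf _)
  unfold vm
  exact_mod_cast hgh v

theorem hB_shift {B : Finset (ℤ × ℤ)} {δ : ℝ} {f : ℝ × ℝ → ℝ} (hf : ∀ z, 0 ≤ f z) (h : Hg)
    (m : ℤ) : hB B δ f (vm fun x => h x + m) = hB B δ f (vm h) + m * ab B δ f := by
  unfold hB ab vm
  rw [mul_left_comm, ← mul_add]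
  congr 1
  rw [Finset.mul_sum, ← Finset.sum_add_distrib]
  refine Finset.sum_congr rfl fun v _ => ?_
  rw [abs_of_nonneg (F.Top.tl_nonneg hf _)]
  push_cast
  ring

/-- The moments for exact data `±1` are bounded by those for free data. -/
theorem exa_mom (hV : V.Finite) (hη : ∀ x, η x = 1 ∨ η x = -1) {B : Finset (ℤ × ℤ)} {δ : ℝ}
    {f : ℝ × ℝ → ℝ} (hf : ∀ z, 0 ≤ f z) (k : ℕ) (hk : 0 < k) :
    Ex (Cfg V (exa V η)) (fun h => hB B δ f (vm h) ^ (2 * k)) ≤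
      2 * (4 ^ k * (Ex (Cfg V (frd V 0)) (fun h => hB B δ f (vm h) ^ (2 * k)) +
        (2 * ab B δ f) ^ (2 * k))) := by
  set X : Hg → ℝ := fun h => hB B δ f (vm h) with hX
  set a : ℝ := ab B δ f with ha
  have ha0 : 0 ≤ a := ab_nonneg B δ f
  have hk2 : 2 * k ≠ 0 := by omega
  have hfin0 : (Cfg V (frd V 0)).Finite := Cfg_finite (NH.dat_frd hV 0)
  -- shifts of the free law
  have shift : ∀ m : ℤ, Even m → ∀ F : Hg → ℝ,
      Ex (Cfg V (frd V m)) F = Ex (Cfg V (frd V 0)) fun h => F fun x => h x + m := fun m hm F =>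
    Ex_bij (fun (h : Hg) x => h x + m) (NH.frd_shift hm) F
  have bound : ∀ m : ℤ, |(m : ℝ)| ≤ 2 → ∀ h : Hg,
      (X fun x => h x + m) ^ (2 * k) ≤ 4 ^ k * (X h ^ (2 * k) + (2 * a) ^ (2 * k)) := by
    intro m hm h
    refine pow_close (c := 2 * a) (by positivity) ?_ k
    rw [hX]
    simp only
    rw [hB_shift hf, add_sub_cancel_left, abs_mul, abs_of_nonneg ha0]
    exact mul_le_mul_of_nonneg_right hm ha0
  have bEx : ∀ m : ℤ, Even m → |(m : ℝ)| ≤ 2 →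
      Ex (Cfg V (frd V m)) (fun h => X h ^ (2 * k)) ≤
        4 ^ k * (Ex (Cfg V (frd V 0)) (fun h => X h ^ (2 * k)) + (2 * a) ^ (2 * k)) := by
    intro m hm hm2
    rw [shift m hm]
    refine (Ex_mono fun h _ => bound m hm2 h).trans (le_of_eq ?_)
    have hne : (Cfg V (frd V 0)).Nonempty := ⟨_, NH.const_mem_frd Even.zero⟩
    rw [Ex_const_mul, Ex_add, Ex_const hfin0 hne]
  -- the positive part
  have h1 : Ex (Cfg V (exa V η)) (fun h => max (X h) 0 ^ (2 * k)) ≤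
      Ex (Cfg V (frd V 2)) (fun h => max (X h) 0 ^ (2 * k)) := by
    refine Cfg_le (dat_exa hV) (NH.dat_frd hV 2) (cfg_exa_ne hη) ⟨_, NH.const_mem_frd (by decide)⟩
      (exa_sle_two hη) _ fun g h hgh => ?_
    exact pow_le_pow_left₀ (le_max_right _ _) (max_le_max_right _ (hB_mono hf hgh)) _
  have h2 : Ex (Cfg V (frd V (-2))) (fun h => -(max (-X h) 0 ^ (2 * k))) ≤
      Ex (Cfg V (exa V η)) (fun h => -(max (-X h) 0 ^ (2 * k))) := by
    refine Cfg_le (NH.dat_frd hV (-2)) (dat_exa hV) ⟨_, NH.const_mem_frd (by decide)⟩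
      (cfg_exa_ne hη) (two_sle_exa hη) _ fun g h hgh => ?_
    exact neg_le_neg (pow_le_pow_left₀ (le_max_right _ _)
      (max_le_max_right _ (neg_le_neg (hB_mono hf hgh))) _)
  rw [Ex_neg, Ex_neg] at h2
  have p1 : ∀ x : ℝ, max x 0 ^ (2 * k) ≤ x ^ (2 * k) := by
    intro x
    rcases le_total 0 x with h | h
    · rw [max_eq_left h]
    · rw [max_eq_right h, zero_pow hk2, pow_mul]
      positivity
  have p2 : ∀ x : ℝ, max (-x) 0 ^ (2 * k) ≤ x ^ (2 * k) := by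
    intro x
    have := p1 (-x)
    rwa [Even.neg_pow (even_two_mul k)] at this
  have p3 : ∀ x : ℝ, x ^ (2 * k) ≤ max x 0 ^ (2 * k) + max (-x) 0 ^ (2 * k) := by
    intro x
    rcases le_total 0 x with h | h
    · rw [max_eq_left h]
      exact le_add_of_nonneg_right (by positivity)
    · rw [max_eq_left (neg_nonneg.2 h), Even.neg_pow (even_two_mul k)]
      exact le_add_of_nonneg_left (by positivity)
  have h3 := bEx 2 (by decide) (by norm_num)
  have h4 := bEx (-2) (by decide) (by norm_num)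
  have h5 : Ex (Cfg V (frd V 2)) (fun h => max (X h) 0 ^ (2 * k)) ≤
      Ex (Cfg V (frd V 2)) (fun h => X h ^ (2 * k)) := Ex_mono fun h _ => p1 _
  have h6 : Ex (Cfg V (frd V (-2))) (fun h => max (-X h) 0 ^ (2 * k)) ≤
      Ex (Cfg V (frd V (-2))) (fun h => X h ^ (2 * k)) := Ex_mono fun h _ => p2 _
  have h7 : Ex (Cfg V (exa V η)) (fun h => X h ^ (2 * k)) ≤
      Ex (Cfg V (exa V η)) (fun h => max (X h) 0 ^ (2 * k)) +
        Ex (Cfg V (exa V η)) (fun h => max (-X h) 0 ^ (2 * k)) := by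
    rw [← Ex_add]
    exact Ex_mono fun h _ => p3 _
  linarith

/-- The free moments are increasing in the domain. -/
theorem frd_mom (hV : V.Finite) {B I : Finset (ℤ × ℤ)} (hVI : V ⊆ I) {δ : ℝ} {f : ℝ × ℝ → ℝ}
    (hf : ∀ z, 0 ≤ f z) (hfV : ∀ x, f (dp δ x) ≠ 0 → x ∈ V) (k : ℕ) :
    Ex (Cfg V (frd V 0)) (fun h => hB B δ f (vm h) ^ k) ≤ ze I (fun ω => hB B δ f ω ^ k) := by
  classical
  have e1 : Ex (Cfg V (frd V 0)) (fun h => hB B δ f (vm h) ^ k) =
      ze hV.toFinset (fun ω => hB B δ f ω ^ k) := by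
    unfold ze
    rw [← Ex_eq_ev', NH.free_eq, hV.coe_toFinset]
    refine Ex_congr fun h _ => ?_
    congr 1
    unfold hB
    congr 1
    refine Finset.sum_congr rfl fun v _ => ?_
    rw [tl_eq]
    by_cases hv : f (dp δ v) = 0
    · rw [hv]; ring
    · have hvV : v ∈ hV.toFinset := by rw [hV.mem_toFinset]; exact hfV v hv
      unfold vm vh
      rw [if_pos hvV]
  rw [e1]
  have hC : ∀ k : ℕ, Cone (fun ω => hB B δ f ω ^ k) := by
    intro k
    induction k with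
    | zero => exact (Pol.one (P := fun c => 0 ≤ c)).of_eq fun ω => by simp
    | succ k ih => exact (Cone.hB (B := B) (δ := δ) ih hf).of_eq fun ω => by ring
  exact cone_ze_mono s_mono (fun v hv => by
    rw [hV.mem_toFinset] at hv
    exact hVI hv) (hC k)

theorem lf_eq {δ R : ℝ} (hδ : 0 < δ) {f : ℝ × ℝ → ℝ} (hf : TestOn (Metric.ball 0 R) f) (h : Hg) :
    F.SD.Lf δ f h = hB (Bx δ R) δ f (vm h) := by
  rw [← F.X.Sdx.hv_vm hδ hf.1 hf.2.1, hv_Bx hδ (R := R)]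
  exact fun z hz => hf.2.2 (subset_tsupport _ hz)

section

variable {δ : ℕ → ℝ}

theorem fin_of_ball {δ R : ℝ} (hδ : 0 < δ) (hV : ∀ x ∈ V, dp δ x ∈ Metric.ball (0 : ℝ × ℝ) R) :
    V.Finite := (lat_finite hδ R).subset hV

theorem sub_Vs {δ R : ℝ} (hδ : 0 < δ) (hδ1 : 2 * δ < 1)
    (hV : ∀ x ∈ V, dp δ x ∈ Metric.ball (0 : ℝ × ℝ) R) :
    V ⊆ (Vs δ (Metric.ball (0 : ℝ × ℝ) (R + 1)) : Set Pt) := by
  intro x hx
  rw [Finset.mem_coe, mem_Vs hδ Metric.isBounded_ball]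
  intro z hz
  rw [Metric.mem_closedBall] at hz
  have h1 := hV x hx
  rw [Metric.mem_ball] at h1 ⊢
  linarith [dist_triangle z (dp δ x) 0]

theorem TestOn.ball_mono {R R' : ℝ} (h : R ≤ R') {f : ℝ × ℝ → ℝ}
    (hf : TestOn (Metric.ball (0 : ℝ × ℝ) R) f) : TestOn (Metric.ball (0 : ℝ × ℝ) R') f :=
  hf.mono (Metric.ball_subset_ball h)

/-- All moments are bounded, uniformly in the domain and the data `±1`. -/
theorem mom_bd (hδ : ∀ n, 0 < δ n) (hδ0 : Tendsto δ atTop (𝓝 0)) (hmb : S_mb δ) {R : ℝ}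
    {f : ℝ × ℝ → ℝ} (hf : TestOn (Metric.ball 0 R) f) (hf0 : ∀ z, 0 ≤ f z) (k : ℕ) :
    ∃ C : ℝ, 0 ≤ C ∧ ∀ᶠ n in atTop, ∀ (V : Set Pt) (η : Hg),
      (∀ x ∈ V, dp (δ n) x ∈ Metric.ball (0 : ℝ × ℝ) R) → (∀ x, η x = 1 ∨ η x = -1) →
      (∀ x, f (dp (δ n) x) ≠ 0 → x ∈ V) →
      Ex (Cfg V (exa V η)) (fun h => F.SD.Lf (δ n) f h ^ (2 * k)) ≤ C := by
  rcases Nat.eq_zero_or_pos k with rfl | hk
  · refine ⟨1, zero_le_one, Eventually.of_forall fun n V η hV hη _ => ?_⟩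
    simp only [mul_zero, pow_zero]
    exact Ex_le_const zero_le_one fun _ _ => le_rfl
  obtain ⟨C1, hC1⟩ := hmb (Metric.ball 0 (R + 1)) Metric.isOpen_ball Metric.isBounded_ball f
    (hf.mono (subset_univ _)) hf0 (2 * k)
  have hab := riem_ab hf.cont hf.2.1 (R := R) (fun z hz => hf.2.2 (subset_tsupport _ hz)) hδ hδ0
  have hab' : ∀ᶠ n in atTop, ab (Bx (δ n) R) (δ n) f < (∫ z, |f z|) + 1 :=
    hab.eventually (gt_mem_nhds (by linarith))
  have hδ1 : ∀ᶠ n in atTop, 2 * δ n < 1 := by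
    have h2 : Tendsto (fun n => 2 * δ n) atTop (𝓝 (2 * 0)) := hδ0.const_mul 2
    rw [mul_zero] at h2
    exact h2.eventually (gt_mem_nhds one_pos)
  set A : ℝ := (∫ z, |f z|) + 1 with hA
  have hA0 : 0 ≤ A := by
    have : 0 ≤ ∫ z, |f z| := integral_nonneg fun z => abs_nonneg _
    linarith
  refine ⟨2 * (4 ^ k * (max C1 0 + (2 * A) ^ (2 * k))), by positivity, ?_⟩
  filter_upwards [hC1, hab', hδ1] with n h1 h2 h3 V η hV hη hfV
  have hVf := fin_of_ball (hδ n) hV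
  have e1 : ∀ h, F.SD.Lf (δ n) f h = hB (Bx (δ n) R) (δ n) f (vm h) := lf_eq (hδ n) hf
  simp only [e1]
  refine (exa_mom hVf hη hf0 k hk).trans ?_
  have h4 := frd_mom (B := Bx (δ n) R) hVf (sub_Vs (hδ n) h3 hV) hf0 hfV (2 * k)
  have h5 : ze (Vs (δ n) (Metric.ball (0 : ℝ × ℝ) (R + 1)))
      (fun ω => hB (Bx (δ n) R) (δ n) f ω ^ (2 * k)) =
      EE (δ n) (Metric.ball 0 (R + 1)) (fun ω => hv (δ n) f ω ^ (2 * k)) := by
    unfold EE
    congr 1
    funext ω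
    rw [hv_Bx (hδ n) (R := R)]
    exact fun z hz => hf.2.2 (subset_tsupport _ hz)
  rw [h5] at h4
  have h6 : (2 * ab (Bx (δ n) R) (δ n) f) ^ (2 * k) ≤ (2 * A) ^ (2 * k) :=
    pow_le_pow_left₀ (by have := ab_nonneg (Bx (δ n) R) (δ n) f; positivity) (by linarith) _
  have h7 := (h4.trans h1).trans (le_max_left C1 0)
  have h8 : (0 : ℝ) ≤ 4 ^ k := by positivity
  nlinarith [mul_le_mul_of_nonneg_left (add_le_add h7 h6) h8]

/-- The second moments are small for test functions with small `L²` and `L¹` norms. -/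
theorem l2_bd (hδ : ∀ n, 0 < δ n) (hδ0 : Tendsto δ atTop (𝓝 0)) (hl2 : S_l2 δ) {R : ℝ}
    (hR : 0 < R) : ∃ C : ℝ, 0 ≤ C ∧ ∀ f : ℝ × ℝ → ℝ, TestOn (Metric.ball 0 R) f →
      (∀ z, 0 ≤ f z) → ∀ ε : ℝ, 0 < ε → ∀ᶠ n in atTop, ∀ (V : Set Pt) (η : Hg),
      (∀ x ∈ V, dp (δ n) x ∈ Metric.ball (0 : ℝ × ℝ) R) → (∀ x, η x = 1 ∨ η x = -1) →
      (∀ x, f (dp (δ n) x) ≠ 0 → x ∈ V) →
      Ex (Cfg V (exa V η)) (fun h => F.SD.Lf (δ n) f h ^ 2) ≤
        C * ((∫ z, f z ^ 2) + (∫ z, f z) ^ 2) + ε := by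
  obtain ⟨C2, hC20, hC2⟩ := hl2 (R + 1) (by linarith)
  refine ⟨8 * C2 + 32, by positivity, fun f hf hf0 ε hε => ?_⟩
  have h0 := hC2 (Metric.ball 0 (R + 1)) Metric.isOpen_ball subset_rfl f
    (TestOn.ball_mono (by linarith) hf) hf0 (ε / 16) (by positivity)
  have hab := riem_ab hf.cont hf.2.1 (R := R) (fun z hz => hf.2.2 (subset_tsupport _ hz)) hδ hδ0
  have e0 : ∫ z, |f z| = ∫ z, f z := by
    congr 1
    funext z
    exact abs_of_nonneg (hf0 z)
  rw [e0] at hab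
  have hI0 : 0 ≤ ∫ z, f z := integral_nonneg hf0
  have hab2 : ∀ᶠ n in atTop, 32 * ab (Bx (δ n) R) (δ n) f ^ 2 < 32 * (∫ z, f z) ^ 2 + ε / 2 :=
    ((hab.pow 2).const_mul 32).eventually (gt_mem_nhds (by linarith))
  have hδ1 : ∀ᶠ n in atTop, 2 * δ n < 1 := by
    have h2 : Tendsto (fun n => 2 * δ n) atTop (𝓝 (2 * 0)) := hδ0.const_mul 2
    rw [mul_zero] at h2
    exact h2.eventually (gt_mem_nhds one_pos)
  filter_upwards [h0, hab2, hδ1] with n h1 h2 h3 V η hV hη hfV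
  have hVf := fin_of_ball (hδ n) hV
  have e1 : ∀ h, F.SD.Lf (δ n) f h = hB (Bx (δ n) R) (δ n) f (vm h) := lf_eq (hδ n) hf
  simp only [e1]
  have key := exa_mom (B := Bx (δ n) R) (δ := δ n) hVf hη hf0 1 one_pos
  simp only [mul_one, pow_one] at key
  refine key.trans ?_
  have h4 := frd_mom (B := Bx (δ n) R) hVf (sub_Vs (hδ n) h3 hV) hf0 hfV 2
  have h5 : ze (Vs (δ n) (Metric.ball (0 : ℝ × ℝ) (R + 1)))
      (fun ω => hB (Bx (δ n) R) (δ n) f ω ^ 2) =
      EE (δ n) (Metric.ball 0 (R + 1)) (fun ω => hv (δ n) f ω ^ 2) := by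
    unfold EE
    congr 1
    funext ω
    rw [hv_Bx (hδ n) (R := R)]
    exact fun z hz => hf.2.2 (subset_tsupport _ hz)
  rw [h5] at h4
  have h6 := h4.trans h1
  have h7 : 0 ≤ ∫ z, f z ^ 2 := integral_nonneg fun z => sq_nonneg _
  have h8 : 0 ≤ (∫ z, f z) ^ 2 := sq_nonneg _
  nlinarith [mul_nonneg hC20 h8]

end

end Vale.Agent.P153.R2.SDAR
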