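import Vale.Agent.P153.R2.SDAD.Unif
import Vale.Agent.P153.R2.FLDI.LatDefs

/-!
P153-R2, block SDAR: interfaces (helper506).

The closed law of `(U, η)` is the uniform law on `Cfg U (exa U η)`; the open law of `(S, η)` is
`muT P` conditioned on `h = η` on the finite set `S`. The three strands of the cell
`x0 < q₁, y0 < q₂, q₁ + q₂ < s0`: half strips with the coordinates `ts i`, `ls i`.
-/

set_option autoImplicit false

namespace Vale.Agent.P153.R2.SDAR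

open Filter Topology Set MeasureTheory
open Vale.Agent.P145.PT Vale.Agent.P153 Vale.Agent.P153.F Vale.Agent.P153.F.SD
open Vale.Agent.P153.F.Top (dp c1 c2)
open Vale.Agent.P153.Topo (Conn)

/-! ### Strands -/

/-- Transversal coordinate of the strand `i` (`0`: upwards, `1`: downwards, `2`: down right). -/
noncomputable def ts (i : Fin 3) (z : ℝ × ℝ) : ℝ :=
  if i = 0 then c1 z else if i = 1 then -c1 z else c1 z + c2 z

/-- Longitudinal coordinate of the strand. -/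
noncomputable def ls (i : Fin 3) (z : ℝ × ℝ) : ℝ :=
  if i = 0 then c2 z else -c2 z

/-- The transversal position of the strand `i` of the cell. -/
noncomputable def t0 (b : PW) (i : Fin 3) : ℝ := if i = 0 then b.x0 else if i = 1 then -b.x0 else b.s0

/-- The start of the strand `i` of the cell. -/
noncomputable def l0 (b : PW) (i : Fin 3) : ℝ := if i = 0 then b.s0 - b.x0 else -b.y0

/-- The box of radius `r` around the point of the strand `i` with the coordinates `t`, `l`. -/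
def sbx (i : Fin 3) (t l r : ℝ) : Set (ℝ × ℝ) := {z | |ts i z - t| ≤ r ∧ |ls i z - l| ≤ r}

/-- The vertices over a set of the plane. -/
def ov (δ : ℝ) (K : Set (ℝ × ℝ)) : Set Pt := {x | dp δ x ∈ K}

/-- The thickened cell. -/
def tcell (b : PW) (w : ℝ) : Set (ℝ × ℝ) :=
  {z | b.x0 - w ≤ c1 z ∧ b.y0 - w ≤ c2 z ∧ c1 z + c2 z ≤ b.s0 + w}

/-- The open corridors (half width `w`). -/
def corr (b : PW) (w : ℝ) : Set (ℝ × ℝ) := {z | ∃ i, |ts i z - t0 b i| ≤ w ∧ l0 b i ≤ ls i z}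

/-! ### Observables -/

/-- The observable of the Schwinger-Dyson equation with the power `j`. -/
noncomputable def YJ (κ δ : ℝ) (ψ f : ℝ × ℝ → ℝ) (j : ℕ) (h : Hg) : ℝ :=
  Lf δ (lap ψ) h * Lf δ f h ^ j + κ * j * (∫ x, ψ x * f x) * Lf δ f h ^ (j - 1)

/-- Products of smeared heights. -/
noncomputable def FF (δ : ℝ) (l : List (ℝ × ℝ → ℝ)) (h : Hg) : ℝ := (l.map fun f => Lf δ f h).prod

/-- Nonnegative test functions on `K`. -/
def NT (K : Set (ℝ × ℝ)) (l : List (ℝ × ℝ → ℝ)) : Prop :=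
  ∀ f ∈ l, Sm f ∧ HasCompactSupport f ∧ tsupport f ⊆ K ∧ ∀ z, 0 ≤ f z

/-- Exact data: odd Lipschitz heights bounded by `2 M + 1` on the whole plane. -/
def Bd (M : ℕ) (η : Hg) : Prop := Lip η ∧ ∀ x, |η x| ≤ 2 * M + 1

/-- A finite domain which contains the vertices over `K`, in a ball. -/
structure Dmn (δ Rb : ℝ) (K : Set (ℝ × ℝ)) (U : Set Pt) : Prop where
  fin : U.Finite
  bdd : ∀ x ∈ U, dp δ x ∈ Metric.ball (0 : ℝ × ℝ) Rb
  cc : CC U
  sub : ov δ K ⊆ U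

/-! ### INPUT SDB (blocks SDAD, F2): open laws, uniformly in bounded data -/

open Classical in
/-- The indicator of `h = η` on `S`. -/
noncomputable def gS (S : Finset Pt) (η h : Hg) : ℝ := if ∀ x ∈ S, h x = η x then 1 else 0

/-- Schwinger-Dyson equations for the open laws: the exact data are arbitrary, bounded by `2 M + 1`,
on arbitrary sets `S` at distance `ρ` inside the arms and from the open set `D` of the test
functions; `S` contains a fixed small ball of each arm. -/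
def S_sdb (κ : ℝ) (P : Measure Fld) : Prop := ∀ b : PW, b.x0 + b.y0 < b.s0 → 0 < b.e →
  ∀ D : Set (ℝ × ℝ), IsOpen D → tcell b 0 ⊆ D → ∀ (M : ℕ) (ρ : ℝ), 0 < ρ →
  ∀ Q : Fin 3 → ℝ × ℝ, ∀ ψ f0 g : ℝ × ℝ → ℝ, TestOn b.box ψ → TestOn b.box f0 → TestOn D g →
  (∀ x, g x ≠ 0 → x ∈ b.K1 ∨ x ∈ b.K2 ∨ x ∈ b.K3) → ∀ (j : ℕ) (ε : ℝ), 0 < ε →
  ∃ δ₀ : ℝ, 0 < δ₀ ∧ ∀ δ : ℝ, 0 < δ → δ < δ₀ → ∀ (S : Finset Pt) (η : Hg), Bd M η →
    (∀ x ∈ S, Metric.closedBall (dp δ x) ρ ⊆ b.K1 ∨ Metric.closedBall (dp δ x) ρ ⊆ b.K2 ∨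
      Metric.closedBall (dp δ x) ρ ⊆ b.K3) →
    (∀ x ∈ S, Disjoint (Metric.closedBall (dp δ x) ρ) D) →
    (Metric.closedBall (Q 0) ρ ⊆ b.K1 ∧ Metric.closedBall (Q 1) ρ ⊆ b.K2 ∧
      Metric.closedBall (Q 2) ρ ⊆ b.K3) →
    (∀ i, ∀ x, dp δ x ∈ Metric.closedBall (Q i) ρ → x ∈ S) →
    |∫ h, YJ κ δ ψ (fun x => f0 x + g x) j h * gS S η h ∂(muT P)| ≤
      ε * ∫ h, gS S η h ∂(muT P)

/-! ### INPUT RINS: insertion of a small obstacle at a wall of one sign -/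

/-- A finite union of connected open sets (for instance of balls). -/
def Un (K : Set (ℝ × ℝ)) : Prop := ∃ (k : ℕ) (C : Fin k → Set (ℝ × ℝ)),
  (∀ m, IsOpen (C m) ∧ IsConnected (C m)) ∧ K = ⋃ m, C m

/-- The walls with values different from `σ` lie in `n` connected sets off `V` and off `A`. -/
def FewN (n : ℕ) (V : Set Pt) (η : Hg) (σ : ℤ) (A : Set Pt) : Prop := ∃ Z : Fin n → Set Pt,
  (∀ m, Z m ⊆ Vᶜ ∧ Cn (Z m) ∧ Disjoint (Z m) A) ∧
  ∀ x ∈ V, ∀ y, y ∉ V → Adj x y → η y ≠ σ → ∃ m, y ∈ Z m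

/-- Twelve connected sets. -/
abbrev Few (V : Set Pt) (η : Hg) (σ : ℤ) (A : Set Pt) : Prop := FewN 12 V η σ A

/-- The walls with values different from `σ` lie in one connected set `Z` off `V` and off `A`, the
other walls in one connected set `O` off `V`, and `Z`, `O` are disjoint. -/
def OneBad (V : Set Pt) (η : Hg) (σ : ℤ) (A : Set Pt) : Prop := ∃ Z O : Set Pt,
  Z ⊆ Vᶜ ∧ O ⊆ Vᶜ ∧ Cn Z ∧ Cn O ∧ Disjoint Z O ∧ Disjoint Z A ∧
  ∀ x ∈ V, ∀ y, y ∉ V → Adj x y → (η y ≠ σ → y ∈ Z) ∧ (η y = σ → y ∈ O)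

open Classical in
/-- The data with the value `s` on `N`. -/
noncomputable def put (η : Hg) (N : Set Pt) (s : ℤ) : Hg := fun x => if x ∈ N then s else η x

/-- Insertion of a connected obstacle `N = ` component of `V ∩ B(x₀, r)` with the exact value `σ`;
the walls visible in the component `W` of `V ∩ B(x₀, R₀)` have the value `σ`. `K` is an open
set with finitely many components which contains the supports of the test functions. Data `±1`.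
The walls of the other sign lie in one connected set `Z` which does not meet the neighbours of `W`,
the walls with the sign `σ` in a connected set disjoint from `Z`. -/
def S_rins : Prop := ∀ (K : Set (ℝ × ℝ)) (Rb R₀ : ℝ) (l : List (ℝ × ℝ → ℝ)), Un K → NT K l →
  0 < R₀ → ∀ ε : ℝ, 0 < ε → ∃ r₀ : ℝ, 0 < r₀ ∧ ∀ r : ℝ, 0 < r → r ≤ r₀ →
  ∃ δ₀ : ℝ, 0 < δ₀ ∧ ∀ δ : ℝ, 0 < δ → δ < δ₀ → ∀ (V : Set Pt) (η : Hg) (i : Fin 3) (t l₁ : ℝ)
    (a : Pt) (σ : ℤ), Dmn δ Rb K V → (∀ x, η x = 1 ∨ η x = -1) → (σ = 1 ∨ σ = -1) →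
    Disjoint K (sbx i t l₁ R₀) →
    (∃ y, y ∉ V ∧ dp δ y ∈ sbx i t l₁ r) → a ∈ V → dp δ a ∈ sbx i t l₁ r →
    (∀ x ∈ Cl (V ∩ ov δ (sbx i t l₁ R₀)) {a}, ∀ y, y ∉ V → Adj x y → η y = σ) →
    OneBad V η σ (ebd (Cl (V ∩ ov δ (sbx i t l₁ R₀)) {a})) →
    |Ex (Cfg V (exa V η)) (FF δ l) -
      Ex (Cfg (V \ Cl (V ∩ ov δ (sbx i t l₁ r)) {a})
        (exa (V \ Cl (V ∩ ov δ (sbx i t l₁ r)) {a})
          (put η (Cl (V ∩ ov δ (sbx i t l₁ r)) {a}) σ))) (FF δ l)| ≤ ε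

/-! ### INPUT GAPS: closed law = open law -/

/-- The window of the strand `i` at the front `lf`. In the box of radius `r` at the front the domain
is `{ls < lf}` and the data behind the front are `σ`; the strand up to the front belongs to `U`;
`U` does not enter the strip behind the front. -/
structure Win (b : PW) (δ : ℝ) (i : Fin 3) (lf w r : ℝ) (σ : ℤ) (U : Set Pt) (η : Hg) : Prop where
  flat : ∀ x, dp δ x ∈ sbx i (t0 b i) lf r →
    (x ∈ U ↔ ls i (dp δ x) < lf) ∧ (lf ≤ ls i (dp δ x) → η x = σ)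
  front : ∀ x, |ts i (dp δ x) - t0 b i| ≤ 3 * w → l0 b i ≤ ls i (dp δ x) →
    ls i (dp δ x) < lf → x ∈ U
  sealed : ∀ x ∈ U, |ts i (dp δ x) - t0 b i| ≤ 3 * w → ls i (dp δ x) < lf

/-- The set of the exact data of the open law: the vertices in the ball `Rp` off `U` and off the
corridors. -/
def pin (b : PW) (δ w Rp : ℝ) (U : Set Pt) : Set Pt :=
  {x | dp δ x ∈ Metric.closedBall (0 : ℝ × ℝ) Rp ∧ x ∉ U ∧ dp δ x ∉ corr b w}

/-- The closed law is close to the open law if the windows are narrow (`w`), uniformly, for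
finitely many observables. -/
def S_gaps (P : Measure Fld) : Prop := ∀ (b : PW) (K : Set (ℝ × ℝ)) (Rb r : ℝ) (lf : Fin 3 → ℝ)
  (M : ℕ) (L : List (List (ℝ × ℝ → ℝ))), b.x0 + b.y0 < b.s0 → Un K → (∀ l ∈ L, NT K l) →
  0 < r → (∀ i, Disjoint K (sbx i (t0 b i) (lf i) r)) → (∀ i, l0 b i + r < lf i) →
  ∀ ε : ℝ, 0 < ε → ∀ w₀ : ℝ, 0 < w₀ → ∃ w : ℝ, 0 < w ∧ w ≤ w₀ ∧
  ∀ Rp : ℝ, Rb + 1 ≤ Rp → ∃ δ₀ : ℝ, 0 < δ₀ ∧ ∀ δ : ℝ, 0 < δ → δ < δ₀ →
  ∀ (U : Set Pt) (η : Hg) (σ : Fin 3 → ℤ) (S : Finset Pt), Dmn δ Rb (K ∪ tcell b w) U → Bd M η →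
    (∀ i, σ i = 1 ∨ σ i = -1) → (∀ i, Win b δ i (lf i) w r (σ i) U η) →
    (∀ i, Few U η (σ i) (ov δ (sbx i (t0 b i) (lf i) r))) →
    (S : Set Pt) = pin b δ w Rp U → ∀ l ∈ L,
    |∫ h, FF δ l h * gS S η h ∂(muT P) -
      Ex (Cfg U (exa U η)) (FF δ l) * ∫ h, gS S η h ∂(muT P)| ≤ ε * ∫ h, gS S η h ∂(muT P)

/-! ### INPUT EXPL (block TIGH, helper443): exploration from the far strips -/

/-- The far strip of the strand `i`. -/
def strip (b : PW) (w : ℝ) (lf : Fin 3 → ℝ) (i : Fin 3) : Set (ℝ × ℝ) :=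
  {z | |ts i z - t0 b i| ≤ 3 * w ∧ lf i ≤ ls i z}

/-- The explored sets `V \ U h` stay within distance `t` of the far strips; the data `ζ h` of the
remaining domain `U h` are bounded by `2 M + 1`, up to an event of probability `ε`; `M` does not
depend on the width `w` of the strips. -/
def S_expl : Prop := ∀ (b : PW) (Rb r t : ℝ) (lf : Fin 3 → ℝ), b.x0 + b.y0 < b.s0 → 0 < t →
  t ≤ r / 4 → r ≤ (b.s0 - b.x0 - b.y0) / 4 → (∀ i, l0 b i + r < lf i) → ∀ ε : ℝ, 0 < ε →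
  ∃ M : ℕ, ∀ w : ℝ, 0 < w → w ≤ t / 12 → ∃ δ₀ : ℝ, 0 < δ₀ ∧ ∀ δ : ℝ, 0 < δ → δ < δ₀ →
  ∀ (V : Set Pt) (η : Hg) (σ : Fin 3 → ℤ), V.Finite →
    (∀ x ∈ V, dp δ x ∈ Metric.ball (0 : ℝ × ℝ) Rb) → CC V → (∀ x, η x = 1 ∨ η x = -1) →
    (∀ i, σ i = 1 ∨ σ i = -1) →
    (∀ i x, dp δ x ∈ sbx i (t0 b i) (lf i) r →
      (x ∈ V ↔ ls i (dp δ x) < lf i) ∧ (lf i ≤ ls i (dp δ x) → η x = σ i)) →
    (∀ i, FewN 6 V η (σ i) (ov δ (sbx i (t0 b i) (lf i) r))) →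
    ∃ (G : Set Hg) (U : Hg → Set Pt) (ζ : Hg → Hg),
      Pr (Cfg V (exa V η)) Gᶜ ≤ ε ∧
      (∀ h ∈ Cfg V (exa V η), h ∈ G → U h ⊆ V ∧ CC (U h) ∧ Bd M (ζ h) ∧
        (∀ x ∈ V, x ∉ U h → ∃ i, ∃ z ∈ strip b w lf i, dist (dp δ x) z ≤ t) ∧
        (∀ i, ∀ x ∈ U h, |ts i (dp δ x) - t0 b i| ≤ 3 * w → ls i (dp δ x) < lf i) ∧
        (∀ i x, dp δ x ∈ sbx i (t0 b i) (lf i) (r / 2) →
          (x ∈ U h ↔ ls i (dp δ x) < lf i) ∧ (lf i ≤ ls i (dp δ x) → ζ h x = σ i)) ∧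
        ∀ i, Few (U h) (ζ h) (σ i) (ov δ (sbx i (t0 b i) (lf i) (r / 2)))) ∧
      ∀ F : Hg → ℝ, (∀ h h' : Hg,
        (∀ x ∈ V, (∀ i, ∀ z ∈ strip b w lf i, t < dist (dp δ x) z) → h x = h' x) → F h = F h') →
        Ex (Cfg V (exa V η)) (fun h => ind G h * F h) =
          Ex (Cfg V (exa V η)) fun h => ind G h * Ex (Cfg (U h) (exa (U h) (ζ h))) F

end Vale.Agent.P153.R2.SDAR
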