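import Vale.Agent.P153.R2.SDAR.Geo

/-!
P153-R2, block SDAR (helper506): the scenario (lattice domains with data `±1` in a bounded domain)
and the statement of the reduction to the closed laws of explored domains.
-/

set_option autoImplicit false

namespace Vale.Agent.P153.R2.SDAR

open Filter Topology Set MeasureTheory
open Vale.Agent.P145.PT Vale.Agent.P153 Vale.Agent.P153.F Vale.Agent.P153.F.SD
open Vale.Agent.P153.F.Top (dp c1 c2)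
open Vale.Agent.P153.Topo (Conn)

/-- Lattice domains `V n` with the exact data `η n = ±1` and the bounded open set `D`, along a
filter `l ≤ atTop` (`atTop`, or an ultrafilter): compact subsets of `D` are eventually covered,
every frontier point is a limit of vertices off `V n`, the walls of each sign lie in one connected
set, and from the base point `z₀` one sees only one sign at every accessible frontier point off the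
finite set `E z₀`. -/
structure Scen (l : Filter ℕ) (D : Set (ℝ × ℝ)) (E : ℝ × ℝ → Set (ℝ × ℝ)) (δ : ℕ → ℝ)
    (V : ℕ → Set Pt) (η : ℕ → Hg) (Rb : ℝ) : Prop where
  le : l ≤ atTop
  pos : ∀ n, 0 < δ n
  lim : Tendsto δ atTop (𝓝 0)
  opn : IsOpen D
  sub : D ⊆ Metric.ball (0 : ℝ × ℝ) Rb
  Efin : ∀ z₀, (E z₀).Finite
  ball : ∀ᶠ n in l, ∀ x ∈ V n, dp (δ n) x ∈ Metric.ball (0 : ℝ × ℝ) Rb
  cc : ∀ᶠ n in l, CC (V n)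
  pm : ∀ n x, η n x = 1 ∨ η n x = -1
  cpt : ∀ K : Set (ℝ × ℝ), IsCompact K → K ⊆ D → ∀ᶠ n in l, ov (δ n) K ⊆ V n
  wall : ∀ x ∈ frontier D, ∀ r : ℝ, 0 < r →
    ∀ᶠ n in l, ∃ y, y ∉ V n ∧ dp (δ n) y ∈ Metric.ball x r
  few : ∀ᶠ n in l, ∀ σ : ℤ, σ = 1 ∨ σ = -1 → ∃ Z : Set Pt, Z ⊆ (V n)ᶜ ∧ Cn Z ∧
    (∀ y ∈ Z, η n y ≠ σ) ∧ ∀ x ∈ V n, ∀ y, y ∉ V n → Adj x y → η n y ≠ σ → y ∈ Z
  sgn : ∀ z₀ ∈ D, ∀ z, segment ℝ z₀ z ⊆ D → ∀ x ∈ frontier D, x ∉ E z₀ →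
    openSegment ℝ z x ⊆ D →
    ∃ R₀ : ℝ, 0 < R₀ ∧ ∃ σ : ℤ, (σ = 1 ∨ σ = -1) ∧ ∀ p ∈ openSegment ℝ z x, dist p x < R₀ →
      ∃ ρ : ℝ, 0 < ρ ∧ ∀ᶠ n in l, ∀ a ∈ V n, dist (dp (δ n) a) p < ρ →
        ∀ x' ∈ Cl (V n ∩ ov (δ n) (Metric.ball x R₀)) {a}, ∀ y, y ∉ V n → Adj x' y → η n y = σ

/-- Reduction: for a cell in general position and finitely many observables, the closed law of
`V n` is, up to `ε`, a mixture of closed laws of domains `U h` with flat windows and bounded data. -/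
def S_red : Prop := ∀ (l : Filter ℕ) (D : Set (ℝ × ℝ)) (E : ℝ × ℝ → Set (ℝ × ℝ)) (δ : ℕ → ℝ)
  (V : ℕ → Set Pt) (η : ℕ → Hg) (Rb : ℝ), Scen l D E δ V η Rb →
  ∀ b : PW, b.x0 + b.y0 < b.s0 → tcell b 0 ⊆ D → ∀ z₀ ∈ tcell b 0,
  (∀ z ∈ E z₀, c1 z ≠ b.x0 ∧ c1 z + c2 z ≠ b.s0) → ∀ C : Set (ℝ × ℝ), IsCompact C → C ⊆ D →
  (∀ i, ∀ z ∈ C, ¬ (ts i z = t0 b i ∧ l0 b i ≤ ls i z)) →
  ∀ L : List (List (ℝ × ℝ → ℝ)), (∀ q ∈ L, NT C q) → ∀ ε : ℝ, 0 < ε →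
  ∃ (K : Set (ℝ × ℝ)) (r : ℝ) (lf : Fin 3 → ℝ) (M : ℕ) (w₀ : ℝ), Un K ∧ C ⊆ K ∧ 0 < r ∧ 0 < w₀ ∧
    (∀ i, Disjoint K (sbx i (t0 b i) (lf i) r)) ∧ (∀ i, l0 b i + r < lf i) ∧
    ∀ w : ℝ, 0 < w → w ≤ w₀ → ∀ᶠ n in l,
      ∃ (V' : Set Pt) (η' : Hg) (G : Set Hg) (U : Hg → Set Pt) (ζ : Hg → Hg) (σ : Fin 3 → ℤ),
        V'.Finite ∧ (∀ x, η' x = 1 ∨ η' x = -1) ∧ (∀ i, σ i = 1 ∨ σ i = -1) ∧
        (∀ q ∈ L, |Ex (Cfg (V n) (exa (V n) (η n))) (FF (δ n) q) -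
          Ex (Cfg V' (exa V' η')) (FF (δ n) q)| ≤ ε) ∧
        Pr (Cfg V' (exa V' η')) Gᶜ ≤ ε ∧
        (∀ h ∈ Cfg V' (exa V' η'), h ∈ G → Dmn (δ n) Rb (K ∪ tcell b w) (U h) ∧ Bd M (ζ h) ∧
          (∀ i, Win b (δ n) i (lf i) w r (σ i) (U h) (ζ h)) ∧
          ∀ i, Few (U h) (ζ h) (σ i) (ov (δ n) (sbx i (t0 b i) (lf i) r))) ∧
        ∀ q, NT C q → Ex (Cfg V' (exa V' η')) (fun h => ind G h * FF (δ n) q h) =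
          Ex (Cfg V' (exa V' η')) fun h => ind G h * Ex (Cfg (U h) (exa (U h) (ζ h))) (FF (δ n) q)

/-- The goal of the block, for a scenario. -/
def S_scen (κ : ℝ) : Prop := ∀ (l : Filter ℕ) (D : Set (ℝ × ℝ)) (E : ℝ × ℝ → Set (ℝ × ℝ))
  (δ : ℕ → ℝ) (V : ℕ → Set Pt) (η : ℕ → Hg) (Rb : ℝ), Scen l D E δ V η Rb →
  ∀ ψ f : ℝ × ℝ → ℝ, TestOn D ψ → TestOn D f → ∀ j : ℕ,
  Tendsto (fun n => Ex (Cfg (V n) (exa (V n) (η n))) (YJ κ (δ n) ψ f j)) l (𝓝 0)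

end Vale.Agent.P153.R2.SDAR
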