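import Vale.Agent.P153.R2.SDAR.Mom

/-!
P153-R2, block SDAR (helper506): algebra of the observables.
-/

set_option autoImplicit false

namespace Vale.Agent.P153.R2.SDAR

open Filter Topology Set MeasureTheory
open Vale.Agent.P145.PT Vale.Agent.P153 Vale.Agent.P153.F Vale.Agent.P153.F.SD
open Vale.Agent.P153.F.Top (dp c1 c2)
open Vale.Agent.P153.Topo (Conn)

theorem TestOn.un {D : Set (ℝ × ℝ)} {f : ℝ × ℝ → ℝ} (hf : TestOn D f) : TestOn univ f :=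
  hf.mono (subset_univ _)

theorem lf_sub {δ : ℝ} (hδ : 0 < δ) {f g : ℝ × ℝ → ℝ} (hf : TestOn univ f) (hg : TestOn univ g)
    (h : Hg) : Lf δ (fun z => f z - g z) h = Lf δ f h - Lf δ g h := by
  have hfg := hf.sub hg
  rw [← F.X.Sdx.hv_vm hδ hfg.1 hfg.2.1, ← F.X.Sdx.hv_vm hδ hf.1 hf.2.1,
    ← F.X.Sdx.hv_vm hδ hg.1 hg.2.1]
  exact F.X.Sdx.hv_sub' hδ hf.2.1 hg.2.1 _

theorem lf_lin {δ : ℝ} (hδ : 0 < δ) {f g : ℝ × ℝ → ℝ} (hf : TestOn univ f) (hg : TestOn univ g)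
    {u : ℝ × ℝ → ℝ} (hu : TestOn univ u) (a b : ℝ) (e : ∀ z, u z = a * f z + b * g z) (h : Hg) :
    Lf δ u h = a * Lf δ f h + b * Lf δ g h := by
  rw [← F.X.Sdx.hv_vm hδ hu.1 hu.2.1, ← F.X.Sdx.hv_vm hδ hf.1 hf.2.1,
    ← F.X.Sdx.hv_vm hδ hg.1 hg.2.1, show u = fun z => a * f z + b * g z from funext e]
  exact F.Top.hv_add hδ hf.2.1 hg.2.1 a b _

theorem FF_cons (δ : ℝ) (f : ℝ × ℝ → ℝ) (l : List (ℝ × ℝ → ℝ)) (h : Hg) :
    FF δ (f :: l) h = Lf δ f h * FF δ l h := by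
  simp [FF]

theorem FF_rep (δ : ℝ) (f : ℝ × ℝ → ℝ) (j : ℕ) (h : Hg) :
    FF δ (List.replicate j f) h = Lf δ f h ^ j := by
  simp [FF]

theorem FF_app (δ : ℝ) (l l' : List (ℝ × ℝ → ℝ)) (h : Hg) :
    FF δ (l ++ l') h = FF δ l h * FF δ l' h := by
  simp [FF]

theorem YJ_eq {κ δ : ℝ} (hδ : 0 < δ) {ψ p m f : ℝ × ℝ → ℝ} (hp : TestOn univ p)
    (hm : TestOn univ m) (e : ∀ z, lap ψ z = p z - m z) (j : ℕ) (h : Hg) :
    YJ κ δ ψ f j h = FF δ (p :: List.replicate j f) h - FF δ (m :: List.replicate j f) h +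
      κ * j * (∫ x, ψ x * f x) * FF δ (List.replicate (j - 1) f) h := by
  unfold YJ
  rw [FF_cons, FF_cons, FF_rep, FF_rep, show lap ψ = fun z => p z - m z from funext e,
    lf_sub hδ hp hm]
  ring

/-- Averages of the observable. -/
theorem Ex_YJ {κ δ : ℝ} (hδ : 0 < δ) {ψ p m f : ℝ × ℝ → ℝ} (hp : TestOn univ p)
    (hm : TestOn univ m) (e : ∀ z, lap ψ z = p z - m z) (j : ℕ) (S : Set Hg) (G : Hg → ℝ) :
    Ex S (fun h => G h * YJ κ δ ψ f j h) =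
      Ex S (fun h => G h * FF δ (p :: List.replicate j f) h) -
        Ex S (fun h => G h * FF δ (m :: List.replicate j f) h) +
      κ * j * (∫ x, ψ x * f x) * Ex S (fun h => G h * FF δ (List.replicate (j - 1) f) h) := by
  rw [← Ex_sub, ← Ex_const_mul, ← Ex_add]
  congr 1
  funext h
  rw [YJ_eq hδ hp hm e]
  ring

theorem Ex_YJ1 {κ δ : ℝ} (hδ : 0 < δ) {ψ p m f : ℝ × ℝ → ℝ} (hp : TestOn univ p)
    (hm : TestOn univ m) (e : ∀ z, lap ψ z = p z - m z) (j : ℕ) (S : Set Hg) :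
    Ex S (YJ κ δ ψ f j) = Ex S (FF δ (p :: List.replicate j f)) -
        Ex S (FF δ (m :: List.replicate j f)) +
      κ * j * (∫ x, ψ x * f x) * Ex S (FF δ (List.replicate (j - 1) f)) := by
  have := Ex_YJ hδ hp hm e j (f := f) (κ := κ) S (fun _ => 1)
  simpa only [one_mul] using this

/-- Cauchy-Schwarz with an indicator. -/
theorem Ex_ind_le {α : Type*} {S : Set α} (hS : S.Finite) (A : Set α) (F : α → ℝ) :
    |Ex S (fun a => ind A a * F a)| ≤ √(Pr S A) * √(Ex S fun a => F a ^ 2) := by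
  rw [← Real.sqrt_mul (Pr_nonneg _ _)]
  refine Real.abs_le_sqrt ?_
  have h1 := Ex_mul_sq_le hS (ind A) F
  have e1 : Ex S (fun a => ind A a ^ 2) = Pr S A := by
    rw [Pr_eq_Ex hS]
    congr 1
    funext a
    unfold ind
    split_ifs <;> norm_num
  rw [e1] at h1
  exact h1

end Vale.Agent.P153.R2.SDAR
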