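import Vale.Agent.P153.R2.SDAR.Scen
import Vale.Agent.P153.R2.SDAR.Alg
import Vale.Agent.P153.R2.KAPV.Law

/-!
P153-R2, block SDAR (helper506): the Schwinger-Dyson equations, uniformly over all arc domains, from
those for scenarios along ultrafilters.
-/

set_option autoImplicit false

namespace Vale.Agent.P153.R2.SDAR

open Filter Topology Set MeasureTheory
open Vale.Agent.P145.PT Vale.Agent.P153 Vale.Agent.P153.F Vale.Agent.P153.F.SD
open Vale.Agent.P153.F.Top (dp c1 c2)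
open Vale.Agent.P153.Topo (Conn)
open Vale.Agent.P153.R2.INTF (Arcs CA eta)
open Vale.Agent.P153.R2.KAPV (Adm InsF hf L_sd)

/-- The arc domains of a sequence form a scenario along every ultrafilter (helper443). -/
def S_arcscen : Prop := ∀ U : Ultrafilter ℕ, (U : Filter ℕ) ≤ atTop → ∀ (R₀ : ℝ) (δ : ℕ → ℝ)
  (F P M : ℕ → Set Pt), Tendsto δ atTop (𝓝 0) → (∀ n, Adm R₀ (δ n) (F n) (P n) (M n)) →
  ∀ (K : Set (ℝ × ℝ)) (r : ℝ), IsCompact K → 0 < r →
  (∀ n, ∀ v : Pt, (∃ z ∈ K, dist (dp (δ n) v) z ≤ r) → v ∈ F n) →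
  ∃ (D : Set (ℝ × ℝ)) (E : ℝ × ℝ → Set (ℝ × ℝ)) (Rb : ℝ), K ⊆ D ∧
    Scen (U : Filter ℕ) D E δ F (fun n => eta (M n)) Rb

theorem hf_eq {δ : ℝ} (hδ : 0 < δ) {f : ℝ × ℝ → ℝ} (h1 : TestOn univ f) (h : Hg) :
    hf δ f h = Lf δ f h := by
  unfold hf
  exact F.X.Sdx.hv_vm hδ h1.1 h1.2.1 h

/-- **The Schwinger-Dyson equations, uniformly over all arc domains.** -/
theorem l_sd_of {κ : ℝ} (hS : S_scen κ) (hA : S_arcscen) : L_sd κ := by
  intro R₀ ψ f hψ hf' j r ε hr hε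
  by_contra hcon
  push Not at hcon
  choose δ hδ F P M hadm hi1 hi2 hbad using fun n : ℕ => hcon (1 / ((n : ℝ) + 1)) (by positivity)
  have hpos : ∀ n, 0 < δ n := fun n => (hadm n).dpos
  have hlim : Tendsto δ atTop (𝓝 0) := squeeze_zero (fun n => (hpos n).le) (fun n => (hδ n).le)
    tendsto_one_div_add_atTop_nhds_zero_nat
  set U : Ultrafilter ℕ := hyperfilter ℕ with hU
  have hUa : (U : Filter ℕ) ≤ atTop := by
    rw [← Nat.cofinite_eq_atTop]
    exact hyperfilter_le_cofinite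
  obtain ⟨D, E, Rb, hKD, hsc⟩ := hA U hUa R₀ δ F P M hlim hadm (tsupport ψ ∪ tsupport f) r
    (hψ.cs.isCompact.union hf'.cs.isCompact) hr (by
      rintro n v ⟨z, hz | hz, hd⟩
      · exact hi1 n v ⟨z, hz, hd⟩
      · exact hi2 n v ⟨z, hz, hd⟩)
  have h1 := hS U D E δ F (fun n => eta (M n)) Rb hsc ψ f
    ⟨hψ.1, hψ.2.1, subset_union_left.trans hKD⟩ ⟨hf'.1, hf'.2.1, subset_union_right.trans hKD⟩ j
  rw [Metric.tendsto_nhds] at h1
  obtain ⟨n, hn⟩ := (h1 ε hε).exists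
  rw [Real.dist_eq, sub_zero] at hn
  have h2 := hbad n
  have e1 : Ex (Cfg (F n) (exa (F n) (eta (M n)))) (YJ κ (δ n) ψ f j) =
      Ex (CA (F n) (M n)) (fun h => hf (δ n) (lap ψ) h * hf (δ n) f h ^ j) +
      κ * j * (∫ z, ψ z * f z) * Ex (CA (F n) (M n)) (fun h => hf (δ n) f h ^ (j - 1)) := by
    rw [← Ex_const_mul, ← Ex_add]
    show Ex (CA (F n) (M n)) _ = Ex (CA (F n) (M n)) _
    congr 1
    funext h
    rw [hf_eq (hpos n) hψ.lap, hf_eq (hpos n) hf']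
    rfl
  rw [e1] at hn
  linarith

end Vale.Agent.P153.R2.SDAR
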