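import Vale.Agent.P153.R2.SDAR.ArcSgn
import Vale.Agent.P153.R2.SDAR.UnifT

/-!
# P153-R2, block SDAR (helper443): `S_arcscen`
-/

set_option autoImplicit false

namespace Vale.Agent.P153.R2.SDAR

open Filter Topology Set
open Vale.Agent.P145.PT Vale.Agent.P153 Vale.Agent.P153.F Vale.Agent.P153.F.SD
open Vale.Agent.P153.F.Top (dp c1 c2)
open Vale.Agent.P153.R2.INTF (Arcs eta)
open Vale.Agent.P153.R2.KAPV (Adm)

/-- The arc domains of a sequence form a scenario along every ultrafilter. -/
theorem s_arcscen : S_arcscen := by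
  intro U hU R₀ δ F P M hlim hadm K r _ hr hK
  have S : ArcS U δ F P M (R₀ + 1) := {
    le := hU
    pos := fun n => (hadm n).dpos
    lim := hlim
    arcs := Eventually.of_forall fun n => (hadm n).arcs
    ball := Eventually.of_forall fun n v hv => by
      rw [Metric.mem_ball, dist_zero_right]
      linarith [(hadm n).bF v hv] }
  obtain ⟨E, hE⟩ := scen_of_arcs S
  refine ⟨DD U δ F, E, R₀ + 1 + 1, fun z hz => ⟨r, hr, Eventually.of_forall fun n v hv => ?_⟩, hE⟩
  exact hK n v ⟨z, hz, le_of_lt hv⟩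

/-- The Schwinger-Dyson equations, uniformly over all arc domains. -/
theorem l_sd {κ : ℝ} (hS : S_scen κ) : KAPV.L_sd κ := l_sd_of hS s_arcscen

end Vale.Agent.P153.R2.SDAR
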