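import Vale.Agent.P153.R2.SDAR.NHBase
import Vale.Agent.P153.R2.F2.Expl

/-!
# P153-R2, block TIGH (helper443): macroscopic pieces of `{|h| ≥ 2 M + 3}` are unlikely

For exact data `±1` in finite simply connected domains in a fixed ball.
-/

namespace Vale.Agent.P153.R2.NH

open Set Relation MeasureTheory
open Vale.Agent.P153
open Vale.Agent.P153.Topo (Conn)
open Vale.Agent.P153.F.X (S_int S_pos S_rsw)
open Vale.Agent.P153.F.Top (dp)

variable {V : Set Pt} {h : Hg} {a : ℤ}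

theorem OO_conn {x : Pt} (hx : x ∈ OO V h a) : ∃ z, z ∉ V ∧ Conn (OO V h a) z x := by
  obtain ⟨z, hz, hzx⟩ := hx
  refine ⟨z, hz, ?_⟩
  have hx0 : z ∈ OO V h a := compl_subset_OO hz
  refine Conn.ind (P := fun w => Conn (OO V h a) z w) (Conn.refl hx0) ?_ hzx
  intro u v hu huv hv ih
  exact ih.tail huv ⟨z, hz, hu.tail huv hv⟩

/-- The exploration preserves simple connectivity. -/
theorem cc_VV (hCC : CC V) : CC (VV V h a) := by
  have h0 : OO V h a ⊆ (VV V h a)ᶜ := fun x hx hx' => hx'.1 hx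
  have h1 : Vᶜ ⊆ (VV V h a)ᶜ := compl_subset_OO.trans h0
  have key : ∀ x, x ∉ VV V h a → ∃ z, z ∉ V ∧ Conn (VV V h a)ᶜ z x := by
    intro x hx
    by_cases hxO : x ∈ OO V h a
    · obtain ⟨z, hz, h2⟩ := OO_conn hxO
      exact ⟨z, hz, h2.mono h0⟩
    · have : ∃ y, Adj x y ∧ y ∉ UU V h a := by
        by_contra hcon
        push Not at hcon
        exact hx ⟨hxO, hcon⟩
      obtain ⟨y, hxy, hy⟩ := this
      obtain ⟨z, hz, h2⟩ := OO_conn (not_not.1 hy)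
      exact ⟨z, hz, (h2.mono h0).tail (Topo.adj_symm hxy) hx⟩
  intro x y hx hy
  obtain ⟨z, hz, h2⟩ := key x hx
  obtain ⟨w, hw, h3⟩ := key y hy
  exact h2.symm.trans (((hCC z w hz hw).mono h1).trans h3)

/-- **No macroscopic high pieces**, free data. -/
theorem nh_box {P : Measure (Pt → ℤ)} (hP : GFF.Plane P) (hint : S_int P) (hpos : S_pos P)
    (hrsw : S_rsw P) (N : ℕ) : ∃ q : ℝ, 0 ≤ q ∧ q < 1 ∧ ∃ s₀ : ℤ, 1 ≤ s₀ ∧ ∀ s, s₀ ≤ s →
      ∀ (n : ℕ) (V : Set Pt), V.Finite → CC V → V ⊆ bx 0 (N * s) →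
        Pr (Cfg V (frd V 0)) {h | Big (4 * s) (UU V h (4 * n + 1))} ≤ q ^ (n + 1) := by
  obtain ⟨q, hq0, hq1, s₀, hs₀, hb⟩ := base hP hint hpos hrsw N
  refine ⟨q, hq0, hq1, s₀, hs₀, fun s hs n V hV hCC hVb => ?_⟩
  exact nh (X := Big (4 * s)) (fun S T hST => Big.mono hST)
    (C := fun V => V.Finite ∧ CC V ∧ V ⊆ bx 0 (N * s)) (fun V hV => hV.1)
    (fun V a hV _ _ h _ => ⟨hV.1.subset VV_subset, cc_VV hV.2.1, VV_subset.trans hV.2.2⟩) hq0
    (fun V hV => hb s hs V hV.1 hV.2.1 hV.2.2) n V ⟨hV, hCC, hVb⟩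

theorem ng_abs {η : Hg} (hη : ∀ x, |η x| = 1) : ∀ x, |F2.ng η x| = 1 := fun x => by
  unfold F2.ng
  rw [abs_neg]
  exact hη x

theorem cx_nonempty {η : Hg} (hη : ∀ x, |η x| = 1) : (Cfg V (exa V η)).Nonempty := by
  refine ⟨η, ?_⟩
  rw [show Cfg V (exa V η) = F2.Cx V η from rfl, F2.mem_Cx]
  refine ⟨fun x => ?_, fun _ _ => rfl, fun x _ y _ => ?_⟩
  · rcases abs_eq_one.1 (hη x) with h1 | h1
    · rw [h1]; exact odd_one
    · rw [h1]; exact ⟨-1, rfl⟩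
  · have h1 := abs_eq_one.1 (hη x)
    have h2 := abs_eq_one.1 (hη y)
    rw [abs_le]
    omega

/-- Comparison with free data. -/
theorem exa_le_frd {η : Hg} (hV : V.Finite) (hη : ∀ x, |η x| = 1) (n : ℕ) (d : ℤ) :
    Pr (Cfg V (exa V η)) {h | Big d {x | 4 * (n : ℤ) + 4 ≤ h x}} ≤
      Pr (Cfg V (frd V 0)) {h | Big d (UU V h (4 * n + 1))} := by
  have e2 : Even (2 : ℤ) := even_two
  rw [← Pr_shift e2 hV (Big d), Pr_eq_Ex (F2.Cx_finite hV η), Pr_eq_Ex (Cfg_finite (dat_frd hV _))]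
  refine (Cfg_le (F := ind {h | Big d {x | 4 * (n : ℤ) + 4 ≤ h x}}) (F2.dat_exa hV η)
    (dat_frd hV 2) (cx_nonempty hη) ⟨_, const_mem_frd e2⟩ ?_ ?_).trans (Ex_mono fun h hh => ?_)
  · intro x
    by_cases hx : x ∈ V
    · simp only [exa, frd, if_pos hx]
      exact SLe.refl _
    · have h1 := abs_eq_one.1 (hη x)
      by_cases hxe : x ∈ ebd V
      · simp only [exa, frd, if_neg hx, if_pos hxe]
        intro c hc d hd
        simp only [mem_singleton_iff] at hc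
        simp only [mem_insert_iff, mem_singleton_iff] at hd ⊢
        subst hc
        omega
      · simp only [exa, frd, if_neg hx, if_neg hxe]
        intro c hc d hd
        simp only [mem_singleton_iff] at hc hd ⊢
        subst hc hd
        omega
  · intro g g' hg
    unfold ind
    by_cases h1 : g ∈ {h | Big d {x | 4 * (n : ℤ) + 4 ≤ h x}}
    · have h2 : g' ∈ {h | Big d {x | 4 * (n : ℤ) + 4 ≤ h x}} :=
        Big.mono (fun x hx => le_trans (show 4 * (n : ℤ) + 4 ≤ g x from hx) (hg x)) h1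
      simp only [if_pos h1, if_pos h2, le_refl]
    · simp only [if_neg h1]
      split_ifs <;> norm_num
  · have hsub : {x | 4 * (n : ℤ) + 4 ≤ h x} ⊆ UU V h (4 * n + 1 + 2) := by
      intro x hx
      have hx' : 4 * (n : ℤ) + 4 ≤ h x := hx
      refine mem_UU_of_lt ?_ (by omega)
      by_contra hxV
      have h1 := hh.2.1 x
      unfold frd at h1
      rw [if_neg hxV] at h1
      split_ifs at h1
      · simp only [mem_insert_iff, mem_singleton_iff] at h1; omega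
      · simp only [mem_singleton_iff] at h1; omega
    unfold ind
    by_cases h1 : h ∈ {h | Big d {x | 4 * (n : ℤ) + 4 ≤ h x}}
    · have h2 : h ∈ {h | Big d (UU V h (4 * n + 1 + 2))} := Big.mono hsub h1
      rw [if_pos h1, if_pos h2]
    · rw [if_neg h1]
      split_ifs <;> norm_num

/-- A connected set of high absolute values has one sign. -/
theorem big_abs {η : Hg} {d : ℤ} {m : ℤ} (hm : 2 ≤ m) (hη : ∀ x, |η x| = 1)
    (hh : h ∈ Cfg V (exa V η)) (hb : Big d {x | m ≤ |h x|}) :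
    Big d {x | m ≤ h x} ∨ Big d {x | m ≤ F2.ng h x} := by
  obtain ⟨x, y, hxy, hd⟩ := hb
  have hV : ∀ z, m ≤ |h z| → z ∈ V := by
    intro z hz
    by_contra hcon
    have := F2.Cx_out (η := η) hh hcon
    rw [this, hη z] at hz
    omega
  have hx : m ≤ |h x| := hxy.left_mem
  rcases le_or_gt 0 (h x) with hx0 | hx0
  · left
    refine ⟨x, y, ?_, hd⟩
    have h1 : m ≤ h x := by rwa [abs_of_nonneg hx0] at hx
    refine Conn.ind (P := fun z => Conn {x | m ≤ h x} x z) (Conn.refl h1) ?_ hxy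
    intro u v hu huv hv ih
    refine ih.tail huv ?_
    have h2 : m ≤ h u := ih.right_mem
    have h3 : m ≤ |h v| := hv
    have h4 := abs_le.1 (hh.2.2 u (hV u hu.right_mem) v huv)
    show m ≤ h v
    rcases abs_cases (h v) with ⟨h5, _⟩ | ⟨h5, _⟩ <;> omega
  · right
    refine ⟨x, y, ?_, hd⟩
    have h1 : m ≤ F2.ng h x := by rwa [abs_of_neg hx0] at hx
    refine Conn.ind (P := fun z => Conn {x | m ≤ F2.ng h x} x z) (Conn.refl h1) ?_ hxy
    intro u v hu huv hv ih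
    refine ih.tail huv ?_
    have h2 : m ≤ - h u := ih.right_mem
    have h3 : m ≤ |h v| := hv
    have h4 := abs_le.1 (hh.2.2 u (hV u hu.right_mem) v huv)
    show m ≤ - h v
    rcases abs_cases (h v) with ⟨h5, _⟩ | ⟨h5, _⟩ <;> omega

theorem dp_bx {δ Rb : ℝ} (hδ : 0 < δ) {x : Pt} (hx : dp δ x ∈ Metric.ball (0 : ℝ × ℝ) Rb) :
    δ * |(x.1 : ℝ)| < 2 * Rb ∧ δ * |(x.2 : ℝ)| < 2 * Rb := by
  rw [Metric.mem_ball, dist_zero_right, Prod.norm_def, max_lt_iff] at hx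
  simp only [dp, Real.norm_eq_abs, abs_mul, abs_of_pos hδ] at hx
  obtain ⟨h1, h2⟩ := hx
  have h3 : (1.5 : ℝ) ≤ √3 := by
    rw [Real.le_sqrt (by norm_num) (by norm_num)]
    norm_num
  have h4 : |√3 / 2| = √3 / 2 := abs_of_nonneg (by positivity)
  rw [h4] at h2
  have h5 : 0 ≤ δ * |(x.2 : ℝ)| := by positivity
  have h6 : 3 / 4 * (δ * |(x.2 : ℝ)|) < Rb := by
    refine lt_of_le_of_lt ?_ h2
    nlinarith
  have h7 : |(x.1 : ℝ)| ≤ |(x.1 : ℝ) + x.2 / 2| + |(x.2 : ℝ)| / 2 := by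
    have := abs_sub ((x.1 : ℝ) + x.2 / 2) (x.2 / 2)
    rw [add_sub_cancel_right, abs_div, abs_two] at this
    exact this
  have h8 : δ * |(x.1 : ℝ)| ≤ δ * |(x.1 : ℝ) + x.2 / 2| + δ * |(x.2 : ℝ)| / 2 := by
    have := mul_le_mul_of_nonneg_left h7 hδ.le
    rw [mul_add] at this
    linarith
  constructor
  · linarith
  · linarith

/-- **TIGH.** -/
theorem tigh {P : Measure (Pt → ℤ)} (hP : GFF.Plane P) (hint : S_int P) (hpos : S_pos P)
    (hrsw : S_rsw P) {Rb t ε : ℝ} (hRb : 0 < Rb) (ht : 0 < t) (hε : 0 < ε) :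
    ∃ (M₀ : ℕ) (δ₀ : ℝ), 0 < δ₀ ∧ ∀ M : ℕ, M₀ ≤ M → ∀ δ : ℝ, 0 < δ → δ < δ₀ →
      ∀ V : Set Pt, V.Finite → CC V → (∀ x ∈ V, dp δ x ∈ Metric.ball (0 : ℝ × ℝ) Rb) →
      ∀ η : Hg, (∀ x, |η x| = 1) → ∀ d : ℤ, t ≤ δ * d →
        Pr (Cfg V (exa V η)) {h | Big d {x | 2 * (M : ℤ) + 3 ≤ |h x|}} ≤ ε := by
  obtain ⟨N, hN⟩ := exists_nat_ge (16 * Rb / t)
  obtain ⟨q, hq0, hq1, s₀, hs₀, hb⟩ := nh_box hP hint hpos hrsw N
  obtain ⟨n, hn⟩ := exists_pow_lt_of_lt_one (half_pos hε) hq1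
  have hs₀' : (1 : ℝ) ≤ s₀ := by exact_mod_cast hs₀
  refine ⟨2 * n + 1, min (t / 6) (t / (8 * s₀)), lt_min (by positivity) (by positivity),
    fun M hM δ hδ hδ' V hV hCC hVb η hη d hd => ?_⟩
  rw [lt_min_iff] at hδ'
  obtain ⟨hd1, hd2⟩ := hδ'
  set d' : ℤ := ⌈t / δ⌉ with hd'
  have h1 : t / δ ≤ d' := Int.le_ceil _
  have h2 : d' ≤ d := by
    rw [hd', Int.ceil_le, div_le_iff₀ hδ]
    linarith
  set s : ℤ := d' / 4 with hs
  have h3 : 4 * s ≤ d' := by omega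
  have h4 : d' ≤ 4 * s + 3 := by omega
  have h4' : (d' : ℝ) ≤ 4 * s + 3 := by exact_mod_cast h4
  have h5 : 6 ≤ t / δ := by rw [le_div_iff₀ hδ]; linarith
  have h6 : t / (8 * δ) ≤ s := by
    have : t / (8 * δ) = (t / δ) / 8 := by rw [div_div, mul_comm]
    rw [this]
    linarith
  have h7 : s₀ ≤ s := by
    have h8 : (s₀ : ℝ) ≤ t / (8 * δ) := by
      rw [le_div_iff₀ (by positivity)]
      rw [lt_div_iff₀ (by positivity)] at hd2
      linarith
    exact_mod_cast h8.trans h6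
  have h8 : V ⊆ bx 0 (N * s) := by
    intro x hx
    obtain ⟨k1, k2⟩ := dp_bx hδ (hVb x hx)
    have h9 : 2 * Rb ≤ δ * (N * s) := by
      have h10 : 16 * Rb / t * (t / (8 * δ)) ≤ N * s := by
        refine mul_le_mul hN h6 (by positivity) (by positivity)
      have h11 : 16 * Rb / t * (t / (8 * δ)) = 2 * Rb / δ := by
        field_simp
        ring
      rw [h11, div_le_iff₀ hδ] at h10
      linarith
    have h12 : ∀ a : ℤ, δ * |(a : ℝ)| < 2 * Rb → |a| ≤ N * s := by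
      intro a ha
      have h13 : δ * |(a : ℝ)| < δ * (N * s) := lt_of_lt_of_le ha h9
      have h14 : |(a : ℝ)| < N * s := lt_of_mul_lt_mul_left h13 hδ.le
      have h15 : ((|a| : ℤ) : ℝ) < ((N * s : ℤ) : ℝ) := by push_cast; exact h14
      exact (Int.cast_lt.1 h15).le
    refine ⟨?_, ?_⟩
    · simpa using h12 _ k1
    · simpa using h12 _ k2
  have key : ∀ η : Hg, (∀ x, |η x| = 1) →
      Pr (Cfg V (exa V η)) {h | Big d {x | 2 * (M : ℤ) + 3 ≤ h x}} ≤ ε / 2 := by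
    intro η hη
    refine (Pr_mono fun h _ hh => ?_).trans ((exa_le_frd hV hη n (4 * s)).trans
      ((hb s h7 n V hV hCC h8).trans ?_))
    · refine Big.mono (fun x hx => ?_) (Big.anti (h3.trans h2) hh)
      have h9 : 2 * (M : ℤ) + 3 ≤ h x := hx
      show 4 * (n : ℤ) + 4 ≤ h x
      omega
    · refine le_trans ?_ hn.le
      rw [pow_succ]
      exact mul_le_of_le_one_right (by positivity) hq1.le
  have h9 : Pr (Cfg V (exa V η)) {h | Big d {x | 2 * (M : ℤ) + 3 ≤ |h x|}} ≤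
      Pr (Cfg V (exa V η)) ({h | Big d {x | 2 * (M : ℤ) + 3 ≤ h x}} ∪
        {h | Big d {x | 2 * (M : ℤ) + 3 ≤ F2.ng h x}}) :=
    Pr_mono fun h hh h1 => big_abs (by omega) hη hh h1
  have h10 : Pr (Cfg V (exa V η)) {h | Big d {x | 2 * (M : ℤ) + 3 ≤ F2.ng h x}} ≤ ε / 2 := by
    have h11 := F2.Pr_ng hV η {h | Big d {x | 2 * (M : ℤ) + 3 ≤ h x}}
    refine le_trans (le_of_eq ?_) (key (F2.ng η) (ng_abs hη))
    exact h11.symm
  have h12 := Pr_union_le (Cfg V (exa V η)) {h | Big d {x | 2 * (M : ℤ) + 3 ≤ h x}}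
    {h | Big d {x | 2 * (M : ℤ) + 3 ≤ F2.ng h x}}
  linarith [key η hη]

end Vale.Agent.P153.R2.NH
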