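import Vale.Agent.P153.R2.SDAR.Strand

/-!
# P153-R2, block SDAR (helper443): the exploration of the far strips, `S_expl`
-/

namespace Vale.Agent.P153.R2.SDAR

open Set Relation MeasureTheory
open Vale.Agent.P153 Vale.Agent.P153.F.SD
open Vale.Agent.P153.Topo (Conn)
open Vale.Agent.P153.F.Top (dp c1 c2)
open Vale.Agent.P153.F.X (S_int S_pos S_rsw)
open Vale.Agent.P153.R2.NH (Big)
open Vale.Agent.P153.R2.F2 (Cx mem_Cx Cx_out Cx_finite Cx_self)

variable {V Z : Set Pt} {m : ℤ} {h η : Hg}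

/-- Explored vertices are near the seed. -/
theorem EX_near {x : Pt} (hx : x ∈ EX V Z m h) :
    x ∈ Z ∨ ∃ z ∈ Z, ∃ u, Adj z u ∧ Conn {x | m ≤ |h x|} u x := by
  obtain ⟨z, hz, h1⟩ := hx
  refine Conn.ind (P := fun x => x ∈ Z ∨ ∃ z ∈ Z, ∃ u, Adj z u ∧ Conn {x | m ≤ |h x|} u x)
    (Or.inl hz) ?_ h1
  intro u v _ huv hv ih
  rcases hv with hv | ⟨-, hv⟩
  · exact Or.inl hv
  · right
    rcases ih with ih | ⟨z, hz, u', h2, h3⟩
    · exact ⟨u, ih, v, huv, Conn.refl hv⟩
    · exact ⟨z, hz, u', h2, h3.tail huv hv⟩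

theorem adj_sub {x y : Pt} (h : Adj x y) : |x.1 - y.1| ≤ 1 ∧ |x.2 - y.2| ≤ 1 := by
  rw [Topo.adj_iff] at h
  rw [abs_le, abs_le]
  omega

theorem nb_near {d : ℤ} (hd : 0 ≤ d) (hb : ¬ Big d {x | m ≤ |h x|}) {y : Pt}
    (hy : y ∈ nb (EX V Z m h)) : ∃ z ∈ Z, |y.1 - z.1| ≤ d + 2 ∧ |y.2 - z.2| ≤ d + 2 := by
  have key : ∀ x ∈ EX V Z m h, ∃ z ∈ Z, |x.1 - z.1| ≤ d + 1 ∧ |x.2 - z.2| ≤ d + 1 := by
    intro x hx
    rcases EX_near hx with h1 | ⟨z, hz, u, h1, h2⟩
    · refine ⟨x, h1, ?_, ?_⟩ <;> rw [sub_self, abs_zero] <;> omega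
    · have h3 : ¬ (d < |u.1 - x.1| ∨ d < |u.2 - x.2|) := fun h3 => hb ⟨u, x, h2, h3⟩
      push Not at h3
      have h4 := adj_sub h1
      refine ⟨z, hz, ?_⟩
      simp only [abs_le] at *
      omega
  rcases hy with hy | ⟨-, x, hx, hxy⟩
  · obtain ⟨z, hz, h1, h2⟩ := key y hy
    exact ⟨z, hz, by omega, by omega⟩
  · obtain ⟨z, hz, h1, h2⟩ := key x hx
    have h4 := adj_sub hxy
    refine ⟨z, hz, ?_⟩
    simp only [abs_le] at *
    omega

/-- The part of the explored set which is attached to a part of the seed. -/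
def AX (V Z : Set Pt) (m : ℤ) (h : Hg) (Z' : Set Pt) : Set Pt :=
  Cl (Z ∪ {x | x ∈ V ∧ m ≤ |h x|}) Z'

theorem EX_eq_iUnion {Z' : Fin 3 → Set Pt} (hZ : Z = ⋃ i, Z' i) :
    ∀ x ∈ EX V Z m h, ∃ i, x ∈ AX V Z m h (Z' i) := by
  rintro x ⟨z, hz, h1⟩
  rw [hZ, mem_iUnion] at hz
  obtain ⟨i, hi⟩ := hz
  exact ⟨i, z, hi, h1⟩

theorem AX_sub {Z' : Set Pt} (hZ : Z' ⊆ Z) : AX V Z m h Z' ⊆ EX V Z m h := by
  rintro x ⟨z, hz, h1⟩
  exact ⟨z, hZ hz, h1⟩

theorem AX_conn {Z' : Set Pt} {x : Pt} (hx : x ∈ AX V Z m h Z') :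
    ∃ z ∈ Z', Conn (AX V Z m h Z') z x := by
  obtain ⟨z, hz, h1⟩ := hx
  refine ⟨z, hz, ?_⟩
  refine Conn.ind (P := fun w => Conn (AX V Z m h Z') z w)
    (Conn.refl ⟨z, hz, Conn.refl h1.left_mem⟩) ?_ h1
  intro u v hu huv hv ih
  exact ih.tail huv ⟨z, hz, hu.tail huv hv⟩

/-- The far strip with the explored pieces attached to it is connected. -/
theorem cn_attach {T Z' : Set Pt} (hT : Cn T) (hZT : Z' ⊆ T) (hZV : Z ⊆ V) :
    Cn (T ∪ (V ∩ nb (AX V Z m h Z'))) := by
  have hA : AX V Z m h Z' ⊆ T ∪ (V ∩ nb (AX V Z m h Z')) := by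
    intro x hx
    refine Or.inr ⟨?_, Or.inl hx⟩
    obtain ⟨z, hz, h1⟩ := hx
    rcases h1.right_mem with h2 | h2
    · exact hZV h2
    · exact h2.1
  have key : ∀ x ∈ T ∪ (V ∩ nb (AX V Z m h Z')), ∃ z ∈ T,
      Conn (T ∪ (V ∩ nb (AX V Z m h Z'))) x z := by
    rintro x (hx | hx)
    · exact ⟨x, hx, Conn.refl (Or.inl hx)⟩
    · rcases hx.2 with h1 | ⟨-, r, hr, hrx⟩
      · obtain ⟨z, hz, h2⟩ := AX_conn h1
        exact ⟨z, hZT hz, (h2.mono hA).symm⟩
      · obtain ⟨z, hz, h2⟩ := AX_conn hr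
        exact ⟨z, hZT hz, (Conn.of_adj (Or.inr hx) (hA hr) (Topo.adj_symm hrx)).trans
          (h2.mono hA).symm⟩
  intro x hx y hy
  obtain ⟨z, hz, h1⟩ := key x hx
  obtain ⟨w, hw, h2⟩ := key y hy
  exact h1.trans (((hT z hz w hw).mono subset_union_left).trans h2.symm)

/-- The far strips. -/
def Sg (b : PW) (δ w : ℝ) (lf : Fin 3 → ℝ) (V : Set Pt) (i : Fin 3) : Set Pt :=
  {x | x ∈ V ∧ dp δ x ∈ strip b w lf i}

/-- The behind part of the strip. -/
def Tg (b : PW) (δ w r : ℝ) (lf : Fin 3 → ℝ) (i : Fin 3) : Set Pt :=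
  {x | |ts i (dp δ x) - t0 b i| ≤ 3 * w ∧ lf i + r / 2 < ls i (dp δ x)}

theorem cn_Tg {b : PW} {δ w r : ℝ} (hδ : 0 < δ) {lf : Fin 3 → ℝ} (i : Fin 3) :
    Cn (Tg b δ w r lf i) := by
  have e : Tg b δ w r lf i = {x | |δ * (uu i x : ℝ) - t0 b i| ≤ 3 * w ∧
      lf i + r / 2 < δ * (vv i x : ℝ)} := by
    ext x
    simp only [Tg, mem_ofPred_eq, ts_dpz, ls_dpz]
  rw [e]
  refine cn_rect i (P := fun n => |δ * (n : ℝ) - t0 b i| ≤ 3 * w)
    (Q := fun n => lf i + r / 2 < δ * (n : ℝ)) ?_ ?_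
  · intro a b' c ha hc hab hbc
    have h1 : (a : ℝ) ≤ b' := by exact_mod_cast hab
    have h2 : (b' : ℝ) ≤ c := by exact_mod_cast hbc
    have h3 := mul_le_mul_of_nonneg_left h1 hδ.le
    have h4 := mul_le_mul_of_nonneg_left h2 hδ.le
    simp only [abs_le] at *
    constructor <;> linarith [ha.1, ha.2, hc.1, hc.2]
  · intro a b' c ha _ hab _
    have h1 : (a : ℝ) ≤ b' := by exact_mod_cast hab
    exact lt_of_lt_of_le ha (mul_le_mul_of_nonneg_left h1 hδ.le)

/-- **EXPL.** -/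
theorem s_expl {P : Measure (Pt → ℤ)} (hP : GFF.Plane P) (hint : S_int P) (hpos : S_pos P)
    (hrsw : S_rsw P) : S_expl := by
  classical
  intro b Rb r t lf hb ht htr hr4 hlf ε hε
  have hr : 0 < r := by linarith
  obtain ⟨M, δ₁, hδ₁, hM⟩ := NH.tigh hP hint hpos hrsw (Rb := max Rb 1) (t := t / 8) (ε := ε)
    (lt_max_of_lt_right one_pos) (by linarith) hε
  refine ⟨M, fun w hw hwt => ⟨min δ₁ (t / 24), lt_min hδ₁ (by linarith),
    fun δ hδ hδ' V η σ hV hVb hCC hη hσ hflat hfew => ?_⟩⟩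
  rw [lt_min_iff] at hδ'
  obtain ⟨hd1, hd2⟩ := hδ'
  set d : ℤ := ⌈t / 8 / δ⌉ with hd
  have hd3 : t / 8 ≤ δ * d := by
    have := Int.le_ceil (t / 8 / δ)
    rw [← hd, div_le_iff₀ hδ] at this
    linarith
  have hd4 : δ * d ≤ t / 8 + δ := by
    have := (Int.ceil_lt_add_one (t / 8 / δ)).le
    rw [← hd] at this
    have h2 := mul_le_mul_of_nonneg_left this hδ.le
    rw [mul_add, mul_div_cancel₀ _ hδ.ne'] at h2
    linarith
  have hd0 : 0 ≤ d := by
    have : (0 : ℝ) ≤ d := by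
      by_contra hcon
      push Not at hcon
      have := mul_neg_of_pos_of_neg hδ hcon
      linarith
    exact_mod_cast this
  have hD : δ * ((d + 2 : ℤ) : ℝ) ≤ t / 4 := by
    push_cast
    rw [mul_add]
    linarith
  set m : ℤ := 2 * (M : ℤ) + 3 with hm
  set Z : Set Pt := ⋃ i, Sg b δ w lf V i with hZ
  have hZV : Z ⊆ V := by
    intro x hx
    rw [hZ, mem_iUnion] at hx
    obtain ⟨i, hi⟩ := hx
    exact hi.1
  have hη' : ∀ x, |η x| = 1 := fun x => NH.abs_eq_one.2 (hη x)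
  have hη3 : ∀ x, Odd (η x) := fun x => by
    rcases hη x with h1 | h1 <;> rw [h1]
    · exact odd_one
    · exact ⟨-1, rfl⟩
  -- the seed is behind the flat part
  have hSg : ∀ i, ∀ x ∈ Sg b δ w lf V i, lf i + r < ls i (dp δ x) := by
    intro i x hx
    by_contra hcon
    push Not at hcon
    have h1 := hx.2
    have h2 : dp δ x ∈ sbx i (t0 b i) (lf i) r := by
      refine ⟨h1.1.trans (by linarith), ?_⟩
      rw [abs_le]
      constructor <;> linarith [h1.2]
    have h3 := ((hflat i x h2).1).1 hx.1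
    exact absurd h1.2 (not_le.2 h3)
  have hST : ∀ i, Sg b δ w lf V i ⊆ Tg b δ w r lf i := fun i x hx =>
    ⟨hx.2.1, lt_trans (by linarith) (hSg i x hx)⟩
  -- the seed is attached to the complement
  have hatt : ∀ z ∈ Z, ∃ y, y ∉ V ∧ Conn (Z ∪ Vᶜ) z y := by
    intro z hz
    rw [hZ, mem_iUnion] at hz
    obtain ⟨i, hi⟩ := hz
    set n₀ : ℤ := ⌈lf i / δ⌉ with hn₀
    have hn1 : lf i ≤ δ * n₀ := by
      have := Int.le_ceil (lf i / δ)
      rw [← hn₀, div_le_iff₀ hδ] at this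
      linarith
    have hn2 : δ * n₀ ≤ lf i + δ := by
      have := (Int.ceil_lt_add_one (lf i / δ)).le
      rw [← hn₀] at this
      have h2 := mul_le_mul_of_nonneg_left this hδ.le
      rw [mul_add, mul_div_cancel₀ _ hδ.ne'] at h2
      linarith
    have hz1 := hSg i z hi
    rw [ls_dpz] at hz1
    have hn3 : n₀ ≤ vv i z := by
      have h1 : δ * n₀ < δ * vv i z := by linarith
      exact_mod_cast (lt_of_mul_lt_mul_left h1 hδ.le).le
    have hmem : ∀ n : ℤ, n₀ ≤ n → dp δ (pt i (uu i z) n) ∈ strip b w lf i := by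
      intro n hn
      have h1 : (n₀ : ℝ) ≤ n := by exact_mod_cast hn
      have h2 := mul_le_mul_of_nonneg_left h1 hδ.le
      refine ⟨?_, ?_⟩
      · rw [ts_dpz, uu_pt, ← ts_dpz]
        exact hi.2.1
      · rw [ls_dpz, vv_pt]
        linarith
    refine ⟨pt i (uu i z) n₀, ?_, ?_⟩
    · intro hcon
      have h1 := hmem n₀ le_rfl
      have h2 : dp δ (pt i (uu i z) n₀) ∈ sbx i (t0 b i) (lf i) r := by
        refine ⟨h1.1.trans (by linarith), ?_⟩
        have h3 := h1.2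
        rw [ls_dpz, vv_pt] at h3 ⊢
        rw [abs_le]
        constructor <;> linarith
      exact absurd h1.2 (not_le.2 (((hflat i _ h2).1).1 hcon))
    · have h1 := conn_le (S := Z ∪ Vᶜ) (f := fun n => pt i (uu i z) n) (fun n => adj_v i _ n) hn3
        fun n hn _ => by
          by_cases hnV : pt i (uu i z) n ∈ V
          · left
            rw [hZ, mem_iUnion]
            exact ⟨i, hnV, hmem n hn⟩
          · exact Or.inr hnV
      simp only [pt_uv] at h1
      exact h1.symm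
  -- the explored sets
  set G : Set Hg := {h | ∀ x ∈ V, x ∈ nb (EX V Z m h) →
    ∃ z ∈ Z, |x.1 - z.1| ≤ d + 2 ∧ |x.2 - z.2| ≤ d + 2} with hG
  have hfib : ∀ g h : Hg, fX V Z m g = fX V Z m h → (g ∈ G ↔ h ∈ G) := by
    intro g h hgh
    have e1 : EX V Z m g = EX V Z m h := congrArg Prod.fst hgh
    simp only [hG, mem_ofPred_eq, e1]
  have hodd : ∀ h ∈ Cfg V (exa V η), ∀ x, Odd (h x) := fun h hh => hh.1
  -- near points
  have hnear : ∀ h ∈ G, ∀ x ∈ V, x ∉ UX V Z m h → ∃ i, ∃ z ∈ Sg b δ w lf V i,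
      |x.1 - z.1| ≤ d + 2 ∧ |x.2 - z.2| ≤ d + 2 := by
    intro h hh x hx hxU
    have h1 : x ∈ nb (EX V Z m h) := by
      by_contra hcon
      exact hxU ⟨hx, hcon⟩
    obtain ⟨z, hz, h2⟩ := hh x hx h1
    rw [hZ, mem_iUnion] at hz
    obtain ⟨i, hi⟩ := hz
    exact ⟨i, z, hi, h2⟩
  have hpos2 : ∀ i, ∀ x z : Pt, z ∈ Sg b δ w lf V i → |x.1 - z.1| ≤ d + 2 → |x.2 - z.2| ≤ d + 2 →
      |ts i (dp δ x) - t0 b i| ≤ r / 2 ∧ lf i + r / 2 < ls i (dp δ x) := by
    intro i x z hz h1 h2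
    have h3 := ts_sub hδ.le i h1 h2
    have h4 := ls_sub hδ.le i h2
    have h5 := hz.2.1
    have h6 := hSg i z hz
    rw [abs_le] at h3 h4 h5 ⊢
    refine ⟨⟨?_, ?_⟩, ?_⟩ <;> linarith [h3.1, h3.2, h4.1, h4.2, h5.1, h5.2]
  have hoff : ∀ h ∈ G, ∀ x ∈ V, x ∉ UX V Z m h → ∀ i, dp δ x ∉ sbx i (t0 b i) (lf i) (r / 2) := by
    intro h hh x hx hxU i
    obtain ⟨j, z, hz, h1, h2⟩ := hnear h hh x hx hxU
    obtain ⟨h3, h4⟩ := hpos2 j x z hz h1 h2
    exact strands hr hr4 hlf h3 h4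
  have hsbx : ∀ i, sbx i (t0 b i) (lf i) (r / 2) ⊆ sbx i (t0 b i) (lf i) r := fun i z hz =>
    ⟨hz.1.trans (by linarith), hz.2.trans (by linarith)⟩
  -- the visible data
  have hvis : ∀ h ∈ Cfg V (exa V η), ∀ x ∈ UX V Z m h, ∀ y, y ∉ UX V Z m h → Adj x y →
      |h y| ≤ 2 * M + 1 := by
    intro h hh x hx y hy hxy
    rcases UX_bdry hx hy hxy with h1 | ⟨h1, -, -, h2⟩
    · rw [Cx_out (η := η) hh h1, hη' y]
      omega
    · obtain ⟨c, hc⟩ := hh.1 y
      rw [abs_lt] at h2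
      rw [abs_le]
      omega
  have hfin := Cx_finite hV η
  refine ⟨G, fun h => UX V Z m h, fun h => trc M h, ?_, ?_, ?_⟩
  · -- probability
    refine (Pr_mono fun h hh hhG => ?_).trans (hM M le_rfl δ hδ hd1 V hV hCC (fun x hx =>
      Metric.ball_subset_ball (le_max_left _ _) (hVb x hx)) η hη' d hd3)
    by_contra hcon
    exact hhG fun x _ hx => nb_near hd0 hcon hx
  · intro h hh hhG
    have hlip : Lip h := by
      refine ⟨hh.1, fun x y hxy => ?_⟩
      by_cases hx : x ∈ V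
      · exact hh.2.2 x hx y hxy
      · by_cases hy : y ∈ V
        · rw [abs_sub_comm]
          exact hh.2.2 y hy x (Topo.adj_symm hxy)
        · rw [Cx_out (η := η) hh hx, Cx_out (η := η) hh hy, abs_le]
          rcases hη x with h1 | h1 <;> rcases hη y with h2 | h2 <;> rw [h1, h2] <;> norm_num
    refine ⟨UX_sub, cc_UX hCC hatt, ⟨⟨trc_odd hh.1, fun x y hxy => trc_lip (hlip.2 x y hxy)⟩,
      trc_abs M h⟩, ?_, ?_, ?_, ?_⟩
    · intro x hx hxU
      obtain ⟨i, z, hz, h1, h2⟩ := hnear h hhG x hx hxU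
      refine ⟨i, dp δ z, hz.2, (dist_dp hδ.le h1 h2).trans (by linarith)⟩
    · intro i x hx h1
      by_contra hcon
      push Not at hcon
      apply hx.2
      refine Or.inl (sub_EX ?_)
      rw [hZ, mem_iUnion]
      exact ⟨i, hx.1, h1, hcon⟩
    · intro i x hx
      obtain ⟨h1, h2⟩ := hflat i x (hsbx i hx)
      refine ⟨⟨fun h3 => h1.1 h3.1, fun h3 => ?_⟩, fun h3 => ?_⟩
      · by_contra hcon
        exact hoff h hhG x (h1.2 h3) hcon i hx
      · have h4 : x ∉ V := fun h5 => absurd h3 (not_le.2 (h1.1 h5))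
        have h5 : h x = σ i := by rw [Cx_out (η := η) hh h4, h2 h3]
        show trc M h x = σ i
        rw [trc_eq, h5]
        rw [h5]
        rcases hσ i with h6 | h6 <;> rw [h6] <;> norm_num
    · intro i
      obtain ⟨Y, hY1, hY2⟩ := hfew i
      set T : Fin 3 → Set Pt := fun j => Tg b δ w r lf j ∪
        (V ∩ nb (AX V Z m h (Sg b δ w lf V j))) with hT
      have hTU : ∀ j, T j ⊆ (UX V Z m h)ᶜ := by
        rintro j x (hx | hx) hxU
        · apply hxU.2
          refine Or.inl (sub_EX ?_)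
          rw [hZ, mem_iUnion]
          exact ⟨j, hxU.1, hx.1, le_trans (by linarith) hx.2.le⟩
        · apply hxU.2
          have hA := AX_sub (m := m) (h := h) (V := V) (Z := Z) (Z' := Sg b δ w lf V j)
            (fun y hy => by rw [hZ, mem_iUnion]; exact ⟨j, hy⟩)
          rcases hx.2 with h1 | ⟨-, y, hy, hyx⟩
          · exact Or.inl (hA h1)
          · by_cases hxE : x ∈ EX V Z m h
            · exact Or.inl hxE
            · exact Or.inr ⟨hxE, y, hA hy, hyx⟩
      have hTd : ∀ j, Disjoint (T j) (ov δ (sbx i (t0 b i) (lf i) (r / 2))) := by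
        intro j
        rw [Set.disjoint_left]
        rintro x hx hxb
        have hxU := hTU j hx
        rcases hx with hx | hx
        · exact strands hr hr4 hlf (hx.1.trans (by linarith)) hx.2 hxb
        · exact hoff h hhG x hx.1 hxU i hxb
      have hTc : ∀ j, Cn (T j) := fun j => cn_attach (cn_Tg hδ j) (hST j) hZV
      refine ⟨fun n => if hn : n.val < 6 then Y ⟨n.val, hn⟩ else
        if hn' : n.val < 9 then T ⟨n.val - 6, by omega⟩ else ∅, fun n => ?_, ?_⟩
      · by_cases hn : n.val < 6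
        · simp only [dif_pos hn]
          obtain ⟨h1, h2, h3⟩ := hY1 ⟨n.val, hn⟩
          refine ⟨h1.trans (compl_subset_compl.2 UX_sub), h2, h3.mono_right fun x hx => ?_⟩
          exact hsbx i hx
        · simp only [dif_neg hn]
          by_cases hn' : n.val < 9
          · simp only [dif_pos hn']
            exact ⟨hTU _, hTc _, hTd _⟩
          · simp only [dif_neg hn']
            exact ⟨empty_subset _, fun x hx => absurd hx (notMem_empty x),
              Set.empty_disjoint _⟩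
      · intro x hx y hy hxy hne
        rcases UX_bdry hx hy hxy with h1 | ⟨h1, h2, -, -⟩
        · have h3 : η y ≠ σ i := by
            intro h4
            apply hne
            show trc M h y = σ i
            have h5 : h y = σ i := by rw [Cx_out (η := η) hh h1, h4]
            rw [trc_eq, h5]
            rw [h5]
            rcases hσ i with h6 | h6 <;> rw [h6] <;> norm_num
          obtain ⟨n, hn⟩ := hY2 x hx.1 y h1 hxy h3
          refine ⟨⟨n.val, by omega⟩, ?_⟩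
          have : n.val < 6 := n.isLt
          simp only [dif_pos this]
          exact hn
        · have h3 : ∃ j, y ∈ nb (AX V Z m h (Sg b δ w lf V j)) := by
            rcases h2 with h2 | ⟨h4, r', hr', hr'y⟩
            · obtain ⟨j, hj⟩ := EX_eq_iUnion hZ y h2
              exact ⟨j, Or.inl hj⟩
            · obtain ⟨j, hj⟩ := EX_eq_iUnion hZ r' hr'
              refine ⟨j, Or.inr ⟨fun h5 => h4 (AX_sub (fun y hy => ?_) h5), r', hj, hr'y⟩⟩
              rw [hZ, mem_iUnion]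
              exact ⟨j, hy⟩
          obtain ⟨j, hj⟩ := h3
          refine ⟨⟨j.val + 6, by omega⟩, ?_⟩
          have e1 : ¬ (j.val + 6 < 6) := by omega
          have e2 : j.val + 6 < 9 := by omega
          simp only [dif_neg e1, dif_pos e2]
          have e3 : (⟨j.val + 6 - 6, by omega⟩ : Fin 3) = j := by
            apply Fin.ext
            simp
          rw [e3]
          exact Or.inr ⟨h1, hj⟩
  · intro F hF
    have hloc : ∀ a ∈ G, ∀ g g' : Hg, (∀ x ∈ UX V Z m a, g x = g' x) → F g = F g' := by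
      intro a ha g g' hgg
      refine hF g g' fun x hx hxd => hgg x ?_
      by_contra hcon
      obtain ⟨i, z, hz, h1, h2⟩ := hnear a ha x hx hcon
      have h3 := hxd i (dp δ z) hz.2
      have h4 := dist_dp hδ.le h1 h2
      linarith
    have hEx : ∀ a ∈ Cx V η, a ∈ G → Ex (Cx (UX V Z m a) (trc M a)) F =
        Ex (Cx V η ∩ {g | fX V Z m g = fX V Z m a}) F := by
      intro a ha haG
      rw [fX_fibre ha]
      refine Ex_data (trc_odd ha.1) ha.1 (fun x hx y hy hxy => ?_) (hloc a haG)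
      exact (trc_eq (hvis a ha x hx y hy hxy)).symm
    refine Ex_eq_of_fiber hfin (fX V Z m) _ _ ?_ ?_
    · intro a ha c hc hac
      by_cases haG : a ∈ G
      · have hcG : c ∈ G := (hfib a c hac).1 haG
        show ind G a * Ex (Cx (UX V Z m a) (trc M a)) F = ind G c * Ex (Cx (UX V Z m c) (trc M c)) F
        rw [hEx a ha haG, hEx c hc hcG, hac]
        simp [ind, haG, hcG]
      · have hcG : c ∉ G := fun h => haG ((hfib a c hac).2 h)
        simp [ind, haG, hcG]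
    · intro a ha
      by_cases haG : a ∈ G
      · have h1 : ind G a = 1 := by simp [ind, haG]
        show _ = ind G a * Ex (Cx (UX V Z m a) (trc M a)) F
        rw [h1, one_mul, hEx a ha haG]
        refine Ex_congr fun c hc => ?_
        have hcG : c ∈ G := (hfib c a hc.2).2 haG
        simp [ind, hcG]
      · have h1 : ind G a = 0 := by simp [ind, haG]
        rw [h1, zero_mul]
        refine (Ex_congr (G := fun _ => (0 : ℝ)) fun c hc => ?_).trans Ex_zero
        have hcG : c ∉ G := fun h => haG ((hfib c a hc.2).1 h)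
        simp [ind, hcG]

end Vale.Agent.P153.R2.SDAR
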