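import Vale.Agent.P153.R2.SDAR.RedLat
import Vale.Agent.P153.R2.SDAR.Scen
import Vale.Agent.P153.R2.SDAR.Mom

/-!
# P153-R2, block SDAR (helper443): `S_rins → S_expl → S_red`
-/

set_option autoImplicit false

namespace Vale.Agent.P153.R2.SDAR

open Filter Topology Set MeasureTheory
open Vale.Agent.P145.PT Vale.Agent.P153 Vale.Agent.P153.F Vale.Agent.P153.F.SD
open Vale.Agent.P153.F.Top (dp c1 c2 hB tl)
open Vale.Agent.P153.Topo (Conn)

theorem NT.mono {K K' : Set (ℝ × ℝ)} (h : K ⊆ K') {l : List (ℝ × ℝ → ℝ)} (hl : NT K l) :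
    NT K' l := fun f hf => ⟨(hl f hf).1, (hl f hf).2.1, (hl f hf).2.2.1.trans h, (hl f hf).2.2.2⟩

/-- Products of smeared heights are local. -/
theorem FF_congr {C : Set (ℝ × ℝ)} {Rb δ : ℝ} (hδ : 0 < δ)
    (hC : C ⊆ Metric.ball (0 : ℝ × ℝ) Rb) {l : List (ℝ × ℝ → ℝ)} (hl : NT C l) {h h' : Hg}
    (hh : ∀ x, dp δ x ∈ C → h x = h' x) : FF δ l h = FF δ l h' := by
  unfold FF
  congr 1
  refine List.map_congr_left fun f hf => ?_
  obtain ⟨h1, h2, h3, -⟩ := hl f hf
  have ht : TestOn (Metric.ball (0 : ℝ × ℝ) Rb) f := ⟨h1, h2, h3.trans hC⟩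
  rw [lf_eq hδ ht, lf_eq hδ ht]
  unfold hB
  congr 1
  refine Finset.sum_congr rfl fun v _ => ?_
  by_cases hv : f (dp δ v) = 0
  · have e : tl f (δ * v.1, δ * v.2) = 0 := by
      unfold tl
      have e1 : ((δ * v.1 : ℝ) + δ * v.2 / 2, √3 / 2 * (δ * v.2)) = dp δ v := by
        unfold dp
        refine Prod.ext ?_ ?_
        · show _ = δ * _
          ring
        · show _ = δ * _
          ring
      simp only [e1, hv, mul_zero]
    rw [e, mul_zero, mul_zero]
  · have h4 := hh v (h3 (subset_tsupport _ hv))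
    show (h v : ℝ) * _ = (h' v : ℝ) * _
    rw [h4]

/-- The conclusion of `S_rins` at fixed parameters. -/
def RinsAt (K : Set (ℝ × ℝ)) (Rb R₀ ε r δ : ℝ) (l : List (ℝ × ℝ → ℝ)) : Prop :=
  ∀ (V : Set Pt) (η : Hg) (i : Fin 3) (t l₁ : ℝ)
    (a : Pt) (σ : ℤ), Dmn δ Rb K V → (∀ x, η x = 1 ∨ η x = -1) → (σ = 1 ∨ σ = -1) →
    Disjoint K (sbx i t l₁ R₀) →
    (∃ y, y ∉ V ∧ dp δ y ∈ sbx i t l₁ r) → a ∈ V → dp δ a ∈ sbx i t l₁ r →
    (∀ x ∈ Cl (V ∩ ov δ (sbx i t l₁ R₀)) {a}, ∀ y, y ∉ V → Adj x y → η y = σ) →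
    OneBad V η σ (ebd (Cl (V ∩ ov δ (sbx i t l₁ R₀)) {a})) →
    |Ex (Cfg V (exa V η)) (FF δ l) -
      Ex (Cfg (V \ Cl (V ∩ ov δ (sbx i t l₁ r)) {a})
        (exa (V \ Cl (V ∩ ov δ (sbx i t l₁ r)) {a})
          (put η (Cl (V ∩ ov δ (sbx i t l₁ r)) {a}) σ))) (FF δ l)| ≤ ε

theorem rins_list (hR : S_rins) {K : Set (ℝ × ℝ)} (Rb : ℝ) {R₀ : ℝ} (hK : Un K) (hR0 : 0 < R₀)
    {ε : ℝ} (hε : 0 < ε) (L : List (List (ℝ × ℝ → ℝ))) (hL : ∀ l ∈ L, NT K l) :
    ∃ r₀ : ℝ, 0 < r₀ ∧ ∀ r : ℝ, 0 < r → r ≤ r₀ → ∃ δ₀ : ℝ, 0 < δ₀ ∧ ∀ δ : ℝ, 0 < δ → δ < δ₀ →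
      ∀ l ∈ L, RinsAt K Rb R₀ ε r δ l := by
  induction L with
  | nil => exact ⟨1, one_pos, fun r _ _ => ⟨1, one_pos, fun δ _ _ l hl => by simp at hl⟩⟩
  | cons l L ih =>
    obtain ⟨r₁, hr₁, h1⟩ := ih fun l' hl' => hL l' (List.mem_cons_of_mem _ hl')
    obtain ⟨r₂, hr₂, h2⟩ := hR K Rb R₀ l hK (hL l List.mem_cons_self) hR0 ε hε
    refine ⟨min r₁ r₂, lt_min hr₁ hr₂, fun r hr hr' => ?_⟩
    obtain ⟨δ₁, hδ₁, h3⟩ := h1 r hr (hr'.trans (min_le_left _ _))
    obtain ⟨δ₂, hδ₂, h4⟩ := h2 r hr (hr'.trans (min_le_right _ _))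
    refine ⟨min δ₁ δ₂, lt_min hδ₁ hδ₂, fun δ hδ hδ' l' hl' => ?_⟩
    rw [lt_min_iff] at hδ'
    rcases List.mem_cons.1 hl' with rfl | hl'
    · exact h4 δ hδ hδ'.2
    · exact h3 δ hδ hδ'.1 l' hl'

theorem tcell_convex (b : PW) (w : ℝ) : Convex ℝ (tcell b w) := by
  rintro z ⟨h1, h2, h3⟩ z' ⟨h1', h2', h3'⟩ p q hp hq hpq
  have e1 : c1 (p • z + q • z') = p * c1 z + q * c1 z' := by
    have := ts_lin 0 p q z z'
    simpa only [ts0] using this
  have e2 : c2 (p • z + q • z') = p * c2 z + q * c2 z' := by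
    have := ls_lin 0 p q z z'
    simpa only [ls0] using this
  have k1 := mul_le_mul_of_nonneg_left h1 hp
  have k1' := mul_le_mul_of_nonneg_left h1' hq
  have k2 := mul_le_mul_of_nonneg_left h2 hp
  have k2' := mul_le_mul_of_nonneg_left h2' hq
  have k3 := mul_le_mul_of_nonneg_left h3 hp
  have k3' := mul_le_mul_of_nonneg_left h3' hq
  refine ⟨?_, ?_, ?_⟩
  · rw [e1]
    have : b.x0 - w = p * (b.x0 - w) + q * (b.x0 - w) := by rw [← add_mul, hpq, one_mul]
    linarith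
  · rw [e2]
    have : b.y0 - w = p * (b.y0 - w) + q * (b.y0 - w) := by rw [← add_mul, hpq, one_mul]
    linarith
  · rw [e1, e2]
    have : b.s0 + w = p * (b.s0 + w) + q * (b.s0 + w) := by rw [← add_mul, hpq, one_mul]
    linarith

theorem s_red (hR : S_rins) (hE : S_expl) : S_red := by
  classical
  intro fl D E δ V η Rb hS b hb hcell z₀ hz₀ hgen C hC hCD hCH L hL ε hε
  -- first exits
  have hcor : ∀ i, qp i (t0 b i) (l0 b i) ∈ D := fun i => hcell (corner hb i)
  choose le hle hin hfr using fun i => exit hS.opn hS.sub i (t0 b i) (l0 b i) (hcor i)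
  have hxE : ∀ i, qp i (t0 b i) (le i) ∉ E z₀ := by
    intro i hi
    obtain ⟨g1, g2⟩ := hgen _ hi
    have h1 := ts_qp i (t0 b i) (le i)
    rcases fin3 i with rfl | rfl | rfl
    · rw [ts0] at h1
      rw [t00] at h1 g1
      exact g1 h1
    · rw [ts1] at h1
      rw [t01] at h1 g1
      exact g1 (by linarith)
    · rw [ts2] at h1
      rw [t02] at h1 g2
      exact g2 h1
  have hsegD : ∀ i, openSegment ℝ (qp i (t0 b i) (l0 b i)) (qp i (t0 b i) (le i)) ⊆ D := by
    intro i p hp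
    obtain ⟨u, hu1, hu2, rfl⟩ := mem_seg (hle i) hp
    exact hin i u hu1.le hu2
  have hsg0 : ∀ i, segment ℝ z₀ (qp i (t0 b i) (l0 b i)) ⊆ D := fun i =>
    ((tcell_convex b 0).segment_subset hz₀ (corner hb i)).trans hcell
  choose R₀ hR₀ σ hσ hsgn using fun i => hS.sgn z₀ (hcell hz₀) _ (hsg0 i) _ (hfr i) (hxE i)
    (hsegD i)
  -- the supports
  obtain ⟨ρ₁, hρ₁, hd1⟩ := exists_dist b hC hCH
  obtain ⟨ρ₂, hρ₂, hd2⟩ := hC.exists_cthickening_subset_open hS.opn hCD
  set ρ : ℝ := min ρ₁ ρ₂ / 4 with hρ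
  have hρ0 : 0 < ρ := by
    have := lt_min hρ₁ hρ₂
    positivity
  have hρa : ρ ≤ ρ₁ / 4 := by
    have := min_le_left ρ₁ ρ₂
    rw [hρ]; linarith
  have hρb : ρ ≤ ρ₂ := by
    have := min_le_right ρ₁ ρ₂
    rw [hρ]; linarith
  obtain ⟨K, hK, hCK, hKC⟩ := exists_un hC hρ0
  have hKth : K ⊆ Metric.cthickening ρ₂ C := by
    intro z hz
    obtain ⟨x, hx, hzx⟩ := hKC z hz
    exact Metric.mem_cthickening_of_dist_le z x ρ₂ C hx (hzx.le.trans hρb)
  have hKline : ∀ i, ∀ z ∈ K, ∀ s, l0 b i ≤ s → 3 * ρ₁ / 4 < dist z (qp i (t0 b i) s) := by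
    intro i z hz s hs
    obtain ⟨x, hx, hzx⟩ := hKC z hz
    have h1 := hd1 i x hx s hs
    have h2 := dist_triangle x z (qp i (t0 b i) s)
    rw [dist_comm x z] at h2
    linarith
  -- the parameters
  set e : ℝ := (b.s0 - b.x0 - b.y0) / 20 with he
  have he0 : 0 < e := by
    rw [he]
    have : 0 < b.s0 - b.x0 - b.y0 := by linarith
    positivity
  obtain ⟨R, hRpos, hRe, hRρ, hRR⟩ : ∃ R : ℝ, 0 < R ∧ R ≤ e ∧ R ≤ ρ₁ / 16 ∧ ∀ i, R ≤ R₀ i / 8 := by
    refine ⟨min e (min (ρ₁ / 16) (min (R₀ 0 / 8) (min (R₀ 1 / 8) (R₀ 2 / 8)))), ?_,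
      min_le_left _ _, (min_le_right _ _).trans (min_le_left _ _), fun i => ?_⟩
    · have := hR₀ 0
      have := hR₀ 1
      have := hR₀ 2
      refine lt_min he0 (lt_min (by positivity) (lt_min (by positivity) (lt_min (by positivity)
        (by positivity))))
    · refine (min_le_right _ _).trans ((min_le_right _ _).trans ?_)
      rcases fin3 i with rfl | rfl | rfl
      · exact min_le_left _ _
      · exact (min_le_right _ _).trans (min_le_left _ _)
      · exact (min_le_right _ _).trans (min_le_right _ _)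
  obtain ⟨g, hg0, hg⟩ : ∃ g : ℝ, 0 < g ∧ ∀ i, g ≤ le i - l0 b i := by
    refine ⟨min (le 0 - l0 b 0) (min (le 1 - l0 b 1) (le 2 - l0 b 2)), ?_, fun i => ?_⟩
    · exact lt_min (sub_pos.2 (hle 0)) (lt_min (sub_pos.2 (hle 1)) (sub_pos.2 (hle 2)))
    · rcases fin3 i with rfl | rfl | rfl
      · exact min_le_left _ _
      · exact (min_le_right _ _).trans (min_le_left _ _)
      · exact (min_le_right _ _).trans (min_le_right _ _)
  obtain ⟨r₀, hr₀, hrins⟩ := rins_list hR Rb hK hRpos (ε := ε / 3) (by positivity) L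
    fun l hl => (hL l hl).mono hCK
  obtain ⟨rN, hrN, hrN0, hrNR, hrNg⟩ : ∃ rN : ℝ, 0 < rN ∧ rN ≤ r₀ ∧ rN ≤ R / 2 ∧ rN ≤ g / 4 :=
    ⟨min r₀ (min (R / 2) (g / 4)), lt_min hr₀ (lt_min (by positivity) (by positivity)),
      min_le_left _ _, (min_le_right _ _).trans (min_le_left _ _),
      (min_le_right _ _).trans (min_le_right _ _)⟩
  choose ηt hηt htube using fun i => tube hS.opn i (t0 b i) (l0 b i) (le i - rN / 4)
    fun u h1 h2 => hin i u h1 (by linarith)
  obtain ⟨re, hre, hreN, hreg, hret⟩ : ∃ re : ℝ, 0 < re ∧ re ≤ rN / 4 ∧ re ≤ g / 4 ∧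
      ∀ i, re ≤ ηt i := by
    refine ⟨min (rN / 4) (min (g / 4) (min (ηt 0) (min (ηt 1) (ηt 2)))), ?_, min_le_left _ _,
      (min_le_right _ _).trans (min_le_left _ _), fun i => ?_⟩
    · exact lt_min (by positivity) (lt_min (by positivity) (lt_min (hηt 0)
        (lt_min (hηt 1) (hηt 2))))
    · refine (min_le_right _ _).trans ((min_le_right _ _).trans ?_)
      rcases fin3 i with rfl | rfl | rfl
      · exact min_le_left _ _
      · exact (min_le_right _ _).trans (min_le_left _ _)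
      · exact (min_le_right _ _).trans (min_le_right _ _)
  have hrct : ∀ i, rct i (t0 b i) re (l0 b i) (le i - rN / 4) ⊆ D := fun i z hz =>
    htube i ⟨hz.1.trans (hret i), hz.2⟩
  set lf : Fin 3 → ℝ := fun i => le i - rN with hlf
  have hlfg : ∀ i, l0 b i + re < lf i := by
    intro i
    have := hg i
    show _ < le i - rN
    linarith
  obtain ⟨M, hM⟩ := hE b Rb re (re / 8) lf hb (by positivity) (by linarith) (by linarith) hlfg ε hε
  obtain ⟨w₁, hw₁, hcw⟩ := tcell_small hS.opn hcell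
  refine ⟨K, re / 2, lf, M, min (re / 8 / 12) w₁, hK, hCK, by positivity,
    lt_min (by positivity) hw₁, ?_, fun i => by linarith [hlfg i], fun w hw hw0 => ?_⟩
  · intro i
    rw [Set.disjoint_left]
    intro z hz hzb
    have h1 := abs_le.1 hzb.2
    have h2 := hKline i z hz (ls i z) (by linarith [hlfg i, h1.1])
    have h3 := dist_le_tl i z (qp i (t0 b i) (ls i z))
    rw [ts_qp, ls_qp, sub_self, abs_zero] at h3
    linarith [hzb.1]
  have hwt : w ≤ re / 8 / 12 := hw0.trans (min_le_left _ _)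
  have hww : w ≤ w₁ := hw0.trans (min_le_right _ _)
  obtain ⟨δE, hδE, hEx⟩ := hM w hw hwt
  obtain ⟨δR, hδR, hRi⟩ := hrins rN hrN hrN0
  -- the points where the sign is seen
  have hp : ∀ i, ∃ ρ : ℝ, 0 < ρ ∧ ∀ᶠ n in fl, ∀ a ∈ V n,
      dist (dp (δ n) a) (qp i (t0 b i) (le i - rN / 2)) < ρ →
      ∀ x' ∈ Cl (V n ∩ ov (δ n) (Metric.ball (qp i (t0 b i) (le i)) (R₀ i))) {a},
        ∀ y, y ∉ V n → Adj x' y → η n y = σ i := by
    intro i
    refine hsgn i _ (seg_mem (by linarith [hg i]) (by linarith)) ?_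
    have h3 := dist_le_tl i (qp i (t0 b i) (le i - rN / 2)) (qp i (t0 b i) (le i))
    rw [ts_qp, ts_qp, ls_qp, ls_qp, sub_self, abs_zero,
      show le i - rN / 2 - le i = -(rN / 2) by ring, abs_neg, abs_of_pos (by positivity)] at h3
    linarith [hRR i]
  choose ρp hρp hpe using hp
  obtain ⟨dl, hdl, hdle, hdlr, hdlρ⟩ : ∃ dl : ℝ, 0 < dl ∧ 4 * dl ≤ e ∧ dl ≤ re / 8 ∧
      ∀ i, 8 * dl ≤ ρp i := by
    refine ⟨min (e / 4) (min (re / 8) (min (ρp 0 / 8) (min (ρp 1 / 8) (ρp 2 / 8)))), ?_, ?_,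
      (min_le_right _ _).trans (min_le_left _ _), fun i => ?_⟩
    · have := hρp 0
      have := hρp 1
      have := hρp 2
      exact lt_min (by positivity) (lt_min (by positivity) (lt_min (by positivity)
        (lt_min (by positivity) (by positivity))))
    · have := min_le_left (e / 4) (min (re / 8) (min (ρp 0 / 8) (min (ρp 1 / 8) (ρp 2 / 8))))
      linarith
    · have h1 : min (e / 4) (min (re / 8) (min (ρp 0 / 8) (min (ρp 1 / 8) (ρp 2 / 8)))) ≤
          ρp i / 8 := by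
        refine (min_le_right _ _).trans ((min_le_right _ _).trans ?_)
        rcases fin3 i with rfl | rfl | rfl
        · exact min_le_left _ _
        · exact (min_le_right _ _).trans (min_le_left _ _)
        · exact (min_le_right _ _).trans (min_le_right _ _)
      linarith
  have hsm : ∀ᶠ n in fl, δ n < min δE (min δR dl) :=
    (hS.lim.mono_left hS.le).eventually (gt_mem_nhds (lt_min hδE (lt_min hδR hdl)))
  have hKc := hS.cpt _ hC.cthickening hd2
  have hTc := hS.cpt _ (tcell_compact b w₁) hcw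
  have hrc : ∀ᶠ n in fl, ∀ i, ov (δ n) (rct i (t0 b i) re (l0 b i) (le i - rN / 4)) ⊆ V n :=
    eventually_all.2 fun i => hS.cpt _ (rct_compact _ _ _ _ _) (hrct i)
  have hwl : ∀ᶠ n in fl, ∀ i, ∃ y, y ∉ V n ∧
      dp (δ n) y ∈ Metric.ball (qp i (t0 b i) (le i)) (rN / 8) :=
    eventually_all.2 fun i => hS.wall _ (hfr i) _ (by positivity)
  have hpe' := eventually_all.2 hpe
  filter_upwards [hsm, hS.ball, hS.cc, hKc, hTc, hrc, hwl, hS.few, hpe'] with n
    h1 h2 h3 h4 h5 h6 h7 h8 h9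
  rw [lt_min_iff, lt_min_iff] at h1
  obtain ⟨h1a, h1b, h1c⟩ := h1
  have hδn := hS.pos n
  choose a ha1 ha2 ha3 ha4 using fun i => exists_vertex hδn i (t0 b i) (le i - rN / 2)
  have hats : ∀ i, |ts i (dp (δ n) (a i)) - t0 b i| ≤ δ n := fun i => by
    rw [abs_le]; constructor <;> linarith [ha1 i, ha2 i]
  have harct : ∀ i, dp (δ n) (a i) ∈ rct i (t0 b i) re (le i - rN) (le i - rN / 4) := fun i =>
    ⟨(hats i).trans (by linarith), by linarith [ha3 i], by linarith [ha4 i]⟩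
  have hO : Obs b (δ n) le rN R e (V n) (η n) a σ := by
    refine ⟨hδn, by linarith, by rw [he]; linarith, hRe, by linarith, hle, fun i => ?_,
      fun i => ?_, fun i => ?_, hS.pm n, hσ, fun i => ?_, fun s hs => h8 s hs⟩
    · exact h6 i ⟨(harct i).1, by linarith [(harct i).2.1, hg i], (harct i).2.2⟩
    · refine ⟨(hats i).trans (by linarith), ?_⟩
      rw [abs_le]
      constructor <;> linarith [ha3 i, ha4 i]
    · obtain ⟨y, hy, hyb⟩ := h7 i
      refine ⟨y, hy, ?_, ?_⟩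
      · have k1 := abs_ts_le i (dp (δ n) y) (qp i (t0 b i) (le i))
        rw [ts_qp] at k1
        rw [Metric.mem_ball] at hyb
        linarith
      · have k1 := abs_ls_le i (dp (δ n) y) (qp i (t0 b i) (le i))
        rw [ls_qp] at k1
        rw [Metric.mem_ball] at hyb
        linarith
    · intro x hx y hy hxy
      refine h9 i (a i) ?_ ?_ x (cl_mono ?_ _ hx) y hy hxy
      · exact h6 i ⟨(harct i).1, by linarith [(harct i).2.1, hg i], (harct i).2.2⟩
      · have k1 := dist_le_tl i (dp (δ n) (a i)) (qp i (t0 b i) (le i - rN / 2))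
        rw [ts_qp, ls_qp] at k1
        have k2 : |ls i (dp (δ n) (a i)) - (le i - rN / 2)| ≤ δ n := by
          rw [abs_le]; constructor <;> linarith [ha3 i, ha4 i]
        linarith [hats i, hdlρ i]
      · refine inter_subset_inter_right _ fun z hz => ?_
        have k1 := dist_le_tl i (dp (δ n) z) (qp i (t0 b i) (le i))
        rw [ts_qp, ls_qp] at k1
        show dp (δ n) z ∈ Metric.ball _ _
        rw [Metric.mem_ball]
        have k2 := hz.1
        have k3 := hz.2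
        have k4 := hRR i
        linarith [hR₀ i]
  have hVfin : (V n).Finite := fin_of_ball hδn h2
  -- `K` is in the domains
  have hKN : ∀ x, dp (δ n) x ∈ K → ∀ j, x ∉ NN b (δ n) le rN (V n) a j := by
    intro x hx j hxN
    have k1 := hO.N_sub_box j hxN
    have k2 := abs_le.1 k1.2
    have k3 := hKline j _ hx (ls j (dp (δ n) x)) (by linarith [hg j])
    have k4 := dist_le_tl j (dp (δ n) x) (qp j (t0 b j) (ls j (dp (δ n) x)))
    rw [ts_qp, ls_qp, sub_self, abs_zero] at k4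
    linarith [k1.1]
  have hKV : ∀ J, ov (δ n) K ⊆ VJ b (δ n) le rN (V n) a J := fun J x hx =>
    ⟨h4 (hKth hx), fun j _ => hKN x hx j⟩
  have hKd : ∀ i, Disjoint K (sbx i (t0 b i) (le i) R) := by
    intro i
    rw [Set.disjoint_left]
    intro z hz hzb
    have k1 := hKline i z hz (le i) (hle i).le
    have k2 := dist_le_tl i z (qp i (t0 b i) (le i))
    rw [ts_qp, ls_qp] at k2
    have k3 := hzb.1
    have k4 := hzb.2
    linarith
  -- the three obstacles
  have hstep : ∀ (J : Finset (Fin 3)) (i : Fin 3), i ∉ J → ∀ l ∈ L,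
      |Ex (Cfg (VJ b (δ n) le rN (V n) a J) (exa (VJ b (δ n) le rN (V n) a J)
          (ηJ b (δ n) le rN (V n) (η n) a σ J))) (FF (δ n) l) -
        Ex (Cfg (VJ b (δ n) le rN (V n) a (insert i J)) (exa (VJ b (δ n) le rN (V n) a (insert i J))
          (ηJ b (δ n) le rN (V n) (η n) a σ (insert i J)))) (FF (δ n) l)| ≤ ε / 3 := by
    intro J i hi l hl
    have k1 := hRi (δ n) hδn h1b l hl (VJ b (δ n) le rN (V n) a J)
      (ηJ b (δ n) le rN (V n) (η n) a σ J) i (t0 b i) (le i) (a i) (σ i)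
      ⟨hVfin.subset Obs.VJ_sub, fun x hx => h2 x hx.1, hO.cc_VJ h3, hKV J⟩ hO.ηJ_pm (hσ i) (hKd i)
      (by
        obtain ⟨y, hy, hyb⟩ := hO.wall i
        exact ⟨y, fun h => hy h.1, hyb⟩)
      ⟨hO.aV i, fun j hj => by
        have hij : i ≠ j := by rintro rfl; exact hi hj
        exact hO.not_mem hij (sbx_mono _ _ _ hO.rR (hO.abox i))⟩ (hO.abox i) (hO.vis_VJ hi)
      (hO.bad_VJ h3 hi)
    rw [hO.ηJ_insert hi, hO.VJ_insert hi] at k1
    exact k1
  have huniv : (insert 2 (insert 1 (insert 0 (∅ : Finset (Fin 3))))) = Finset.univ := by decide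
  set V' : Set Pt := VJ b (δ n) le rN (V n) a Finset.univ with hV'
  set η' : Hg := ηJ b (δ n) le rN (V n) (η n) a σ Finset.univ with hη'
  have hrins3 : ∀ l ∈ L, |Ex (Cfg (V n) (exa (V n) (η n))) (FF (δ n) l) -
      Ex (Cfg V' (exa V' η')) (FF (δ n) l)| ≤ ε := by
    intro l hl
    have k0 := hstep ∅ 0 (by decide) l hl
    have k1 := hstep (insert 0 ∅) 1 (by decide) l hl
    have k2 := hstep (insert 1 (insert 0 ∅)) 2 (by decide) l hl
    rw [huniv] at k2
    rw [Obs.VJ_empty, Obs.ηJ_empty] at k0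
    rw [abs_le] at k0 k1 k2 ⊢
    constructor <;> linarith
  have hV'fin : V'.Finite := hVfin.subset Obs.VJ_sub
  have hsubR : ∀ i, sbx i (t0 b i) (lf i) re ⊆ sbx i (t0 b i) (le i) R := by
    intro i z hz
    have k1 := abs_le.1 hz.2
    refine ⟨hz.1.trans (by linarith), ?_⟩
    rw [abs_le]
    constructor
    · have : ls i z - (le i - rN) ≥ -re := k1.1
      linarith
    · have : ls i z - (le i - rN) ≤ re := k1.2
      linarith
  have hsubT : ∀ i, sbx i (t0 b i) (lf i) re ⊆ rct i (t0 b i) re (l0 b i) (le i - rN / 4) := by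
    intro i z hz
    have k1 := abs_le.1 hz.2
    have k2 : ls i z - (le i - rN) ≥ -re := k1.1
    have k3 : ls i z - (le i - rN) ≤ re := k1.2
    have k4 : l0 b i + re < le i - rN := hlfg i
    exact ⟨hz.1, by linarith, by linarith⟩
  have hflat : ∀ i x, dp (δ n) x ∈ sbx i (t0 b i) (lf i) re →
      (x ∈ V' ↔ ls i (dp (δ n) x) < lf i) ∧ (lf i ≤ ls i (dp (δ n) x) → η' x = σ i) := by
    intro i x hx
    exact hO.flat hre hreN (by have := hlfg i; exact this.le) (h6 i) (harct i) hx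
  have hfew6 : ∀ i, FewN 6 V' η' (σ i) (ov (δ n) (sbx i (t0 b i) (lf i) re)) := by
    intro i
    obtain ⟨Z, hZ1, hZ2, -, hZ4⟩ := hO.one (σ i) (hσ i)
    refine hO.few (by norm_num) hZ1 hZ2 hZ4 ?_ fun j _ hj => ?_
    · rw [Set.disjoint_left]
      intro y hyZ hyb
      exact hZ1 hyZ (h6 i (hsubT i hyb))
    · rw [Set.disjoint_left]
      intro y hyN hyb
      have hij : i ≠ j := by rintro rfl; exact hj rfl
      exact hO.not_mem hij (hsubR i hyb) hyN
  obtain ⟨G, U, ζ, hG1, hG2, hG3⟩ := hEx (δ n) hδn h1a V' η' σ hV'fin (fun x hx => h2 x hx.1)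
    (hO.cc_VJ h3) hO.ηJ_pm hσ hflat hfew6
  -- distances from the strips
  have sd1 : ∀ x, dp (δ n) x ∈ K → ∀ i, ∀ z ∈ strip b w lf i, re / 8 < dist (dp (δ n) x) z := by
    intro x hx i z hz
    have k1 := hKline i _ hx (ls i z) (by linarith [hz.2, hlfg i])
    have k2 := dist_le_tl i z (qp i (t0 b i) (ls i z))
    rw [ts_qp, ls_qp, sub_self, abs_zero] at k2
    have k3 := dist_triangle (dp (δ n) x) z (qp i (t0 b i) (ls i z))
    linarith [hz.1]
  have sd2 : ∀ x, dp (δ n) x ∈ tcell b w → ∀ i, ∀ z ∈ strip b w lf i,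
      re / 8 < dist (dp (δ n) x) z := by
    intro x hx i z hz
    have k1 := tcell_ls hw.le hx i
    have k2 := (abs_le.1 (abs_ls_le i (dp (δ n) x) z)).1
    linarith [hz.2, hlfg i]
  have hU : ∀ h ∈ Cfg V' (exa V' η'), h ∈ G → ∀ x ∈ V', (∀ i, ∀ z ∈ strip b w lf i,
      re / 8 < dist (dp (δ n) x) z) → x ∈ U h := by
    intro h hh hhG x hx hxd
    by_contra hcon
    obtain ⟨i, z, hz, hzd⟩ := (hG2 h hh hhG).2.2.2.1 x hx hcon
    exact absurd (hxd i z hz) (not_lt.2 hzd)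
  refine ⟨V', η', G, U, ζ, σ, hV'fin, hO.ηJ_pm, hσ, hrins3, hG1, fun h hh hhG => ?_,
    fun l hl => ?_⟩
  · obtain ⟨g1, g2, g3, g4, g5, g6, g7⟩ := hG2 h hh hhG
    refine ⟨⟨hV'fin.subset g1, fun x hx => h2 x (g1 hx).1, g2, ?_⟩, g3, fun i => ⟨g6 i, ?_, g5 i⟩,
      g7⟩
    · rintro x (hx | hx)
      · exact hU h hh hhG x (hKV _ hx) (sd1 x hx)
      · refine hU h hh hhG x ⟨h5 (tcell_mono b hww hx), fun j _ hxN => ?_⟩ (sd2 x hx)
        have k1 := abs_le.1 (hO.N_sub_box j hxN).2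
        have k2 := tcell_ls hw.le hx j
        have k3 : l0 b j + re < le j - rN := hlfg j
        linarith [k1.1]
    · intro x hx1 hx2 hx3
      have k0 : ls i (dp (δ n) x) < le i - rN := hx3
      have hxV : x ∈ V' := by
        refine ⟨h6 i ⟨hx1.trans (by linarith), hx2, by linarith⟩, fun j _ hxN => ?_⟩
        by_cases hij : i = j
        · subst hij
          have k1 := abs_le.1 (hO.N_sub_box i hxN).2
          linarith [k1.1]
        · have k1 := abs_le.1 (hO.N_sub_box j hxN).2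
          have k2 : e < dist (dp (δ n) x) (dp (δ n) x) := by
            refine sep_strands hO.epos hO.e20 hij (hx1.trans (by linarith)) (by linarith)
              ((hO.N_sub_box j hxN).1.trans (by linarith)) ?_
            linarith [k1.1, hle j]
          rw [dist_self] at k2
          linarith
      by_cases hnear : lf i - re / 2 < ls i (dp (δ n) x)
      · refine ((g6 i x ⟨hx1.trans (by linarith), ?_⟩).1).2 hx3
        rw [abs_le]
        constructor <;> linarith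
      · push Not at hnear
        refine hU h hh hhG x hxV fun j z hz => ?_
        by_cases hij : i = j
        · subst hij
          have k2 := (abs_le.1 (abs_ls_le i (dp (δ n) x) z)).1
          linarith [hz.2]
        · have k2 : e < dist (dp (δ n) x) z := by
            refine sep_strands hO.epos hO.e20 hij (hx1.trans (by linarith)) (by linarith)
              (hz.1.trans (by linarith)) ?_
            linarith [hz.2, hlfg j]
          linarith
  · refine hG3 (FF (δ n) l) fun h h' hh => FF_congr hδn (hCD.trans hS.sub) hl fun x hx => ?_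
    exact hh x (hKV _ (hCK hx)) (sd1 x (hCK hx))

end Vale.Agent.P153.R2.SDAR
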