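import Vale.Agent.P153.R2.SDAR.Poly

/-!
P153-R2, block SDAR (helper506): the Schwinger-Dyson equations for a scenario.
-/

set_option autoImplicit false

namespace Vale.Agent.P153.R2.SDAR

open Filter Topology Set MeasureTheory
open Vale.Agent.P145.PT Vale.Agent.P153 Vale.Agent.P153.F Vale.Agent.P153.F.SD
open Vale.Agent.P153.F.Top (dp c1 c2 lat_finite S_mb S_l2 ccell cell)
open Vale.Agent.P153.Topo (Conn)
open scoped Manifold ContDiff

/-- Decomposition of a test function into test functions of cells in general position, where the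
excluded positions depend on a point of the cell. -/
theorem exists_cells_ctr {D : Set (ℝ × ℝ)} (hD : IsOpen D) {ψ : ℝ × ℝ → ℝ} (hψ : TestOn D ψ)
    {F1 F2 : ℝ × ℝ → Set ℝ} (h1 : ∀ z, (F1 z).Finite) (h2 : ∀ z, (F2 z).Finite) :
    ∃ (m : ℕ) (g : Fin m → ℝ × ℝ → ℝ) (a b c : Fin m → ℝ) (z₀ : Fin m → ℝ × ℝ),
      (∀ i, a i + b i < c i ∧ ccell (a i) (b i) (c i) ⊆ D ∧
        TestOn (cell (a i) (b i) (c i)) (g i) ∧ z₀ i ∈ ccell (a i) (b i) (c i) ∧
        a i ∉ F1 (z₀ i) ∧ c i ∉ F2 (z₀ i)) ∧ ∀ z, ψ z = ∑ i, g i z := by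
  classical
  have hK : IsCompact (tsupport ψ) := hψ.2.1
  have hKD : tsupport ψ ⊆ D := hψ.2.2
  choose! e he heD using fun (z : ℝ × ℝ) (hz : z ∈ D) => cell_small hD hz
  choose! e1 he1 he1' he1F using fun (z : ℝ × ℝ) (hz : z ∈ D) =>
    exists_Ioo (h1 z) (he z hz) (fun x => c1 z - x) (fun x y h => by simpa using h)
  choose! e2 he2 he2' he2F using fun (z : ℝ × ℝ) (hz : z ∈ D) =>
    exists_Ioo (h2 z) (he z hz) (fun x => c1 z + c2 z + x) (fun x y h => by simpa using h)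
  let U : ℝ × ℝ → Set (ℝ × ℝ) := fun z => cell (c1 z - e1 z) (c2 z - e z) (c1 z + c2 z + e2 z)
  obtain ⟨t, htK, htc⟩ := hK.elim_nhds_subcover U (fun z hz => (cell_isOpen _ _ _).mem_nhds (by
    have h := he z (hKD hz)
    have h' := he1 z (hKD hz)
    have h'' := he2 z (hKD hz)
    exact ⟨by linarith only [h'], by linarith only [h], by linarith only [h'']⟩))
  let q : Fin t.card ≃ t := t.equivFin.symm
  let c : Fin t.card → ℝ × ℝ := fun i => (q i : ℝ × ℝ)
  have hcK : ∀ i, c i ∈ tsupport ψ := fun i => htK _ (q i).2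
  have hcov : tsupport ψ ⊆ ⋃ i, U (c i) := by
    intro z hz
    obtain ⟨x, hx, hxz⟩ := Set.mem_iUnion₂.1 (htc hz)
    refine Set.mem_iUnion.2 ⟨q.symm ⟨x, hx⟩, ?_⟩
    simpa [c] using hxz
  obtain ⟨f, hf⟩ := SmoothPartitionOfUnity.exists_isSubordinate 𝓘(ℝ, ℝ × ℝ)
    (isClosed_tsupport ψ) (fun i => U (c i)) (fun i => cell_isOpen _ _ _) hcov
  refine ⟨t.card, fun i z => ψ z * f i z, fun i => c1 (c i) - e1 (c i),
    fun i => c2 (c i) - e (c i), fun i => c1 (c i) + c2 (c i) + e2 (c i), c, fun i => ?_,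
    fun z => ?_⟩
  · have hc := hKD (hcK i)
    have h := he (c i) hc
    have h' := he1 (c i) hc
    have h'' := he2 (c i) hc
    have k' := he1' (c i) hc
    have k'' := he2' (c i) hc
    refine ⟨by linarith only [h, h', h''], fun z hz => heD _ hc ?_, ⟨?_, ?_, ?_⟩,
      ⟨by linarith only [h'], by linarith only [h], by linarith only [h'']⟩, he1F _ hc,
      he2F _ hc⟩
    · exact ⟨by linarith [hz.1], hz.2.1, by linarith [hz.2.2]⟩
    · have h1 : ContDiff ℝ ∞ (fun z => f i z) := (f i).contMDiff.contDiff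
      exact hψ.1.mul h1
    · exact hψ.2.1.mul_right
    · exact (tsupport_mul_subset_right).trans (hf i)
  · by_cases hz : z ∈ tsupport ψ
    · rw [← Finset.mul_sum]
      have h1 : ∑ᶠ i, f i z = 1 := f.sum_eq_one hz
      rw [finsum_eq_sum_of_fintype] at h1
      rw [h1, mul_one]
    · have h0 : ψ z = 0 := image_eq_zero_of_notMem_tsupport hz
      simp only [h0, zero_mul, Finset.sum_const_zero]

/-- Additivity in the first test function. -/
theorem YJ_add {κ δ : ℝ} (hδ : 0 < δ) {D : Set (ℝ × ℝ)} {ψ ψ' f : ℝ × ℝ → ℝ} (hψ : TestOn D ψ)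
    (hψ' : TestOn D ψ') (hf : TestOn D f) (j : ℕ) (h : Hg) :
    YJ κ δ (fun z => ψ z + ψ' z) f j h = YJ κ δ ψ f j h + YJ κ δ ψ' f j h := by
  have e1 : Lf δ (lap fun z => ψ z + ψ' z) h = 1 * Lf δ (lap ψ) h + 1 * Lf δ (lap ψ') h :=
    lf_lin hδ (TestOn.un hψ.lap) (TestOn.un hψ'.lap) (TestOn.un (hψ.add hψ').lap) 1 1
      (fun z => by rw [lap_add hψ.1 hψ'.1]; ring) h
  have e2 : ∫ x, (ψ x + ψ' x) * f x = (∫ x, ψ x * f x) + ∫ x, ψ' x * f x := by
    rw [← integral_add (hψ.intMul hf.cont) (hψ'.intMul hf.cont)]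
    congr 1
    funext x
    ring
  unfold YJ
  rw [e1, e2]
  ring

theorem lap_zero : lap (fun _ : ℝ × ℝ => (0 : ℝ)) = fun _ => 0 := by
  have h0 : Sm (fun _ : ℝ × ℝ => (0 : ℝ)) := (TestOn.zero univ).1
  funext z
  have h := lap_smul h0 0 z
  simpa using h

theorem YJ_zero {κ δ : ℝ} (hδ : 0 < δ) {f : ℝ × ℝ → ℝ} (j : ℕ) (h : Hg) :
    YJ κ δ (fun _ => 0) f j h = 0 := by
  have e1 : Lf δ (fun _ => 0) h = 0 := by
    have := lf_lin hδ (TestOn.zero univ) (TestOn.zero univ) (TestOn.zero univ) 0 0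
      (fun z => by ring) h
    simpa using this
  unfold YJ
  rw [lap_zero, e1]
  simp

/-- Test functions of both signs. -/
theorem YJ_pol (j : ℕ) : ∃ w : ℕ → ℝ, ∀ (κ δ : ℝ), 0 < δ → ∀ (D : Set (ℝ × ℝ))
    (ψ fa fb : ℝ × ℝ → ℝ), TestOn D ψ → TestOn D fa → TestOn D fb → ∀ h : Hg,
    YJ κ δ ψ (fun z => fa z - fb z) j h =
      ∑ k ∈ Finset.range (j + 1), w k * YJ κ δ ψ (fun z => fa z + k * fb z) j h := by
  obtain ⟨w, hw⟩ := poly_pt j
  refine ⟨w, fun κ δ hδ D ψ fa fb hψ ha hb h => ?_⟩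
  have e0 : Lf δ (fun z => fa z - fb z) h = Lf δ fa h - Lf δ fb h :=
    lf_sub hδ (TestOn.un ha) (TestOn.un hb) h
  have e1 : ∀ k : ℕ, Lf δ (fun z => fa z + k * fb z) h = Lf δ fa h + k * Lf δ fb h := by
    intro k
    have := lf_lin hδ (TestOn.un ha) (TestOn.un hb)
      (TestOn.un (ha.add (hb.smul (k : ℝ)))) 1 k (fun z => by ring) h
    rw [this]; ring
  have e2 : ∫ x, ψ x * (fa x - fb x) = (∫ x, ψ x * fa x) - ∫ x, ψ x * fb x := by
    rw [← integral_sub (hψ.intMul ha.cont) (hψ.intMul hb.cont)]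
    congr 1
    funext x
    ring
  have e3 : ∀ k : ℕ, ∫ x, ψ x * (fa x + k * fb x) =
      (∫ x, ψ x * fa x) + k * ∫ x, ψ x * fb x := by
    intro k
    rw [← integral_const_mul, ← integral_add (hψ.intMul ha.cont)
      ((hψ.intMul hb.cont).const_mul (k : ℝ))]
    congr 1
    funext x
    ring
  unfold YJ
  simp only [e0, e1, e2, e3]
  exact hw _ _ _ _ _ _

variable {κ : ℝ} {P : Measure Fld}

/-- **The Schwinger-Dyson equations for a scenario.** -/
theorem s_scen (hP : GFF.Plane P) (hR : X.S_rsw P) (hlow : X.S_low P)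
    (hmm : ∀ δ : ℕ → ℝ, (∀ n, 0 < δ n) → Tendsto δ atTop (𝓝 0) → X.S_mm P δ) (hred : S_red)
    (hg : S_gaps P) (hs : S_sdb κ P) : S_scen κ := by
  classical
  intro l D E δ V η Rb hsc ψ f hψ hf j
  have hmb : S_mb δ := X.s_mb hsc.pos hsc.lim hlow (hmm δ hsc.pos hsc.lim) hR X.s_loc
  have hl2 : S_l2 δ := X.s_l2 hsc.pos hsc.lim hlow (hmm δ hsc.pos hsc.lim) hR X.s_loc
  have hDb : Bornology.IsBounded D := Metric.isBounded_ball.subset hsc.sub
  obtain ⟨m, g, a, b, c, z₀, hcell, hsum⟩ := exists_cells_ctr hsc.opn hψ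
    (F1 := fun z => c1 '' E z) (F2 := fun z => (fun w => c1 w + c2 w) '' E z)
    (fun z => (hsc.Efin z).image _) (fun z => (hsc.Efin z).image _)
  -- one cell, nonnegative test functions
  have cellP : ∀ i, ∀ q : ℝ × ℝ → ℝ, TestOn D q → (∀ z, 0 ≤ q z) →
      Tendsto (fun n => Ex (Cfg (V n) (exa (V n) (η n))) (YJ κ (δ n) (g i) q j)) l (𝓝 0) := by
    intro i q hq hq0
    obtain ⟨hlt, hccD, hgi, hz, hF1, hF2⟩ := hcell i
    have htc : tcell ⟨a i, b i, c i, 1, 1⟩ 0 = ccell (a i) (b i) (c i) := by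
      ext z
      simp only [tcell, ccell, sub_zero, add_zero]
    rw [Metric.tendsto_nhds]
    intro ε hε
    have := cell_f (b := ⟨a i, b i, c i, 1, 1⟩) hP hR X.s_conf hred hg hs hsc hmb hl2 hlt
      (htc ▸ hccD) (htc ▸ hz) (fun z hz' => ⟨fun h => hF1 ⟨z, hz', h⟩, fun h => hF2 ⟨z, hz', h⟩⟩)
      hgi hq hq0 j (half_pos hε)
    filter_upwards [this] with n hn
    rw [Real.dist_eq, sub_zero]
    linarith
  -- one cell
  obtain ⟨fa, fb, ha, hb, ha0, hb0, hab⟩ := exists_decomp hsc.opn hDb hf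
  obtain ⟨w, hw⟩ := YJ_pol j
  have hgD : ∀ i, TestOn D (g i) := fun i => (hcell i).2.2.1.mono
    (fun z hz => (hcell i).2.1 ⟨hz.1.le, hz.2.1.le, hz.2.2.le⟩)
  have cellF : ∀ i, Tendsto (fun n => Ex (Cfg (V n) (exa (V n) (η n))) (YJ κ (δ n) (g i) f j)) l
      (𝓝 0) := by
    intro i
    have e1 : ∀ n, Ex (Cfg (V n) (exa (V n) (η n))) (YJ κ (δ n) (g i) f j) =
        ∑ k ∈ Finset.range (j + 1), w k * Ex (Cfg (V n) (exa (V n) (η n)))
          (YJ κ (δ n) (g i) (fun z => fa z + k * fb z) j) := by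
      intro n
      rw [show YJ κ (δ n) (g i) f j = fun h => ∑ k ∈ Finset.range (j + 1),
        w k * YJ κ (δ n) (g i) (fun z => fa z + k * fb z) j h from funext fun h => by
          rw [← hw κ (δ n) (hsc.pos n) D (g i) fa fb (hgD i) ha hb h, show f = _ from funext hab],
        Ex_sum]
      exact Finset.sum_congr rfl fun k _ => Ex_const_mul _ _
    simp only [e1]
    rw [show (0 : ℝ) = ∑ k ∈ Finset.range (j + 1), w k * 0 by simp]
    refine tendsto_finsetSum _ fun k _ => (cellP i _ (ha.add (hb.smul (k : ℝ))) fun z => ?_).const_mul _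
    exact add_nonneg (ha0 z) (mul_nonneg (Nat.cast_nonneg k) (hb0 z))
  -- sum over the cells
  have key : ∀ s : Finset (Fin m), TestOn D (fun z => ∑ i ∈ s, g i z) ∧
      Tendsto (fun n => Ex (Cfg (V n) (exa (V n) (η n)))
        (YJ κ (δ n) (fun z => ∑ i ∈ s, g i z) f j)) l (𝓝 0) := by
    intro s
    induction s using Finset.induction_on with
    | empty =>
      simp only [Finset.sum_empty]
      refine ⟨TestOn.zero D, ?_⟩
      have : ∀ n, Ex (Cfg (V n) (exa (V n) (η n))) (YJ κ (δ n) (fun _ => 0) f j) = 0 := by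
        intro n
        rw [show YJ κ (δ n) (fun _ => 0) f j = fun _ => (0 : ℝ) from
          funext fun h => YJ_zero (hsc.pos n) j h]
        have := Ex_const_mul (S := Cfg (V n) (exa (V n) (η n))) (0 : ℝ) (fun _ => (0 : ℝ))
        simpa using this
      simp only [this]
      exact tendsto_const_nhds
    | insert i s hi ih =>
      obtain ⟨ih1, ih2⟩ := ih
      simp only [Finset.sum_insert hi]
      refine ⟨(hgD i).add ih1, ?_⟩
      have e1 : ∀ n, Ex (Cfg (V n) (exa (V n) (η n)))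
          (YJ κ (δ n) (fun z => g i z + ∑ x ∈ s, g x z) f j) =
          Ex (Cfg (V n) (exa (V n) (η n))) (YJ κ (δ n) (g i) f j) +
          Ex (Cfg (V n) (exa (V n) (η n))) (YJ κ (δ n) (fun z => ∑ x ∈ s, g x z) f j) := by
        intro n
        rw [← Ex_add]
        congr 1
        funext h
        exact YJ_add (hsc.pos n) (hgD i) ih1 hf j h
      simp only [e1]
      simpa using (cellF i).add ih2
  have h := (key Finset.univ).2
  rwa [show (fun z => ∑ i, g i z) = ψ from (funext hsum).symm] at h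

end Vale.Agent.P153.R2.SDAR
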