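import Vale.Agent.P153.R2.F2.Expl

/-!
# P153-R2, block SDAR (helper443): exploration of the high clusters of a set

`EX V Z m h` is `Z` together with everything which is joined to it by vertices of `V` with
`|h| ≥ m`; the rest is `UX V Z m h = V \ nb (EX V Z m h)`. Given the heights off `UX`, the law is the
law of `UX` with exact data, and the visible data are bounded by `m`.
-/

namespace Vale.Agent.P153.R2.SDAR

open Set Relation
open Vale.Agent.P153
open Vale.Agent.P153.Topo (Conn)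
open Vale.Agent.P153.R2.F2

/-- The explored set. -/
def EX (V Z : Set Pt) (m : ℤ) (h : Hg) : Set Pt := Cl (Z ∪ {x | x ∈ V ∧ m ≤ |h x|}) Z

/-- The domain which remains. -/
def UX (V Z : Set Pt) (m : ℤ) (h : Hg) : Set Pt := V \ nb (EX V Z m h)

variable {V Z : Set Pt} {m : ℤ} {h g η : Hg}

theorem UX_sub : UX V Z m h ⊆ V := fun _ hx => hx.1

theorem sub_EX : Z ⊆ EX V Z m h := fun x hx => ⟨x, hx, Conn.refl (Or.inl hx)⟩

theorem EX_mem {x : Pt} (hx : x ∈ EX V Z m h) : x ∈ Z ∨ (x ∈ V ∧ m ≤ |h x|) := by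
  obtain ⟨z, -, hz⟩ := hx
  exact hz.right_mem

theorem EX_sub (hZ : Z ⊆ V) : EX V Z m h ⊆ V := fun _ hx => (EX_mem hx).elim (fun h => hZ h) (·.1)

theorem EX_step {x y : Pt} (hx : x ∈ EX V Z m h) (hxy : Adj x y) (hy : y ∈ V) (hm : m ≤ |h y|) :
    y ∈ EX V Z m h := by
  obtain ⟨z, hz, h1⟩ := hx
  exact ⟨z, hz, h1.tail hxy (Or.inr ⟨hy, hm⟩)⟩

theorem EX_conn {x : Pt} (hx : x ∈ EX V Z m h) : ∃ z ∈ Z, Conn (EX V Z m h) z x := by
  obtain ⟨z, hz, h1⟩ := hx
  refine ⟨z, hz, ?_⟩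
  refine Conn.ind (P := fun w => Conn (EX V Z m h) z w) (Conn.refl (sub_EX hz)) ?_ h1
  intro u v hu huv hv ih
  exact ih.tail huv ⟨z, hz, hu.tail huv hv⟩

theorem EX_sub_of (hg : ∀ x ∈ V, x ∈ nb (EX V Z m h) → g x = h x) :
    EX V Z m g ⊆ EX V Z m h := by
  rintro y ⟨z, hz, h1⟩
  refine Conn.ind (P := fun w => w ∈ EX V Z m h) (sub_EX hz) ?_ h1
  intro u v _ huv hv ih
  rcases hv with hv | ⟨hv, hm⟩
  · exact sub_EX hv
  · by_contra hcon
    have h2 : v ∈ nb (EX V Z m h) := Or.inr ⟨hcon, u, ih, huv⟩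
    rw [hg v hv h2] at hm
    exact hcon (EX_step ih huv hv hm)

theorem EX_congr (hg : ∀ x ∈ V, x ∈ nb (EX V Z m h) → g x = h x) :
    EX V Z m g = EX V Z m h := by
  refine Subset.antisymm (EX_sub_of hg) ?_
  rintro y ⟨z, hz, h1⟩
  have key : ∀ w, Conn (Z ∪ {x | x ∈ V ∧ m ≤ |h x|}) z w → w ∈ EX V Z m g ∧ w ∈ EX V Z m h := by
    intro w hw
    refine Conn.ind (P := fun w => w ∈ EX V Z m g ∧ w ∈ EX V Z m h) ⟨sub_EX hz, sub_EX hz⟩ ?_ hw
    rintro u v _ huv hv ⟨ih1, ih2⟩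
    rcases hv with hv | ⟨hv, hm⟩
    · exact ⟨sub_EX hv, sub_EX hv⟩
    · have h2 : v ∈ EX V Z m h := EX_step ih2 huv hv hm
      refine ⟨EX_step ih1 huv hv ?_, h2⟩
      rw [hg v hv (Or.inl h2)]
      exact hm
  exact (key y h1).1

theorem EX_congr' (hg : ∀ x, x ∉ UX V Z m h → g x = h x) :
    EX V Z m g = EX V Z m h :=
  EX_congr fun x _ hx => hg x fun h1 => h1.2 hx

open Classical in
/-- The revealed data. -/
noncomputable def fX (V Z : Set Pt) (m : ℤ) (h : Hg) : Set Pt × Hg :=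
  (EX V Z m h, fun x => if x ∈ UX V Z m h then 0 else h x)

theorem fX_iff : fX V Z m g = fX V Z m h ↔ ∀ x, x ∉ UX V Z m h → g x = h x := by
  constructor
  · intro e x hx
    have e1 : EX V Z m g = EX V Z m h := congrArg Prod.fst e
    have e3 : UX V Z m g = UX V Z m h := by unfold UX; rw [e1]
    have e2 := congrFun (congrArg Prod.snd e) x
    simp only [fX] at e2
    rw [if_neg hx, if_neg (e3 ▸ hx)] at e2
    exact e2
  · intro hg
    have e1 := EX_congr' hg
    have e3 : UX V Z m g = UX V Z m h := by unfold UX; rw [e1]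
    unfold fX
    refine Prod.ext e1 ?_
    funext x
    by_cases hx : x ∈ UX V Z m h
    · have hx' : x ∈ UX V Z m g := e3 ▸ hx
      simp only [if_pos hx, if_pos hx']
    · have hx' : x ∉ UX V Z m g := e3 ▸ hx
      simp only [if_neg hx, if_neg hx']
      exact hg x hx

theorem fX_fibre (hh : h ∈ Cx V η) :
    Cx V η ∩ {g | fX V Z m g = fX V Z m h} = Cx (UX V Z m h) h := by
  rw [← Cx_agree hh UX_sub]
  ext g
  simp only [mem_inter_iff, mem_ofPred_eq, fX_iff]

/-- The visible data. -/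
theorem UX_bdry {x y : Pt} (hx : x ∈ UX V Z m h) (hy : y ∉ UX V Z m h) (hxy : Adj x y) :
    y ∉ V ∨ (y ∈ V ∧ y ∈ nb (EX V Z m h) ∧ y ∉ EX V Z m h ∧ |h y| < m) := by
  by_cases hyV : y ∈ V
  · right
    have h1 : y ∈ nb (EX V Z m h) := by
      by_contra hcon
      exact hy ⟨hyV, hcon⟩
    have h2 : y ∉ EX V Z m h := by
      intro h3
      apply hx.2
      by_cases hxE : x ∈ EX V Z m h
      · exact Or.inl hxE
      · exact Or.inr ⟨hxE, y, h3, Topo.adj_symm hxy⟩
    refine ⟨hyV, h1, h2, ?_⟩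
    by_contra hcon
    push Not at hcon
    obtain ⟨-, r, hr, hry⟩ := h1.resolve_left h2
    exact h2 (EX_step hr hry hyV hcon)
  · exact Or.inl hyV

/-- The complement of the remaining domain is connected. -/
theorem cc_UX (hCC : CC V) (hZ : ∀ z ∈ Z, ∃ y, y ∉ V ∧ Conn (Z ∪ Vᶜ) z y) : CC (UX V Z m h) := by
  have h1 : Vᶜ ⊆ (UX V Z m h)ᶜ := compl_subset_compl.2 UX_sub
  have h2 : EX V Z m h ⊆ (UX V Z m h)ᶜ := fun x hx hx' => hx'.2 (Or.inl hx)
  have h3 : Z ∪ Vᶜ ⊆ (UX V Z m h)ᶜ := union_subset (sub_EX.trans h2) h1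
  have key1 : ∀ x, x ∈ EX V Z m h → ∃ y, y ∉ V ∧ Conn (UX V Z m h)ᶜ x y := by
    intro x hx
    obtain ⟨z, hz, h4⟩ := EX_conn hx
    obtain ⟨y, hy, h5⟩ := hZ z hz
    exact ⟨y, hy, (h4.mono h2).symm.trans (h5.mono h3)⟩
  have key : ∀ x, x ∉ UX V Z m h → ∃ y, y ∉ V ∧ Conn (UX V Z m h)ᶜ x y := by
    intro x hx
    by_cases hxV : x ∈ V
    · have h4 : x ∈ nb (EX V Z m h) := by
        by_contra hcon
        exact hx ⟨hxV, hcon⟩
      rcases h4 with h4 | ⟨-, r, hr, hrx⟩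
      · exact key1 x h4
      · obtain ⟨y, hy, h5⟩ := key1 r hr
        exact ⟨y, hy, (Conn.of_adj hx (h2 hr) (Topo.adj_symm hrx)).trans h5⟩
    · exact ⟨x, hxV, Conn.refl hx⟩
  intro x y hx hy
  obtain ⟨x', hx', h4⟩ := key x hx
  obtain ⟨y', hy', h5⟩ := key y hy
  exact h4.trans (((hCC x' y' hx' hy').mono h1).trans h5.symm)

/-! ### Truncated data -/

/-- The truncated heights. -/
def trc (M : ℕ) (h : Hg) : Hg := fun x => max (-(2 * (M : ℤ) + 1)) (min (2 * (M : ℤ) + 1) (h x))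

theorem trc_abs (M : ℕ) (h : Hg) (x : Pt) : |trc M h x| ≤ 2 * M + 1 := by
  unfold trc
  rw [abs_le]
  omega

theorem trc_eq {M : ℕ} {x : Pt} (hx : |h x| ≤ 2 * M + 1) : trc M h x = h x := by
  unfold trc
  rw [abs_le] at hx
  omega

theorem trc_odd {M : ℕ} (hh : ∀ x, Odd (h x)) (x : Pt) : Odd (trc M h x) := by
  have h1 := hh x
  unfold trc
  rcases max_choice (-(2 * (M : ℤ) + 1)) (min (2 * (M : ℤ) + 1) (h x)) with e | e <;> rw [e]
  · exact ⟨-M - 1, by ring⟩
  · rcases min_choice (2 * (M : ℤ) + 1) (h x) with e | e <;> rw [e]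
    · exact ⟨M, rfl⟩
    · exact h1

theorem trc_lip {M : ℕ} {x y : Pt} (hxy : |h x - h y| ≤ 2) : |trc M h x - trc M h y| ≤ 2 := by
  unfold trc
  rw [abs_le] at hxy ⊢
  omega

open Classical in
/-- Data matter only next to the domain. -/
theorem Ex_data {U : Set Pt} {η η' : Hg} (hη : ∀ x, Odd (η x))
    (hη' : ∀ x, Odd (η' x)) (he : ∀ x ∈ U, ∀ y, y ∉ U → Adj x y → η' y = η y) {F : Hg → ℝ}
    (hF : ∀ a b : Hg, (∀ x ∈ U, a x = b x) → F a = F b) :
    Ex (Cx U η) F = Ex (Cx U η') F := by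
  have hb : BijOn (fun (a : Hg) (x : Pt) => if x ∈ U then a x else η x) (Cx U η') (Cx U η) := by
    have key : ∀ {η η' : Hg}, (∀ x, Odd (η x)) →
        (∀ x ∈ U, ∀ y, y ∉ U → Adj x y → η' y = η y) → ∀ a ∈ Cx U η',
          (fun (x : Pt) => if x ∈ U then a x else η x) ∈ Cx U η := by
      intro η η' hη he a ha
      rw [mem_Cx] at ha ⊢
      refine ⟨fun x => ?_, fun x hx => if_neg hx, fun x hx y hxy => ?_⟩
      · split_ifs
        · exact ha.1 x
        · exact hη x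
      · rw [if_pos hx]
        by_cases hy : y ∈ U
        · rw [if_pos hy]
          exact ha.2.2 x hx y hxy
        · rw [if_neg hy, ← he x hx y hy hxy, ← ha.2.1 y hy]
          exact ha.2.2 x hx y hxy
    refine ⟨fun a ha => key hη he a ha, fun a ha b hb hab => ?_, fun a ha => ?_⟩
    · funext x
      by_cases hx : x ∈ U
      · have := congrFun hab x
        simpa only [if_pos hx] using this
      · rw [Cx_out ha hx, Cx_out hb hx]
    · refine ⟨fun x => if x ∈ U then a x else η' x,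
        key hη' (fun x hx y hy hxy => (he x hx y hy hxy).symm) a ha, ?_⟩
      funext x
      by_cases hx : x ∈ U
      · simp only [if_pos hx]
      · simp only [if_neg hx]
        exact (Cx_out ha hx).symm
  rw [Ex_bij _ hb]
  refine Ex_congr fun a _ => hF _ _ fun x hx => ?_
  exact if_pos hx

/-! ### The decomposition -/

/-- If the expectations in the remaining domains are small except on a set of small probability
then the expectation is small. -/
theorem Ex_small (hV : V.Finite) {F : Hg → ℝ} {B : Set Hg} {ε : ℝ} (hε : 0 ≤ ε)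
    (hB : ∀ a ∈ Cx V η, ∀ b ∈ Cx V η, fX V Z m a = fX V Z m b → (a ∈ B ↔ b ∈ B))
    (hF : ∀ h ∈ Cx V η, h ∉ B → |Ex (Cx (UX V Z m h) h) F| ≤ ε) :
    |Ex (Cx V η) F| ≤ ε + √(Ex (Cx V η) (fun h => F h ^ 2) * Pr (Cx V η) B) := by
  classical
  have hS := Cx_finite hV η
  have e1 : Ex (Cx V η) F = Ex (Cx V η) (fun h => if h ∈ B then 0 else F h) +
      Ex (Cx V η) (fun h => F h * ind B h) := by
    rw [← Ex_add]
    refine Ex_congr fun h _ => ?_
    by_cases h1 : h ∈ B <;> simp [ind, h1]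
  have e2 : Ex (Cx V η) (fun h => if h ∈ B then 0 else F h) =
      Ex (Cx V η) (fun h => if h ∈ B then 0 else Ex (Cx (UX V Z m h) h) F) := by
    refine Ex_eq_of_fiber hS (fX V Z m) _ _ ?_ ?_
    · intro a ha b hb hab
      have h1 := hB a ha b hb hab
      by_cases h2 : a ∈ B
      · rw [if_pos h2, if_pos (h1.1 h2)]
      · rw [if_neg h2, if_neg fun h3 => h2 (h1.2 h3), ← fX_fibre ha, ← fX_fibre hb, hab]
    · intro a ha
      by_cases h2 : a ∈ B
      · rw [if_pos h2]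
        refine (Ex_congr (G := fun _ => (0 : ℝ)) fun b hb => ?_).trans Ex_zero
        rw [if_pos ((hB b hb.1 a ha hb.2).2 h2)]
      · rw [if_neg h2, ← fX_fibre ha]
        refine Ex_congr fun b hb => ?_
        rw [if_neg fun h3 => h2 ((hB b hb.1 a ha hb.2).1 h3)]
  have h3 : |Ex (Cx V η) (fun h => if h ∈ B then 0 else F h)| ≤ ε := by
    rw [e2]
    refine (abs_Ex_le _).trans (Ex_le_const hε fun h hh => ?_)
    by_cases h2 : h ∈ B
    · simp [h2, hε]
    · simp only [h2, if_false]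
      exact hF h hh h2
  have h4 : |Ex (Cx V η) (fun h => F h * ind B h)| ≤
      √(Ex (Cx V η) (fun h => F h ^ 2) * Pr (Cx V η) B) := by
    apply Real.abs_le_sqrt
    refine (Ex_mul_sq_le hS F (ind B)).trans (le_of_eq ?_)
    congr 1
    rw [Pr_eq_Ex hS]
    refine Ex_congr fun h _ => ?_
    by_cases h1 : h ∈ B <;> simp [ind, h1]
  rw [e1]
  exact (abs_add_le _ _).trans (add_le_add h3 h4)

end Vale.Agent.P153.R2.SDAR
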