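import Vale.Agent.P153.R2.SDAR.Stmt
import Vale.Agent.P153.R2.SDAR.Fib
import Vale.Agent.P153.R2.SDAR.Tigh

/-!
# P153-R2, block SDAR (helper443): integer coordinates of the strands
-/

namespace Vale.Agent.P153.R2.SDAR

open Set Relation
open Vale.Agent.P153 Vale.Agent.P153.F.SD
open Vale.Agent.P153.Topo (Conn)
open Vale.Agent.P153.F.Top (dp c1 c2)

/-- Transversal coordinate. -/
def uu (i : Fin 3) (x : Pt) : ℤ := if i = 0 then x.1 else if i = 1 then -x.1 else x.1 + x.2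

/-- Longitudinal coordinate. -/
def vv (i : Fin 3) (x : Pt) : ℤ := if i = 0 then x.2 else -x.2

/-- The vertex with given coordinates. -/
def pt (i : Fin 3) (u v : ℤ) : Pt := if i = 0 then (u, v) else if i = 1 then (-u, -v) else (u + v, -v)

theorem c1_dpz (δ : ℝ) (x : Pt) : c1 (dp δ x) = δ * x.1 := by
  have h3 : √3 ≠ 0 := by positivity
  unfold c1 dp
  field_simp
  ring

theorem c2_dpz (δ : ℝ) (x : Pt) : c2 (dp δ x) = δ * x.2 := by
  have h3 : √3 ≠ 0 := by positivity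
  unfold c2 dp
  field_simp

theorem ts_dpz (δ : ℝ) (i : Fin 3) (x : Pt) : ts i (dp δ x) = δ * uu i x := by
  unfold ts uu
  rw [c1_dpz, c2_dpz]
  split_ifs <;> push_cast <;> ring

theorem ls_dpz (δ : ℝ) (i : Fin 3) (x : Pt) : ls i (dp δ x) = δ * vv i x := by
  unfold ls vv
  rw [c2_dpz]
  split_ifs <;> push_cast <;> ring

theorem uu_pt (i : Fin 3) (u v : ℤ) : uu i (pt i u v) = u := by
  unfold uu pt
  split_ifs <;> simp

theorem vv_pt (i : Fin 3) (u v : ℤ) : vv i (pt i u v) = v := by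
  unfold vv pt
  split_ifs <;> simp

theorem pt_uv (i : Fin 3) (x : Pt) : pt i (uu i x) (vv i x) = x := by
  obtain ⟨a, b⟩ := x
  unfold uu vv pt
  split_ifs <;> simp

theorem adj_u (i : Fin 3) (u v : ℤ) : Adj (pt i u v) (pt i (u + 1) v) := by
  rw [Topo.adj_iff]
  unfold pt
  split_ifs <;> simp <;> omega

theorem adj_v (i : Fin 3) (u v : ℤ) : Adj (pt i u v) (pt i u (v + 1)) := by
  rw [Topo.adj_iff]
  unfold pt
  split_ifs <;> simp <;> omega

theorem conn_le {S : Set Pt} {f : ℤ → Pt} (hf : ∀ n, Adj (f n) (f (n + 1))) {v w : ℤ}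
    (hvw : v ≤ w) (h : ∀ z, v ≤ z → z ≤ w → f z ∈ S) : Conn S (f v) (f w) := by
  obtain ⟨n, rfl⟩ := Int.le.dest hvw
  clear hvw
  induction n with
  | zero =>
    simp only [Nat.cast_zero, add_zero] at h ⊢
    exact Conn.refl (h v le_rfl le_rfl)
  | succ n ih =>
    have h1 := ih fun z hz hz' => h z hz (by push_cast; omega)
    have e : v + ((n + 1 : ℕ) : ℤ) = v + n + 1 := by push_cast; ring
    rw [e] at h ⊢
    exact h1.tail (hf _) (h _ (by omega) le_rfl)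

theorem conn_seg {S : Set Pt} {f : ℤ → Pt} (hf : ∀ n, Adj (f n) (f (n + 1))) {v w : ℤ}
    (h : ∀ z, min v w ≤ z → z ≤ max v w → f z ∈ S) : Conn S (f v) (f w) := by
  rcases le_total v w with hvw | hvw
  · exact conn_le hf hvw fun z hz hz' => h z (by omega) (by omega)
  · exact (conn_le hf hvw fun z hz hz' => h z (by omega) (by omega)).symm

/-- Rectangles in the coordinates of a strand are connected. -/
theorem cn_rect (i : Fin 3) {P Q : ℤ → Prop} (hP : ∀ a b c, P a → P c → a ≤ b → b ≤ c → P b)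
    (hQ : ∀ a b c, Q a → Q c → a ≤ b → b ≤ c → Q b) : Cn {x | P (uu i x) ∧ Q (vv i x)} := by
  intro x hx y hy
  obtain ⟨hx1, hx2⟩ := hx
  obtain ⟨hy1, hy2⟩ := hy
  have h1 : Conn {x | P (uu i x) ∧ Q (vv i x)} (pt i (uu i x) (vv i x)) (pt i (uu i y) (vv i x)) := by
    refine conn_seg (f := fun n => pt i n (vv i x)) (fun n => adj_u i n _) fun z hz hz' => ?_
    simp only [mem_ofPred_eq, uu_pt, vv_pt]
    refine ⟨?_, hx2⟩
    rcases le_total (uu i x) (uu i y) with h2 | h2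
    · exact hP _ _ _ hx1 hy1 (by omega) (by omega)
    · exact hP _ _ _ hy1 hx1 (by omega) (by omega)
  have h2 : Conn {x | P (uu i x) ∧ Q (vv i x)} (pt i (uu i y) (vv i x)) (pt i (uu i y) (vv i y)) := by
    refine conn_seg (f := fun n => pt i (uu i y) n) (fun n => adj_v i _ n) fun z hz hz' => ?_
    simp only [mem_ofPred_eq, uu_pt, vv_pt]
    refine ⟨hy1, ?_⟩
    rcases le_total (vv i x) (vv i y) with h2 | h2
    · exact hQ _ _ _ hx2 hy2 (by omega) (by omega)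
    · exact hQ _ _ _ hy2 hx2 (by omega) (by omega)
  have := h1.trans h2
  rwa [pt_uv, pt_uv] at this

/-! ### Distances -/

theorem uu_sub (i : Fin 3) {x y : Pt} {D : ℤ} (h1 : |x.1 - y.1| ≤ D) (h2 : |x.2 - y.2| ≤ D) :
    |uu i x - uu i y| ≤ 2 * D := by
  rw [abs_le] at h1 h2 ⊢
  unfold uu
  split_ifs <;> omega

theorem vv_sub (i : Fin 3) {x y : Pt} {D : ℤ} (h2 : |x.2 - y.2| ≤ D) :
    |vv i x - vv i y| ≤ D := by
  rw [abs_le] at h2 ⊢
  unfold vv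
  split_ifs <;> omega

theorem ts_sub {δ : ℝ} (hδ : 0 ≤ δ) (i : Fin 3) {x y : Pt} {D : ℤ} (h1 : |x.1 - y.1| ≤ D)
    (h2 : |x.2 - y.2| ≤ D) : |ts i (dp δ x) - ts i (dp δ y)| ≤ 2 * (δ * D) := by
  rw [ts_dpz, ts_dpz, ← mul_sub, abs_mul, abs_of_nonneg hδ]
  have h3 : ((|uu i x - uu i y| : ℤ) : ℝ) ≤ ((2 * D : ℤ) : ℝ) := Int.cast_le.2 (uu_sub i h1 h2)
  push_cast at h3
  have := mul_le_mul_of_nonneg_left h3 hδ
  linarith

theorem ls_sub {δ : ℝ} (hδ : 0 ≤ δ) (i : Fin 3) {x y : Pt} {D : ℤ}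
    (h2 : |x.2 - y.2| ≤ D) : |ls i (dp δ x) - ls i (dp δ y)| ≤ δ * D := by
  rw [ls_dpz, ls_dpz, ← mul_sub, abs_mul, abs_of_nonneg hδ]
  have h3 : ((|vv i x - vv i y| : ℤ) : ℝ) ≤ (D : ℝ) := Int.cast_le.2 (vv_sub i h2)
  push_cast at h3
  exact mul_le_mul_of_nonneg_left h3 hδ

theorem dist_dp {δ : ℝ} (hδ : 0 ≤ δ) {x y : Pt} {D : ℤ} (h1 : |x.1 - y.1| ≤ D)
    (h2 : |x.2 - y.2| ≤ D) : dist (dp δ x) (dp δ y) ≤ 2 * (δ * D) := by
  have h3 : |(x.1 : ℝ) - y.1| ≤ D := by exact_mod_cast h1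
  have h4 : |(x.2 : ℝ) - y.2| ≤ D := by exact_mod_cast h2
  have hD : (0 : ℝ) ≤ D := (abs_nonneg _).trans h3
  have h5 : √3 ≤ 2 := by
    rw [Real.sqrt_le_left (by norm_num)]
    norm_num
  have h6 : 0 ≤ √3 := Real.sqrt_nonneg 3
  rw [Prod.dist_eq, max_le_iff]
  constructor
  · rw [Real.dist_eq]
    show |δ * ((x.1 : ℝ) + x.2 / 2) - δ * (y.1 + y.2 / 2)| ≤ _
    have e : δ * ((x.1 : ℝ) + x.2 / 2) - δ * (y.1 + y.2 / 2) =
        δ * ((x.1 - y.1) + (x.2 - y.2) / 2) := by ring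
    rw [e, abs_mul, abs_of_nonneg hδ]
    have h7 : |((x.1 : ℝ) - y.1) + (x.2 - y.2) / 2| ≤ 2 * D := by
      rw [abs_le] at h3 h4 ⊢
      constructor <;> linarith [h3.1, h3.2, h4.1, h4.2]
    have := mul_le_mul_of_nonneg_left h7 hδ
    linarith
  · rw [Real.dist_eq]
    show |δ * (√3 / 2 * (x.2 : ℝ)) - δ * (√3 / 2 * y.2)| ≤ _
    have e : δ * (√3 / 2 * (x.2 : ℝ)) - δ * (√3 / 2 * y.2) = δ * (√3 / 2 * (x.2 - y.2)) := by ring
    rw [e, abs_mul, abs_of_nonneg hδ, abs_mul, abs_of_nonneg (by positivity : 0 ≤ √3 / 2)]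
    have h7 : √3 / 2 * |(x.2 : ℝ) - y.2| ≤ 1 * D :=
      mul_le_mul (by linarith) h4 (abs_nonneg _) (by norm_num)
    have := mul_le_mul_of_nonneg_left h7 hδ
    nlinarith

/-! ### The strands are far apart -/

theorem strands {b : PW} {r : ℝ} {lf : Fin 3 → ℝ} (hr : 0 < r)
    (hr4 : r ≤ (b.s0 - b.x0 - b.y0) / 4) (hlf : ∀ i, l0 b i + r < lf i) {i j : Fin 3} {z : ℝ × ℝ}
    (h1 : |ts j z - t0 b j| ≤ r / 2) (h2 : lf j + r / 2 < ls j z) :
    z ∉ sbx i (t0 b i) (lf i) (r / 2) := by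
  rintro ⟨h3, h4⟩
  have k0 := hlf 0
  have k1 := hlf 1
  have k2 := hlf 2
  rw [abs_le] at h1 h3 h4
  fin_cases i <;> fin_cases j <;> simp [ts, ls, t0, l0] at * <;> linarith

end Vale.Agent.P153.R2.SDAR
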