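import Vale.Agent.P153.R2.SDAR.Stmt

/-!
P153-R2, block SDAR (helper506): coordinates of the strands, lattice boxes.
-/

set_option autoImplicit false

namespace Vale.Agent.P153.R2.SDAR

open Filter Topology Set MeasureTheory
open Vale.Agent.P145.PT Vale.Agent.P153 Vale.Agent.P153.F Vale.Agent.P153.F.SD
open Vale.Agent.P153.F.Top (dp c1 c2)
open Vale.Agent.P153.Topo (Conn)

/-! ### Real coordinates -/

/-- The point with the coordinates `t`, `l` of the strand `i`. -/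
noncomputable def qp (i : Fin 3) (t l : ℝ) : ℝ × ℝ :=
  if i = 0 then F.X.Sdx.pc t l else if i = 1 then F.X.Sdx.pc (-t) (-l) else F.X.Sdx.pc (t + l) (-l)

theorem fin3 (i : Fin 3) : i = 0 ∨ i = 1 ∨ i = 2 := by fin_cases i <;> simp

theorem ts0 (z : ℝ × ℝ) : ts 0 z = c1 z := by simp [ts]
theorem ts1 (z : ℝ × ℝ) : ts 1 z = -c1 z := by simp [ts]
theorem ts2 (z : ℝ × ℝ) : ts 2 z = c1 z + c2 z := by simp [ts]
theorem ls0 (z : ℝ × ℝ) : ls 0 z = c2 z := by simp [ls]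
theorem ls1 (z : ℝ × ℝ) : ls 1 z = -c2 z := by simp [ls]
theorem ls2 (z : ℝ × ℝ) : ls 2 z = -c2 z := by simp [ls]
theorem t00 (b : PW) : t0 b 0 = b.x0 := by simp [t0]
theorem t01 (b : PW) : t0 b 1 = -b.x0 := by simp [t0]
theorem t02 (b : PW) : t0 b 2 = b.s0 := by simp [t0]
theorem l00 (b : PW) : l0 b 0 = b.s0 - b.x0 := by simp [l0]
theorem l01 (b : PW) : l0 b 1 = -b.y0 := by simp [l0]
theorem l02 (b : PW) : l0 b 2 = -b.y0 := by simp [l0]
theorem qp0 (t l : ℝ) : qp 0 t l = F.X.Sdx.pc t l := by simp [qp]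
theorem qp1 (t l : ℝ) : qp 1 t l = F.X.Sdx.pc (-t) (-l) := by simp [qp]
theorem qp2 (t l : ℝ) : qp 2 t l = F.X.Sdx.pc (t + l) (-l) := by simp [qp]

theorem ts_qp (i : Fin 3) (t l : ℝ) : ts i (qp i t l) = t := by
  rcases fin3 i with rfl | rfl | rfl
  · rw [qp0, ts0, F.X.Sdx.c1_pc]
  · rw [qp1, ts1, F.X.Sdx.c1_pc, neg_neg]
  · rw [qp2, ts2, F.X.Sdx.c1_pc, F.X.Sdx.c2_pc]; ring

theorem ls_qp (i : Fin 3) (t l : ℝ) : ls i (qp i t l) = l := by
  rcases fin3 i with rfl | rfl | rfl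
  · rw [qp0, ls0, F.X.Sdx.c2_pc]
  · rw [qp1, ls1, F.X.Sdx.c2_pc, neg_neg]
  · rw [qp2, ls2, F.X.Sdx.c2_pc, neg_neg]

theorem c_lin (z w : ℝ × ℝ) : c1 z - c1 w = (z.1 - w.1) - (z.2 - w.2) / √3 ∧
    c2 z - c2 w = 2 * (z.2 - w.2) / √3 := by
  unfold c1 c2
  constructor <;> ring

theorem abs_ls_le (i : Fin 3) (z w : ℝ × ℝ) : |ls i z - ls i w| ≤ 2 * dist z w := by
  have h := (F.X.Sdx.c_le z w).2
  rcases fin3 i with rfl | rfl | rfl
  · rw [ls0, ls0]; exact h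
  · rw [ls1, ls1, show -c2 z - -c2 w = -(c2 z - c2 w) by ring, abs_neg]; exact h
  · rw [ls2, ls2, show -c2 z - -c2 w = -(c2 z - c2 w) by ring, abs_neg]; exact h

theorem abs_ts_le (i : Fin 3) (z w : ℝ × ℝ) : |ts i z - ts i w| ≤ 4 * dist z w := by
  obtain ⟨h1, h2⟩ := F.X.Sdx.c_le z w
  have h0 : 0 ≤ dist z w := dist_nonneg
  rcases fin3 i with rfl | rfl | rfl
  · rw [ts0, ts0]; linarith
  · rw [ts1, ts1, show -c1 z - -c1 w = -(c1 z - c1 w) by ring, abs_neg]; linarith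
  · rw [ts2, ts2, show c1 z + c2 z - (c1 w + c2 w) = (c1 z - c1 w) + (c2 z - c2 w) by ring]
    exact (abs_add_le _ _).trans (by linarith)

theorem cont_ts (i : Fin 3) : Continuous (ts i) := by
  have k1 : Continuous c1 := by unfold c1; fun_prop
  have k2 : Continuous c2 := by unfold c2; fun_prop
  rcases fin3 i with rfl | rfl | rfl
  · rw [show ts 0 = c1 from funext ts0]; exact k1
  · rw [show ts 1 = fun z => -c1 z from funext ts1]; exact k1.neg
  · rw [show ts 2 = fun z => c1 z + c2 z from funext ts2]; exact k1.add k2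

theorem cont_ls (i : Fin 3) : Continuous (ls i) := by
  have k2 : Continuous c2 := by unfold c2; fun_prop
  rcases fin3 i with rfl | rfl | rfl
  · rw [show ls 0 = c2 from funext ls0]; exact k2
  · rw [show ls 1 = fun z => -c2 z from funext ls1]; exact k2.neg
  · rw [show ls 2 = fun z => -c2 z from funext ls2]; exact k2.neg

theorem dist_le_c (z w : ℝ × ℝ) : dist z w ≤ |c1 z - c1 w| + |c2 z - c2 w| := by
  have hs0 : (0 : ℝ) < √3 := by positivity
  have hs2 : √3 * √3 = 3 := Real.mul_self_sqrt (by norm_num)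
  have hs : √3 < 2 := by nlinarith only [hs2]
  have e2 : ∀ u : ℝ × ℝ, u.2 = √3 / 2 * c2 u := fun u => by
    unfold c2; field_simp
  have e1 : ∀ u : ℝ × ℝ, u.1 = c1 u + c2 u / 2 := fun u => by
    unfold c1 c2; ring
  rw [Prod.dist_eq, Real.dist_eq, Real.dist_eq, e1 w, e1 z, e2 w, e2 z]
  refine max_le ?_ ?_
  · rw [show c1 z + c2 z / 2 - (c1 w + c2 w / 2) = (c1 z - c1 w) + (c2 z - c2 w) / 2 by ring]
    refine (abs_add_le _ _).trans ?_
    rw [abs_div, abs_two]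
    linarith [abs_nonneg (c2 z - c2 w)]
  · rw [← mul_sub, abs_mul, abs_of_pos (by positivity : (0 : ℝ) < √3 / 2)]
    nlinarith [abs_nonneg (c2 z - c2 w), abs_nonneg (c1 z - c1 w)]

theorem dist_le_tl (i : Fin 3) (z w : ℝ × ℝ) :
    dist z w ≤ 2 * (|ts i z - ts i w| + |ls i z - ls i w|) := by
  have h := dist_le_c z w
  have a1 := abs_nonneg (ts i z - ts i w)
  have a2 := abs_nonneg (ls i z - ls i w)
  rcases fin3 i with rfl | rfl | rfl
  · rw [ts0, ts0, ls0, ls0] at *; linarith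
  · rw [ts1, ts1, ls1, ls1] at *
    rw [show -c1 z - -c1 w = -(c1 z - c1 w) by ring, abs_neg,
      show -c2 z - -c2 w = -(c2 z - c2 w) by ring, abs_neg] at *
    linarith
  · rw [ts2, ts2, ls2, ls2] at *
    have e1 : c1 z - c1 w = (c1 z + c2 z - (c1 w + c2 w)) + (-c2 z - -c2 w) := by ring
    have e2 : c2 z - c2 w = -(-c2 z - -c2 w) := by ring
    rw [e1, e2, abs_neg] at h
    have h3 := abs_add_le (c1 z + c2 z - (c1 w + c2 w)) (-c2 z - -c2 w)
    linarith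

theorem qp_eq (i : Fin 3) (z : ℝ × ℝ) : qp i (ts i z) (ls i z) = z := by
  have h := dist_le_tl i (qp i (ts i z) (ls i z)) z
  rw [ts_qp, ls_qp, sub_self, sub_self, abs_zero, add_zero, mul_zero] at h
  exact dist_le_zero.1 h

theorem cont_qp (i : Fin 3) (t : ℝ) : Continuous (qp i t) := by
  rcases fin3 i with rfl | rfl | rfl
  · rw [show qp 0 t = fun l => F.X.Sdx.pc t l from funext (qp0 t)]
    unfold F.X.Sdx.pc; fun_prop
  · rw [show qp 1 t = fun l => F.X.Sdx.pc (-t) (-l) from funext (qp1 t)]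
    unfold F.X.Sdx.pc; fun_prop
  · rw [show qp 2 t = fun l => F.X.Sdx.pc (t + l) (-l) from funext (qp2 t)]
    unfold F.X.Sdx.pc; fun_prop

/-! ### Lattice coordinates -/

/-- Transversal lattice coordinate. -/
def tz (i : Fin 3) (x : Pt) : ℤ := if i = 0 then x.1 else if i = 1 then -x.1 else x.1 + x.2

/-- Longitudinal lattice coordinate. -/
def lz (i : Fin 3) (x : Pt) : ℤ := if i = 0 then x.2 else -x.2

/-- The vertex with given lattice coordinates. -/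
def xz (i : Fin 3) (a b : ℤ) : Pt := if i = 0 then (a, b) else if i = 1 then (-a, -b) else (a + b, -b)

theorem tz_xz (i : Fin 3) (a b : ℤ) : tz i (xz i a b) = a := by
  rcases fin3 i with rfl | rfl | rfl <;> simp [tz, xz]

theorem lz_xz (i : Fin 3) (a b : ℤ) : lz i (xz i a b) = b := by
  rcases fin3 i with rfl | rfl | rfl <;> simp [lz, xz]

theorem xz_eq (i : Fin 3) (x : Pt) : xz i (tz i x) (lz i x) = x := by
  obtain ⟨a, b⟩ := x
  rcases fin3 i with rfl | rfl | rfl <;> simp [tz, lz, xz]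

theorem c1_dp (δ : ℝ) (q : Pt) : c1 (dp δ q) = δ * q.1 := by
  rw [F.X.Sdx.dp_pos, SD.c1_pos]

theorem c2_dp (δ : ℝ) (q : Pt) : c2 (dp δ q) = δ * q.2 := by
  rw [F.X.Sdx.dp_pos, SD.c2_pos]

theorem ts_dp (i : Fin 3) (δ : ℝ) (x : Pt) : ts i (dp δ x) = δ * tz i x := by
  rcases fin3 i with rfl | rfl | rfl
  · rw [ts0, c1_dp]; simp [tz]
  · rw [ts1, c1_dp]; simp [tz]
  · rw [ts2, c1_dp, c2_dp]; simp [tz]; ring

theorem ls_dp (i : Fin 3) (δ : ℝ) (x : Pt) : ls i (dp δ x) = δ * lz i x := by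
  rcases fin3 i with rfl | rfl | rfl
  · rw [ls0, c2_dp]; simp [lz]
  · rw [ls1, c2_dp]; simp [lz]
  · rw [ls2, c2_dp]; simp [lz]

theorem adj_t (i : Fin 3) (a b : ℤ) : Adj (xz i a b) (xz i (a + 1) b) := by
  rcases fin3 i with rfl | rfl | rfl <;> simp [Adj, xz]

theorem adj_l (i : Fin 3) (a b : ℤ) : Adj (xz i a b) (xz i a (b + 1)) := by
  rcases fin3 i with rfl | rfl | rfl <;> simp [Adj, xz]

theorem adj_le {x y : Pt} (h : Adj x y) (i : Fin 3) :
    |tz i y - tz i x| ≤ 1 ∧ |lz i y - lz i x| ≤ 1 := by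
  obtain ⟨x1, x2⟩ := x
  obtain ⟨y1, y2⟩ := y
  simp only [Adj, mem_insert_iff, mem_singleton_iff, Prod.mk.injEq] at h
  rcases fin3 i with rfl | rfl | rfl <;> simp only [tz, lz] <;>
    simp <;> rcases h with h | h | h | h | h | h <;> constructor <;>
    rw [abs_le] <;> constructor <;> omega

theorem conn_t (i : Fin 3) {S : Set Pt} (b : ℤ) {a : ℤ} (n : ℕ)
    (h : ∀ m : ℤ, a ≤ m → m ≤ a + n → xz i m b ∈ S) : Conn S (xz i a b) (xz i (a + n) b) := by
  induction n with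
  | zero => simpa using Conn.refl (h a le_rfl (by simp))
  | succ n ih =>
    have h1 := ih fun m h1 h2 => h m h1 (by push_cast; linarith)
    refine h1.tail ?_ (h _ (by omega) (by push_cast; linarith))
    have := adj_t i (a + n) b
    rw [show a + ((n + 1 : ℕ) : ℤ) = a + n + 1 by push_cast; ring]
    exact this

theorem conn_l (i : Fin 3) {S : Set Pt} (a : ℤ) {b : ℤ} (n : ℕ)
    (h : ∀ m : ℤ, b ≤ m → m ≤ b + n → xz i a m ∈ S) : Conn S (xz i a b) (xz i a (b + n)) := by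
  induction n with
  | zero => simpa using Conn.refl (h b le_rfl (by simp))
  | succ n ih =>
    have h1 := ih fun m h1 h2 => h m h1 (by push_cast; linarith)
    refine h1.tail ?_ (h _ (by omega) (by push_cast; linarith))
    have := adj_l i a (b + n)
    rw [show b + ((n + 1 : ℕ) : ℤ) = b + n + 1 by push_cast; ring]
    exact this

theorem conn_t' (i : Fin 3) {S : Set Pt} (b : ℤ) {a a' : ℤ}
    (h : ∀ m : ℤ, min a a' ≤ m → m ≤ max a a' → xz i m b ∈ S) :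
    Conn S (xz i a b) (xz i a' b) := by
  rcases le_total a a' with h1 | h1
  · obtain ⟨n, hn⟩ := Int.eq_ofNat_of_zero_le (sub_nonneg.2 h1)
    rw [min_eq_left h1, max_eq_right h1] at h
    have e : a' = a + n := by linarith
    rw [e]
    exact conn_t i b n fun m h2 h3 => h m h2 (by linarith)
  · obtain ⟨n, hn⟩ := Int.eq_ofNat_of_zero_le (sub_nonneg.2 h1)
    rw [min_eq_right h1, max_eq_left h1] at h
    have e : a = a' + n := by linarith
    rw [e]
    exact (conn_t i b n fun m h2 h3 => h m h2 (by linarith)).symm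

theorem conn_l' (i : Fin 3) {S : Set Pt} (a : ℤ) {b b' : ℤ}
    (h : ∀ m : ℤ, min b b' ≤ m → m ≤ max b b' → xz i a m ∈ S) :
    Conn S (xz i a b) (xz i a b') := by
  rcases le_total b b' with h1 | h1
  · obtain ⟨n, hn⟩ := Int.eq_ofNat_of_zero_le (sub_nonneg.2 h1)
    rw [min_eq_left h1, max_eq_right h1] at h
    have e : b' = b + n := by linarith
    rw [e]
    exact conn_l i a n fun m h2 h3 => h m h2 (by linarith)
  · obtain ⟨n, hn⟩ := Int.eq_ofNat_of_zero_le (sub_nonneg.2 h1)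
    rw [min_eq_right h1, max_eq_left h1] at h
    have e : b = b' + n := by linarith
    rw [e]
    exact (conn_l i a n fun m h2 h3 => h m h2 (by linarith)).symm

/-- Products of intervals are connected. -/
theorem cn_prod (i : Fin 3) {I J : Set ℤ} (hI : I.OrdConnected) (hJ : J.OrdConnected) :
    Cn {x | tz i x ∈ I ∧ lz i x ∈ J} := by
  intro x hx y hy
  rw [← xz_eq i x, ← xz_eq i y]
  refine (conn_t' i (a' := tz i y) (lz i x) fun m h1 h2 => ?_).trans
    (conn_l' i (tz i y) fun m h1 h2 => ?_)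
  · refine ⟨?_, by rw [lz_xz]; exact hx.2⟩
    rw [tz_xz]
    exact hI.uIcc_subset hx.1 hy.1 ⟨h1, h2⟩
  · refine ⟨by rw [tz_xz]; exact hy.1, ?_⟩
    rw [lz_xz]
    exact hJ.uIcc_subset hx.2 hy.2 ⟨h1, h2⟩

/-- The vertices over a box (in the coordinates of a strand) are connected. -/
theorem cn_ov {δ : ℝ} (hδ : 0 < δ) (i : Fin 3) {I J : Set ℝ} (hI : I.OrdConnected)
    (hJ : J.OrdConnected) : Cn (ov δ {z | ts i z ∈ I ∧ ls i z ∈ J}) := by
  have e : ov δ {z | ts i z ∈ I ∧ ls i z ∈ J} =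
      {x | tz i x ∈ {m : ℤ | δ * m ∈ I} ∧ lz i x ∈ {m : ℤ | δ * m ∈ J}} := by
    ext x
    simp only [ov, mem_ofPred_eq, ts_dp, ls_dp]
  rw [e]
  have hm : ∀ a b : ℤ, a ≤ b → δ * (a : ℝ) ≤ δ * b := fun a b h =>
    mul_le_mul_of_nonneg_left (by exact_mod_cast h) hδ.le
  refine cn_prod i ⟨fun a ha b hb c hc => hI.out ha hb ⟨hm _ _ hc.1, hm _ _ hc.2⟩⟩
    ⟨fun a ha b hb c hc => hJ.out ha hb ⟨hm _ _ hc.1, hm _ _ hc.2⟩⟩

theorem sbx_eq (i : Fin 3) (t l r : ℝ) :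
    sbx i t l r = {z | ts i z ∈ Icc (t - r) (t + r) ∧ ls i z ∈ Icc (l - r) (l + r)} := by
  ext z
  simp only [sbx, mem_ofPred_eq, abs_le, mem_Icc]
  constructor <;> rintro ⟨⟨h1, h2⟩, h3, h4⟩ <;> refine ⟨⟨?_, ?_⟩, ?_, ?_⟩ <;> linarith

theorem cn_sbx {δ : ℝ} (hδ : 0 < δ) (i : Fin 3) (t l r : ℝ) : Cn (ov δ (sbx i t l r)) := by
  rw [sbx_eq]
  exact cn_ov hδ i ordConnected_Icc ordConnected_Icc

/-- Every point is close to a vertex, from every side. -/
theorem exists_vertex {δ : ℝ} (hδ : 0 < δ) (i : Fin 3) (t l : ℝ) :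
    ∃ x : Pt, t ≤ ts i (dp δ x) ∧ ts i (dp δ x) < t + δ ∧ l ≤ ls i (dp δ x) ∧
      ls i (dp δ x) < l + δ := by
  refine ⟨xz i ⌈t / δ⌉ ⌈l / δ⌉, ?_⟩
  rw [ts_dp, ls_dp, tz_xz, lz_xz]
  have h1 := Int.le_ceil (t / δ)
  have h2 := Int.ceil_lt_add_one (t / δ)
  have h3 := Int.le_ceil (l / δ)
  have h4 := Int.ceil_lt_add_one (l / δ)
  rw [div_le_iff₀ hδ] at h1 h3
  have e : ∀ u : ℝ, (u / δ + 1) * δ = u + δ := fun u => by field_simp
  have h2' := mul_lt_mul_of_pos_right h2 hδ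
  have h4' := mul_lt_mul_of_pos_right h4 hδ
  rw [e] at h2' h4'
  refine ⟨?_, ?_, ?_, ?_⟩ <;> linarith

theorem adj_dp {δ : ℝ} (hδ : 0 < δ) {x y : Pt} (h : Adj x y) (i : Fin 3) :
    |ts i (dp δ y) - ts i (dp δ x)| ≤ δ ∧ |ls i (dp δ y) - ls i (dp δ x)| ≤ δ := by
  obtain ⟨h1, h2⟩ := adj_le h i
  rw [ts_dp, ts_dp, ls_dp, ls_dp, ← mul_sub, ← mul_sub, abs_mul, abs_mul, abs_of_pos hδ]
  have h1' : |(tz i y : ℝ) - tz i x| ≤ 1 := by exact_mod_cast h1
  have h2' : |(lz i y : ℝ) - lz i x| ≤ 1 := by exact_mod_cast h2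
  constructor
  · nlinarith
  · nlinarith

end Vale.Agent.P153.R2.SDAR
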