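import Vale.Agent.P153.R2.SDAR.Pinch
import Vale.Agent.P153.R2.SDAR.Scen

/-!
# P153-R2, block SDAR (helper443): arc domains along an ultrafilter are a scenario
-/

set_option autoImplicit false

namespace Vale.Agent.P153.R2.SDAR

open Filter Topology Set
open Vale.Agent.P145.PT Vale.Agent.P153 Vale.Agent.P153.F Vale.Agent.P153.F.SD
open Vale.Agent.P153.F.Top (dp c1 c2)
open Vale.Agent.P153.Topo (Conn)
open Vale.Agent.P153.R2.INTF (Arcs)

/-! ### Lattice points near a connected set -/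

/-- A vertex near `z`. -/
noncomputable def vt (δ : ℝ) (z : ℝ × ℝ) : Pt := (⌈c1 z / δ⌉, ⌈c2 z / δ⌉)

theorem c_vt {δ : ℝ} (hδ : 0 < δ) (z : ℝ × ℝ) :
    |c1 (dp δ (vt δ z)) - c1 z| ≤ δ ∧ |c2 (dp δ (vt δ z)) - c2 z| ≤ δ := by
  have key : ∀ s : ℝ, |δ * (⌈s / δ⌉ : ℤ) - s| ≤ δ := by
    intro s
    have h1 := Int.le_ceil (s / δ)
    have h2 := Int.ceil_lt_add_one (s / δ)
    have h3 : s = δ * (s / δ) := by field_simp
    have h4 := mul_le_mul_of_nonneg_left h1 hδ.le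
    have h5 := mul_le_mul_of_nonneg_left h2.le hδ.le
    rw [← h3] at h4
    rw [mul_add, ← h3, mul_one] at h5
    rw [abs_le]
    constructor <;> linarith
  constructor
  · rw [c1_dp]
    exact key _
  · rw [c2_dp]
    exact key _

theorem dist_vt {δ : ℝ} (hδ : 0 < δ) (z : ℝ × ℝ) : dist (dp δ (vt δ z)) z ≤ 2 * δ := by
  have h1 := dist_le_c (dp δ (vt δ z)) z
  obtain ⟨h2, h3⟩ := c_vt hδ z
  linarith

/-- The vertices near `E`. -/
def nd (δ : ℝ) (E : Set (ℝ × ℝ)) : Set Pt :=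
  {v | ∃ x ∈ E, dp δ v ∈ sbx 0 (c1 x) (c2 x) (2 * δ)}

theorem conn_nd {δ : ℝ} (hδ : 0 < δ) {E : Set (ℝ × ℝ)} (hE : IsPreconnected E) {u v : Pt}
    (hu : u ∈ nd δ E) (hv : v ∈ nd δ E) : Conn (nd δ E) u v := by
  have hsub : ∀ x ∈ E, ov δ (sbx 0 (c1 x) (c2 x) (2 * δ)) ⊆ nd δ E := fun x hx w hw => ⟨x, hx, hw⟩
  obtain ⟨x, hx, hux⟩ := hu
  obtain ⟨y, hy, hvy⟩ := hv
  refine hE.induction₂ (fun x y => ∀ u, dp δ u ∈ sbx 0 (c1 x) (c2 x) (2 * δ) →
    ∀ v, dp δ v ∈ sbx 0 (c1 y) (c2 y) (2 * δ) → Conn (nd δ E) u v) ?_ ?_ ?_ hx hy u hux v hvy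
  · intro x hx
    have h1 : Metric.ball x (δ / 4) ∈ 𝓝[E] x :=
      mem_nhdsWithin_of_mem_nhds (Metric.ball_mem_nhds x (by positivity))
    filter_upwards [h1, self_mem_nhdsWithin] with y hy hyE u hu v hv
    rw [Metric.mem_ball] at hy
    obtain ⟨k1, k2⟩ := c_vt hδ x
    have k3 := abs_ts_le 0 y x
    have k4 := abs_ls_le 0 y x
    rw [ts0, ts0] at k3
    rw [ls0, ls0] at k4
    rw [abs_le] at k1 k2 k3 k4
    have m1 : dp δ (vt δ x) ∈ sbx 0 (c1 x) (c2 x) (2 * δ) := by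
      constructor
      · rw [ts0, abs_le]
        constructor <;> linarith [k1.1, k1.2]
      · rw [ls0, abs_le]
        constructor <;> linarith [k2.1, k2.2]
    have m2 : dp δ (vt δ x) ∈ sbx 0 (c1 y) (c2 y) (2 * δ) := by
      constructor
      · rw [ts0, abs_le]
        constructor <;> linarith [k1.1, k1.2, k3.1, k3.2]
      · rw [ls0, abs_le]
        constructor <;> linarith [k2.1, k2.2, k4.1, k4.2]
    exact ((cn_sbx hδ 0 _ _ _ u hu _ m1).mono (hsub x hx)).trans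
      ((cn_sbx hδ 0 _ _ _ _ m2 v hv).mono (hsub y hyE))
  · intro x y z _ hy _ h1 h2 u hu v hv
    obtain ⟨k1, k2⟩ := c_vt hδ y
    have m1 : dp δ (vt δ y) ∈ sbx 0 (c1 y) (c2 y) (2 * δ) := by
      constructor
      · rw [ts0]; linarith
      · rw [ls0]; linarith
    exact (h1 u hu _ m1).trans (h2 _ m1 v hv)
  · intro x y _ _ h u hu v hv
    exact (h v hv u hu).symm

/-- Vertices near a connected set are joined near the set. -/
theorem tube_conn {δ η : ℝ} (hδ : 0 < δ) {K : Set (ℝ × ℝ)} (hK : IsPreconnected K)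
    (hs : 8 * δ ≤ η) {a b : Pt} {p q : ℝ × ℝ} (hp : p ∈ K) (hq : q ∈ K)
    (ha : dist (dp δ a) p ≤ η / 2) (hb : dist (dp δ b) q ≤ η / 2) :
    Conn (ov δ (Metric.cthickening η K)) a b := by
  set K' : Set (ℝ × ℝ) := segment ℝ (dp δ a) p ∪ K ∪ segment ℝ q (dp δ b) with hK'
  have hpre : IsPreconnected K' := by
    refine IsPreconnected.union q (Or.inr hq) (left_mem_segment ℝ _ _) ?_
      (convex_segment _ _).isPreconnected
    exact IsPreconnected.union p (right_mem_segment ℝ _ _) hp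
      (convex_segment _ _).isPreconnected hK
  have hnear : ∀ x ∈ K', ∃ y ∈ K, dist x y ≤ η / 2 := by
    have hη : 0 ≤ η / 2 := by linarith
    rintro x ((hx | hx) | hx)
    · refine ⟨p, hp, ?_⟩
      have h1 : segment ℝ (dp δ a) p ⊆ Metric.closedBall p (η / 2) :=
        (convex_closedBall p (η / 2)).segment_subset (Metric.mem_closedBall.2 ha)
          (Metric.mem_closedBall_self hη)
      exact h1 hx
    · exact ⟨x, hx, by rw [dist_self]; exact hη⟩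
    · refine ⟨q, hq, ?_⟩
      have h1 : segment ℝ q (dp δ b) ⊆ Metric.closedBall q (η / 2) :=
        (convex_closedBall q (η / 2)).segment_subset (Metric.mem_closedBall_self hη)
          (Metric.mem_closedBall.2 hb)
      exact h1 hx
  have hsub : nd δ K' ⊆ ov δ (Metric.cthickening η K) := by
    rintro v ⟨x, hx, hv⟩
    obtain ⟨y, hy, hxy⟩ := hnear x hx
    have h1 := dist_le_c (dp δ v) x
    have h2 := hv.1
    have h3 := hv.2
    rw [ts0] at h2
    rw [ls0] at h3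
    have h4 := dist_triangle (dp δ v) x y
    exact Metric.mem_cthickening_of_dist_le _ y η K hy (by linarith)
  have hmem : ∀ c : Pt, dp δ c ∈ K' → c ∈ nd δ K' := fun c hc =>
    ⟨dp δ c, hc, by constructor <;> simp [ts0, ls0] <;> linarith⟩
  exact (conn_nd hδ hpre (hmem a (Or.inl (Or.inl (left_mem_segment ℝ _ _))))
    (hmem b (Or.inr (right_mem_segment ℝ _ _)))).mono hsub

/-! ### Boxes and balls -/

theorem bx_dist {δ : ℝ} (hδ : 0 < δ) {x y : Pt} {r : ℤ} (h : x ∈ bx y r) :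
    dist (dp δ x) (dp δ y) ≤ 2 * (δ * r) := by
  obtain ⟨h1, h2⟩ := h
  have h3 := dist_le_c (dp δ x) (dp δ y)
  rw [c1_dp, c1_dp, c2_dp, c2_dp, ← mul_sub, ← mul_sub, abs_mul, abs_mul, abs_of_pos hδ] at h3
  have h4 : |((x.1 : ℝ) - y.1)| ≤ r := by exact_mod_cast h1
  have h5 : |((x.2 : ℝ) - y.2)| ≤ r := by exact_mod_cast h2
  have h6 := mul_le_mul_of_nonneg_left h4 hδ.le
  have h7 := mul_le_mul_of_nonneg_left h5 hδ.le
  linarith

theorem dist_bx {δ ρ : ℝ} (hδ : 0 < δ) {x y : Pt} (h : 4 * dist (dp δ x) (dp δ y) ≤ ρ) :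
    x ∈ bx y ⌊ρ / δ⌋ := by
  have h1 := abs_ts_le 0 (dp δ x) (dp δ y)
  have h2 := abs_ls_le 0 (dp δ x) (dp δ y)
  have h0 : 0 ≤ dist (dp δ x) (dp δ y) := dist_nonneg
  rw [ts0, ts0, c1_dp, c1_dp, ← mul_sub, abs_mul, abs_of_pos hδ] at h1
  rw [ls0, ls0, c2_dp, c2_dp, ← mul_sub, abs_mul, abs_of_pos hδ] at h2
  constructor
  · rw [Int.le_floor]
    push_cast
    rw [le_div_iff₀ hδ]
    linarith
  · rw [Int.le_floor]
    push_cast
    rw [le_div_iff₀ hδ]
    linarith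

theorem floor_mul {δ ρ : ℝ} (hδ : 0 < δ) : δ * (⌊ρ / δ⌋ : ℤ) ≤ ρ := by
  have h := Int.floor_le (ρ / δ)
  rw [le_div_iff₀ hδ] at h
  linarith

/-! ### Arc domains along an ultrafilter -/

/-- The points with a covered neighbourhood. -/
def DD (l : Filter ℕ) (δ : ℕ → ℝ) (F : ℕ → Set Pt) : Set (ℝ × ℝ) :=
  {z | ∃ ρ : ℝ, 0 < ρ ∧ ∀ᶠ n in l, ov (δ n) (Metric.ball z ρ) ⊆ F n}

/-- A sequence of arc domains in a fixed ball along an ultrafilter. -/
structure ArcS (l : Ultrafilter ℕ) (δ : ℕ → ℝ) (F P M : ℕ → Set Pt) (Rb : ℝ) : Prop where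
  le : (l : Filter ℕ) ≤ atTop
  pos : ∀ n, 0 < δ n
  lim : Tendsto δ atTop (𝓝 0)
  arcs : ∀ᶠ n in (l : Filter ℕ), Arcs (F n) (P n) (M n)
  ball : ∀ᶠ n in (l : Filter ℕ), ∀ v ∈ F n, dp (δ n) v ∈ Metric.ball (0 : ℝ × ℝ) Rb

variable {l : Ultrafilter ℕ} {δ : ℕ → ℝ} {F P M : ℕ → Set Pt} {Rb : ℝ}

theorem ArcS.small (S : ArcS l δ F P M Rb) {ε : ℝ} (hε : 0 < ε) : ∀ᶠ n in (l : Filter ℕ), δ n < ε :=
  (S.lim.mono_left S.le).eventually (gt_mem_nhds hε)

/-- The scales. -/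
noncomputable def sc (m : ℕ) : ℝ := 1 / ((m : ℝ) + 1)

theorem sc_pos (m : ℕ) : 0 < sc m := by unfold sc; positivity

theorem sc_lim : Tendsto sc atTop (𝓝 0) := tendsto_one_div_add_atTop_nhds_zero_nat

/-- Limits along an ultrafilter. -/
theorem exists_lim (l : Ultrafilter ℕ) {u : ℕ → ℝ × ℝ} {R : ℝ}
    (h : ∀ᶠ n in (l : Filter ℕ), u n ∈ Metric.closedBall (0 : ℝ × ℝ) R) :
    ∃ x ∈ Metric.closedBall (0 : ℝ × ℝ) R, Tendsto u l (𝓝 x) := by
  have h1 : (l.map u : Filter (ℝ × ℝ)) ≤ 𝓟 (Metric.closedBall (0 : ℝ × ℝ) R) := by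
    rw [Ultrafilter.coe_map, le_principal_iff]
    exact h
  obtain ⟨x, hx, hle⟩ := (isCompact_closedBall (0 : ℝ × ℝ) R).ultrafilter_le_nhds (l.map u) h1
  exact ⟨x, hx, hle⟩

/-- The specification of the two boxes at the scale `m`. -/
def Sp (δ : ℕ → ℝ) (F P M : ℕ → Set Pt) (zz : ℕ → Pt) (m n : ℕ) (c : Fin 2 → Pt) : Prop :=
  (∀ k, (∃ x ∈ F n, x ∈ bx (c k) (⌊sc m / δ n⌋ + 1)) ∧
    ∃ y, y ∉ F n ∧ y ∈ bx (c k) (⌊sc m / δ n⌋ + 1)) ∧
    ∀ x a, Bad (F n) (P n) (M n) ⌊sc m / δ n⌋ x a →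
      ¬ Conn (F n \ (bx (c 0) (3 * ⌊sc m / δ n⌋ + 1) ∪ bx (c 1) (3 * ⌊sc m / δ n⌋ + 1))) (zz n) a

theorem two_pts (S : ArcS l δ F P M Rb) {z₀ : ℝ × ℝ} (hz₀ : z₀ ∈ DD l δ F) {zz : ℕ → Pt}
    (hzz : Tendsto (fun n => dp (δ n) (zz n)) l (𝓝 z₀)) :
    ∃ e : Fin 2 → ℝ × ℝ, (∀ k, e k ∉ DD l δ F) ∧ ∀ r : ℝ, 0 < r → ∃ ρ : ℝ, 0 < ρ ∧
      ∀ᶠ n in (l : Filter ℕ), ∀ x a, Bad (F n) (P n) (M n) ⌊ρ / δ n⌋ x a →
        ¬ Conn (F n \ ov (δ n) (⋃ k, Metric.closedBall (e k) r)) (zz n) a := by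
  classical
  obtain ⟨ρ₀, hρ₀, hcov⟩ := hz₀
  have hscl : Tendsto sc l (𝓝 0) := sc_lim.mono_left S.le
  -- the boxes
  have hc : ∀ m n, ∃ c : Fin 2 → Pt, (∃ c', Sp δ F P M zz m n c') → Sp δ F P M zz m n c := by
    intro m n
    by_cases h : ∃ c', Sp δ F P M zz m n c'
    · obtain ⟨c', h'⟩ := h
      exact ⟨c', fun _ => h'⟩
    · exact ⟨fun _ => 0, fun h' => absurd h' h⟩
  choose c hc using hc
  have hSp : ∀ m, 16 * sc m < ρ₀ → ∀ᶠ n in (l : Filter ℕ), Sp δ F P M zz m n (c m n) := by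
    intro m hm
    have hball : ∀ᶠ n in (l : Filter ℕ), dist (dp (δ n) (zz n)) z₀ < ρ₀ / 4 :=
      hzz.eventually (Metric.ball_mem_nhds z₀ (by positivity))
    filter_upwards [hcov, S.arcs, S.small (by positivity : 0 < ρ₀ / 16), hball] with n h1 h2 h3 h4
    refine hc m n ?_
    have hδ := S.pos n
    have hR : (0 : ℤ) ≤ ⌊sc m / δ n⌋ := Int.floor_nonneg.2 (div_nonneg (sc_pos m).le hδ.le)
    refine pinch h2 hR fun v hv => h1 ?_
    have h5 := bx_dist hδ hv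
    have h6 := floor_mul (ρ := sc m) hδ
    push_cast at h5
    have h7 := dist_triangle (dp (δ n) v) (dp (δ n) (zz n)) z₀
    show dist _ _ < _
    nlinarith
  have hbd : ∀ m k, ∃ x ∈ Metric.closedBall (0 : ℝ × ℝ) (|Rb| + 8), 16 * sc m < ρ₀ →
      Tendsto (fun n => dp (δ n) (c m n k)) l (𝓝 x) := by
    intro m k
    by_cases hm : 16 * sc m < ρ₀
    · have h1 : ∀ᶠ n in (l : Filter ℕ), dp (δ n) (c m n k) ∈
          Metric.closedBall (0 : ℝ × ℝ) (|Rb| + 8) := by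
        filter_upwards [hSp m hm, S.ball, S.small one_pos] with n h1 h2 h3
        obtain ⟨⟨x, hx, hxb⟩, -⟩ := h1.1 k
        have hδ := S.pos n
        have h4 := bx_dist hδ hxb
        have h5 := floor_mul (ρ := sc m) hδ
        have h6 := h2 x hx
        rw [Metric.mem_ball] at h6
        rw [Metric.mem_closedBall]
        push_cast at h4
        have h7 := dist_triangle_left (dp (δ n) (c m n k)) 0 (dp (δ n) x)
        have h8 : sc m ≤ 1 := by
          unfold sc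
          rw [div_le_one (by positivity)]
          linarith [(Nat.cast_nonneg m : (0 : ℝ) ≤ m)]
        have h9 := le_abs_self Rb
        nlinarith
      obtain ⟨x, hx, h2⟩ := exists_lim l h1
      exact ⟨x, hx, fun _ => h2⟩
    · refine ⟨0, ?_, fun h => absurd h hm⟩
      rw [Metric.mem_closedBall, dist_self]
      positivity
  choose e' he' ht using hbd
  have hlim : ∀ k, ∃ x ∈ Metric.closedBall (0 : ℝ × ℝ) (|Rb| + 8),
      Tendsto (fun m => e' m k) l (𝓝 x) := fun k =>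
    exists_lim l (Eventually.of_forall fun m => he' m k)
  choose e he hte using hlim
  refine ⟨e, fun k hk => ?_, fun r hr => ?_⟩
  · obtain ⟨ρ', hρ', hcov'⟩ := hk
    have hm : ∀ᶠ m in (l : Filter ℕ), 16 * sc m < ρ₀ ∧ sc m < ρ' / 16 ∧
        dist (e' m k) (e k) < ρ' / 4 := by
      filter_upwards [hscl.eventually (gt_mem_nhds (by positivity : (0 : ℝ) < ρ₀ / 16)),
        hscl.eventually (gt_mem_nhds (by positivity : (0 : ℝ) < ρ' / 16)),
        (hte k).eventually (Metric.ball_mem_nhds (e k) (by positivity : (0 : ℝ) < ρ' / 4))]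
        with m h1 h2 h3
      exact ⟨by linarith, h2, h3⟩
    obtain ⟨m, hm1, hm2, hm3⟩ := hm.exists
    have hn := (((hSp m hm1).and ((ht m k hm1).eventually (Metric.ball_mem_nhds (e' m k)
      (by positivity : (0 : ℝ) < ρ' / 4)))).and (S.small (by positivity : 0 < ρ' / 16))).and hcov'
    obtain ⟨n, ⟨⟨h1, h2⟩, h3⟩, h4⟩ := hn.exists
    obtain ⟨-, y, hy, hyb⟩ := h1.1 k
    refine hy (h4 ?_)
    have hδ := S.pos n
    have h5 := bx_dist hδ hyb
    have h6 := floor_mul (ρ := sc m) hδ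
    push_cast at h5
    have h7 := dist_triangle4 (dp (δ n) y) (dp (δ n) (c m n k)) (e' m k) (e k)
    show dist _ _ < _
    nlinarith
  · have hm : ∀ᶠ m in (l : Filter ℕ), 16 * sc m < ρ₀ ∧ sc m < r / 64 ∧
        ∀ k, dist (e' m k) (e k) < r / 4 := by
      filter_upwards [hscl.eventually (gt_mem_nhds (by positivity : (0 : ℝ) < ρ₀ / 16)),
        hscl.eventually (gt_mem_nhds (by positivity : (0 : ℝ) < r / 64)),
        eventually_all.2 fun k => (hte k).eventually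
          (Metric.ball_mem_nhds (e k) (by positivity : (0 : ℝ) < r / 4))]
        with m h1 h2 h3
      exact ⟨by linarith, h2, h3⟩
    obtain ⟨m, hm1, hm2, hm3⟩ := hm.exists
    refine ⟨sc m, sc_pos m, ?_⟩
    filter_upwards [hSp m hm1, eventually_all.2 fun k => (ht m k hm1).eventually
      (Metric.ball_mem_nhds (e' m k) (by positivity : (0 : ℝ) < r / 4)),
      S.small (by positivity : 0 < r / 64)] with n h1 h2 h3 x a hbad hconn
    have hδ := S.pos n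
    have hb : ∀ k, bx (c m n k) (3 * ⌊sc m / δ n⌋ + 1) ⊆
        ov (δ n) (⋃ k, Metric.closedBall (e k) r) := by
      intro k v hv
      refine mem_iUnion.2 ⟨k, ?_⟩
      rw [Metric.mem_closedBall]
      have h5 := bx_dist hδ hv
      have h6 := floor_mul (ρ := sc m) hδ
      push_cast at h5
      have h7 := dist_triangle4 (dp (δ n) v) (dp (δ n) (c m n k)) (e' m k) (e k)
      have h8 := h2 k
      have h9 := hm3 k
      nlinarith
    refine h1.2 x a hbad (hconn.mono (sdiff_subset_sdiff_right ?_))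
    exact union_subset (hb 0) (hb 1)

end Vale.Agent.P153.R2.SDAR
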