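import Vale.Agent.P153.R2.SDAR.ArcScen

/-!
# P153-R2, block SDAR (helper443): arc domains along an ultrafilter are a scenario, part 2
-/

set_option autoImplicit false

namespace Vale.Agent.P153.R2.SDAR

open Filter Topology Set
open Vale.Agent.P145.PT Vale.Agent.P153 Vale.Agent.P153.F Vale.Agent.P153.F.SD
open Vale.Agent.P153.F.Top (dp c1 c2)
open Vale.Agent.P153.Topo (Conn)
open Vale.Agent.P153.R2.INTF (Arcs eta)

variable {l : Ultrafilter ℕ} {δ : ℕ → ℝ} {F P M : ℕ → Set Pt} {Rb : ℝ}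

theorem DD_open (l : Filter ℕ) (δ : ℕ → ℝ) (F : ℕ → Set Pt) : IsOpen (DD l δ F) := by
  rw [Metric.isOpen_iff]
  rintro z ⟨ρ, hρ, h⟩
  refine ⟨ρ / 2, by positivity, fun w hw => ⟨ρ / 2, by positivity, ?_⟩⟩
  filter_upwards [h] with n hn x hx
  refine hn ?_
  have h1 : dist (dp (δ n) x) w < ρ / 2 := hx
  have h2 : dist w z < ρ / 2 := hw
  have h3 := dist_triangle (dp (δ n) x) w z
  show dist _ _ < _
  linarith

theorem DD_cpt (l : Filter ℕ) (δ : ℕ → ℝ) (F : ℕ → Set Pt) {K : Set (ℝ × ℝ)} (hK : IsCompact K)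
    (hKD : K ⊆ DD l δ F) : ∀ᶠ n in l, ov (δ n) K ⊆ F n := by
  choose! ρ hρ h using fun z (hz : z ∈ K) => hKD hz
  obtain ⟨t, htK, htf, hcov⟩ := hK.elim_finite_subcover_image (b := K)
    (c := fun z => Metric.ball z (ρ z)) (fun z _ => Metric.isOpen_ball)
    (fun z hz => mem_biUnion hz (Metric.mem_ball_self (hρ z hz)))
  have h1 : ∀ᶠ n in l, ∀ z ∈ t, ov (δ n) (Metric.ball z (ρ z)) ⊆ F n :=
    (htf.eventually_all).2 fun z hz => h z (htK hz)
  filter_upwards [h1] with n hn x hx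
  obtain ⟨z, hz, hxz⟩ := mem_iUnion₂.1 (hcov hx)
  exact hn z hz hxz

theorem DD_sub (S : ArcS l δ F P M Rb) : DD l δ F ⊆ Metric.ball (0 : ℝ × ℝ) (Rb + 1) := by
  rintro z ⟨ρ, hρ, h⟩
  obtain ⟨n, ⟨hn1, hn2⟩, hn3⟩ := ((h.and S.ball).and
    (S.small (lt_min (by positivity : 0 < ρ / 4) (by norm_num : (0 : ℝ) < 1 / 4)))).exists
  rw [lt_min_iff] at hn3
  have h1 := dist_vt (S.pos n) z
  have h2 : vt (δ n) z ∈ F n := hn1 (show dist _ _ < _ by linarith)
  have h3 := hn2 _ h2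
  rw [Metric.mem_ball] at h3 ⊢
  have h4 := dist_triangle_left z 0 (dp (δ n) (vt (δ n) z))
  linarith

theorem DD_wall (l : Ultrafilter ℕ) (δ : ℕ → ℝ) (F : ℕ → Set Pt) {x : ℝ × ℝ}
    (hx : x ∉ DD l δ F) {r : ℝ} (hr : 0 < r) :
    ∀ᶠ n in (l : Filter ℕ), ∃ y, y ∉ F n ∧ dp (δ n) y ∈ Metric.ball x r := by
  rcases l.em fun n => ∃ y, y ∉ F n ∧ dp (δ n) y ∈ Metric.ball x r with h | h
  · exact h
  · exfalso
    refine hx ⟨r, hr, ?_⟩
    filter_upwards [h] with n hn y hy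
    by_contra hcon
    exact hn ⟨y, hcon, hy⟩

theorem vt_lim (S : ArcS l δ F P M Rb) (z : ℝ × ℝ) :
    Tendsto (fun n => dp (δ n) (vt (δ n) z)) l (𝓝 z) := by
  rw [tendsto_iff_dist_tendsto_zero]
  have h1 : Tendsto (fun n => 2 * δ n) l (𝓝 0) := by
    have := (S.lim.mono_left S.le).const_mul 2
    rwa [mul_zero] at this
  exact squeeze_zero (fun n => dist_nonneg) (fun n => dist_vt (S.pos n) z) h1

/-- The vertices near two points of a compact connected subset of `D` are joined in `F n` near it. -/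
theorem ev_conn (S : ArcS l δ F P M Rb) {K O : Set (ℝ × ℝ)} (hK : IsCompact K)
    (hpre : IsPreconnected K) (hKD : K ⊆ DD l δ F) (hO : IsOpen O) (hKO : K ⊆ O) :
    ∃ ρ : ℝ, 0 < ρ ∧ ∀ᶠ n in (l : Filter ℕ), ∀ a b : Pt, ∀ p ∈ K, ∀ q ∈ K,
      dist (dp (δ n) a) p ≤ ρ → dist (dp (δ n) b) q ≤ ρ → Conn (F n ∩ ov (δ n) O) a b := by
  obtain ⟨η, hη, hsub⟩ := hK.exists_cthickening_subset_open (hO.inter (DD_open l δ F))
    fun z hz => ⟨hKO hz, hKD hz⟩
  refine ⟨η / 2, by positivity, ?_⟩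
  filter_upwards [S.small (by positivity : 0 < η / 8),
    DD_cpt l δ F hK.cthickening (fun z hz => (hsub hz).2)] with n h1 h2 a b p hp q hq ha hb
  have h3 : ov (δ n) (Metric.cthickening η K) ⊆ F n ∩ ov (δ n) O := fun v hv =>
    ⟨h2 hv, (hsub hv).1⟩
  exact (tube_conn (S.pos n) hpre (by linarith) hp hq ha hb).mono h3

theorem exists_seg (l : Ultrafilter ℕ) (S : ArcS l δ F P M Rb) {z₀ : ℝ × ℝ}
    (hz₀ : z₀ ∈ DD l δ F) : ∃ E : Set (ℝ × ℝ), E.Finite ∧
    ∀ z, segment ℝ z₀ z ⊆ DD l δ F → ∀ x ∈ frontier (DD l δ F), x ∉ E →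
    openSegment ℝ z x ⊆ DD l δ F →
    ∃ R₀ : ℝ, 0 < R₀ ∧ ∃ σ : ℤ, (σ = 1 ∨ σ = -1) ∧ ∀ p ∈ openSegment ℝ z x, dist p x < R₀ →
      ∃ ρ : ℝ, 0 < ρ ∧ ∀ᶠ n in (l : Filter ℕ), ∀ a ∈ F n, dist (dp (δ n) a) p < ρ →
        ∀ x' ∈ Cl (F n ∩ ov (δ n) (Metric.ball x R₀)) {a}, ∀ y, y ∉ F n → Adj x' y →
          eta (M n) y = σ := by
  classical
  obtain ⟨e, heD, hsep⟩ := two_pts S hz₀ (vt_lim S z₀)
  refine ⟨range e, finite_range e, fun z hseg x hx hxE hos => ?_⟩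
  have hxD : x ∉ DD l δ F := by
    rw [(DD_open l δ F).frontier_eq] at hx
    exact hx.2
  have hzD : z ∈ DD l δ F := hseg (right_mem_segment ℝ _ _)
  have hzx : segment ℝ z x ⊆ insert x (DD l δ F) := by
    rw [← insert_endpoints_openSegment]
    rintro y (rfl | rfl | hy)
    · exact Or.inr hzD
    · exact Or.inl rfl
    · exact Or.inr (hos hy)
  -- distance of the pinch points from the path
  set K : Set (ℝ × ℝ) := segment ℝ z₀ z ∪ segment ℝ z x with hK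
  have hsc : ∀ a b : ℝ × ℝ, IsCompact (segment ℝ a b) := fun a b => by
    rw [segment_eq_image]
    exact isCompact_Icc.image (by fun_prop)
  have hKc : IsCompact K := (hsc _ _).union (hsc _ _)
  have hd : ∃ r : ℝ, 0 < r ∧ ∀ k, ∀ y ∈ K, 2 * r < dist y (e k) := by
    have h1 : ∀ k, ∃ r : ℝ, 0 < r ∧ Metric.ball (e k) r ⊆ Kᶜ := by
      intro k
      refine Metric.isOpen_iff.1 hKc.isClosed.isOpen_compl (e k) ?_
      rintro (h | h)
      · exact heD k (hseg h)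
      · rcases hzx h with h | h
        · exact hxE ⟨k, h⟩
        · exact heD k h
    choose r hr h2 using h1
    refine ⟨min (r 0) (r 1) / 4, by have := lt_min (hr 0) (hr 1); positivity, fun k y hy => ?_⟩
    have h3 : r k ≤ dist y (e k) := by
      by_contra hcon
      push Not at hcon
      exact h2 k hcon hy
    have h4 : min (r 0) (r 1) ≤ r k := by
      rcases (by omega : k.val = 0 ∨ k.val = 1) with hk | hk
      · rw [show k = 0 from Fin.ext hk]; exact min_le_left _ _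
      · rw [show k = 1 from Fin.ext hk]; exact min_le_right _ _
    have h5 := lt_min (hr 0) (hr 1)
    linarith
  obtain ⟨r, hr, hrd⟩ := hd
  obtain ⟨ρ, hρ, hsp⟩ := hsep r hr
  -- the reference point
  have hR0 : 0 < ρ / 16 := by positivity
  obtain ⟨p₀, hp₀, hp₀x⟩ : ∃ p₀ ∈ openSegment ℝ z x, dist p₀ x < ρ / 16 := by
    have h1 : x ∈ closure (openSegment ℝ z x) := by
      rw [closure_openSegment]
      exact right_mem_segment ℝ _ _
    obtain ⟨p, hp, hd⟩ := Metric.mem_closure_iff.1 h1 _ hR0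
    exact ⟨p, hp, by rwa [dist_comm]⟩
  -- the component
  set W : ℕ → Set Pt := fun n => Cl (F n ∩ ov (δ n) (Metric.ball x (ρ / 16))) {vt (δ n) p₀} with hW
  have hsame : ∀ p ∈ openSegment ℝ z x, dist p x < ρ / 16 → ∃ ρ' : ℝ, 0 < ρ' ∧
      ∀ᶠ n in (l : Filter ℕ), ∀ a ∈ F n, dist (dp (δ n) a) p < ρ' →
        Cl (F n ∩ ov (δ n) (Metric.ball x (ρ / 16))) {a} ⊆ W n := by
    intro p hp hpx
    have h1 : segment ℝ p p₀ ⊆ openSegment ℝ z x :=
      (convex_openSegment z x).segment_subset hp hp₀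
    have h2 : segment ℝ p p₀ ⊆ Metric.ball x (ρ / 16) :=
      (convex_ball x (ρ / 16)).segment_subset hpx hp₀x
    obtain ⟨ρ', hρ', h3⟩ := ev_conn S (hsc p p₀) (convex_segment _ _).isPreconnected
      (h1.trans hos) Metric.isOpen_ball h2
    refine ⟨ρ', hρ', ?_⟩
    filter_upwards [h3, S.small (by positivity : 0 < ρ' / 4)] with n h4 h5 a ha hap
    have h6 := dist_vt (S.pos n) p₀
    have h7 := h4 a (vt (δ n) p₀) p (left_mem_segment ℝ _ _) p₀ (right_mem_segment ℝ _ _) hap.le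
      (by linarith)
    rintro y ⟨w, hw, hc⟩
    rw [mem_singleton_iff] at hw
    subst hw
    exact ⟨vt (δ n) p₀, rfl, h7.symm.trans hc⟩
  -- both signs are not visible
  have hbad : ∀ᶠ n in (l : Filter ℕ), ¬ ((∃ u ∈ W n, ∃ y ∈ P n, Adj u y) ∧
      ∃ u ∈ W n, ∃ y ∈ M n, Adj u y) := by
    set K₁ : Set (ℝ × ℝ) := segment ℝ z₀ z ∪ segment ℝ z p₀ with hK₁
    have hp₀s : p₀ ∈ segment ℝ z x := openSegment_subset_segment ℝ _ _ hp₀
    have hzp : segment ℝ z p₀ ⊆ segment ℝ z x :=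
      (convex_segment z x).segment_subset (left_mem_segment ℝ _ _) hp₀s
    have hp₀D : p₀ ∈ DD l δ F := hos hp₀
    have hzpD : segment ℝ z p₀ ⊆ DD l δ F := by
      rw [← insert_endpoints_openSegment]
      rintro y (rfl | rfl | hy)
      · exact hzD
      · exact hp₀D
      · refine hos ?_
        obtain ⟨a, b, ha, hb, hab, rfl⟩ := hp₀
        obtain ⟨a', b', ha', hb', hab', rfl⟩ := hy
        refine ⟨a' + b' * a, b' * b, by positivity, by positivity, ?_, ?_⟩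
        · rw [add_assoc, ← mul_add, hab, mul_one, hab']
        · rw [smul_add, add_smul, mul_smul, mul_smul, add_assoc]
    have hK₁c : IsCompact K₁ := (hsc _ _).union (hsc _ _)
    have hK₁p : IsPreconnected K₁ := IsPreconnected.union z (right_mem_segment ℝ _ _)
      (left_mem_segment ℝ _ _) (convex_segment _ _).isPreconnected
      (convex_segment _ _).isPreconnected
    have hK₁D : K₁ ⊆ DD l δ F := union_subset hseg hzpD
    have hO : IsOpen (⋃ k, Metric.closedBall (e k) r)ᶜ :=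
      (isClosed_iUnion_of_finite fun k => Metric.isClosed_closedBall).isOpen_compl
    have hK₁O : K₁ ⊆ (⋃ k, Metric.closedBall (e k) r)ᶜ := by
      intro y hy hy'
      obtain ⟨k, hk⟩ := mem_iUnion.1 hy'
      have h1 : y ∈ K := union_subset_union_right _ hzp hy
      have h2 := hrd k y h1
      rw [Metric.mem_closedBall] at hk
      linarith
    obtain ⟨ρ', hρ', h3⟩ := ev_conn S hK₁c hK₁p hK₁D hO hK₁O
    filter_upwards [h3, hsp, S.small (by positivity : 0 < ρ' / 4),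
      S.small (by positivity : 0 < ρ / 256), DD_cpt l δ F isCompact_singleton
        (singleton_subset_iff.2 hp₀D), S.ball] with n h4 h5 h6 h7 h8 h9 hcon
    have hδ := S.pos n
    have k1 := dist_vt hδ z₀
    have k2 := dist_vt hδ p₀
    have hc1 := h4 (vt (δ n) z₀) (vt (δ n) p₀) z₀ (Or.inl (left_mem_segment ℝ _ _)) p₀
      (Or.inr (right_mem_segment ℝ _ _)) (by linarith) (by linarith)
    have hin : F n ∩ ov (δ n) (Metric.ball x (ρ / 16)) ⊆ F n ∩ bx (vt (δ n) x) ⌊ρ / δ n⌋ := by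
      rintro v ⟨hv, hvb⟩
      refine ⟨hv, dist_bx hδ ?_⟩
      have k3 := dist_vt hδ x
      have k4 : dist (dp (δ n) v) x < ρ / 16 := hvb
      have k5 := dist_triangle_right (dp (δ n) v) (dp (δ n) (vt (δ n) x)) x
      linarith
    have hWsub : W n ⊆ Cl (F n ∩ bx (vt (δ n) x) ⌊ρ / δ n⌋) {vt (δ n) p₀} := cl_mono hin _
    obtain ⟨⟨u, hu, y, hy, huy⟩, u', hu', y', hy', huy'⟩ := hcon
    have hpF : vt (δ n) p₀ ∈ F n ∩ ov (δ n) (Metric.ball x (ρ / 16)) := by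
      obtain ⟨w, hw, hc⟩ := hu
      rw [mem_singleton_iff] at hw
      subst hw
      exact hc.left_mem
    refine h5 (vt (δ n) x) (vt (δ n) p₀) ⟨hpF.1, (hin hpF).2, ⟨u, hWsub hu, y, hy, huy⟩,
      u', hWsub hu', y', hy', huy'⟩ (hc1.mono ?_)
    rintro v ⟨hv1, hv2⟩
    exact ⟨hv1, hv2⟩
  -- the sign
  have hsign : ∃ σ : ℤ, (σ = 1 ∨ σ = -1) ∧ ∀ᶠ n in (l : Filter ℕ), ∀ x' ∈ W n, ∀ y, y ∉ F n →
      Adj x' y → eta (M n) y = σ := by
    rcases l.em fun n => ∃ u ∈ W n, ∃ y ∈ M n, Adj u y with h | h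
    · refine ⟨-1, Or.inr rfl, ?_⟩
      filter_upwards [h, hbad, S.arcs] with n h1 h2 h3 x' hx' y hy hxy
      rcases h3.bd x' (cl_sub _ _ hx').1 y hxy with h4 | h4 | h4
      · exact absurd h4 hy
      · exact absurd ⟨⟨x', hx', y, h4, hxy⟩, h1⟩ h2
      · exact INTF.eta_mem h4
    · refine ⟨1, Or.inl rfl, ?_⟩
      filter_upwards [h] with n h1 x' hx' y hy hxy
      exact INTF.eta_not fun h4 => h1 ⟨x', hx', y, h4, hxy⟩
  obtain ⟨σ, hσ, hev⟩ := hsign
  refine ⟨ρ / 16, hR0, σ, hσ, fun p hp hpx => ?_⟩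
  obtain ⟨ρ', hρ', h1⟩ := hsame p hp hpx
  refine ⟨ρ', hρ', ?_⟩
  filter_upwards [h1, hev] with n h2 h3 a ha hap x' hx' y hy hxy
  exact h3 x' (h2 a ha hap hx') y hy hxy

/-- **Arc domains along an ultrafilter are a scenario.** -/
theorem scen_of_arcs (S : ArcS l δ F P M Rb) : ∃ E : ℝ × ℝ → Set (ℝ × ℝ),
    Scen l (DD l δ F) E δ F (fun n => eta (M n)) (Rb + 1) := by
  classical
  have h : ∀ z₀ : ℝ × ℝ, ∃ E : Set (ℝ × ℝ), E.Finite ∧ (z₀ ∈ DD l δ F →
    ∀ z, segment ℝ z₀ z ⊆ DD l δ F → ∀ x ∈ frontier (DD l δ F), x ∉ E →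
    openSegment ℝ z x ⊆ DD l δ F →
    ∃ R₀ : ℝ, 0 < R₀ ∧ ∃ σ : ℤ, (σ = 1 ∨ σ = -1) ∧ ∀ p ∈ openSegment ℝ z x, dist p x < R₀ →
      ∃ ρ : ℝ, 0 < ρ ∧ ∀ᶠ n in (l : Filter ℕ), ∀ a ∈ F n, dist (dp (δ n) a) p < ρ →
        ∀ x' ∈ Cl (F n ∩ ov (δ n) (Metric.ball x R₀)) {a}, ∀ y, y ∉ F n → Adj x' y →
          eta (M n) y = σ) := by
    intro z₀
    by_cases hz : z₀ ∈ DD l δ F
    · obtain ⟨E, hE, hs⟩ := exists_seg l S hz
      exact ⟨E, hE, fun _ => hs⟩
    · exact ⟨∅, finite_empty, fun h => absurd h hz⟩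
  choose E hE hs using h
  refine ⟨E, ?_⟩
  refine { le := S.le, pos := S.pos, lim := S.lim, opn := DD_open _ _ _, sub := DD_sub S,
           Efin := hE, ball := ?_, cc := ?_, pm := fun n x => INTF.eta_or _ _, cpt := fun K hK hKD =>
             DD_cpt _ _ _ hK hKD, wall := ?_, few := ?_, sgn := fun z₀ hz₀ => hs z₀ hz₀ }
  · filter_upwards [S.ball] with n hn x hx
    have := hn x hx
    rw [Metric.mem_ball] at this ⊢
    linarith
  · filter_upwards [S.arcs] with n hn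
    exact hn.cc
  · intro x hx r hr
    rw [(DD_open l δ F).frontier_eq] at hx
    exact DD_wall l δ F hx.2 hr
  · filter_upwards [S.arcs] with n hn σ hσ
    rcases hσ with rfl | rfl
    · refine ⟨M n, fun y hy hyF => disjoint_left.1 hn.dFM hyF hy, hn.cM, fun y hy => ?_,
        fun x hx y hy hxy hne => ?_⟩
      · rw [INTF.eta_mem hy]; norm_num
      · by_contra hcon
        exact hne (INTF.eta_not hcon)
    · refine ⟨P n, fun y hy hyF => disjoint_left.1 hn.dFP hyF hy, hn.cP, fun y hy => ?_,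
        fun x hx y hy hxy hne => ?_⟩
      · rw [INTF.eta_not fun h => disjoint_left.1 hn.dPM hy h]; norm_num
      · rcases hn.bd x hx y hxy with h4 | h4 | h4
        · exact absurd h4 hy
        · exact h4
        · exact absurd (INTF.eta_mem h4) hne

end Vale.Agent.P153.R2.SDAR
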