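import Vale.Agent.P153.R2.SDAR.Mom

/-!
P153-R2, block SDAR (helper506): moment bounds which are uniform over the test functions below a
given one; comparison of powers.
-/

set_option autoImplicit false

namespace Vale.Agent.P153.R2.SDAR

open Filter Topology Set MeasureTheory
open Vale.Agent.P145.PT Vale.Agent.P153 Vale.Agent.P153.F.Top
open Vale.Agent.P153.F.X (vm)
open Vale.Agent.P153.R2.FLDI (ab ab_nonneg Bx mem_Bx hv_Bx riem_ab pow_close)

variable {δ : ℕ → ℝ}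

theorem ab_mono {B : Finset (ℤ × ℤ)} {δ : ℝ} {f q : ℝ × ℝ → ℝ} (hq : ∀ z, 0 ≤ q z ∧ q z ≤ f z) :
    ab B δ q ≤ ab B δ f := by
  unfold ab
  refine mul_le_mul_of_nonneg_left (Finset.sum_le_sum fun v _ => ?_) (sq_nonneg _)
  have hf : ∀ z, 0 ≤ f z := fun z => (hq z).1.trans (hq z).2
  rw [abs_of_nonneg (F.Top.tl_nonneg (fun z => (hq z).1) _), abs_of_nonneg (F.Top.tl_nonneg hf _)]
  unfold tl
  exact mul_le_mul_of_nonneg_left (hq _).2 (by positivity)

/-- All moments are bounded, uniformly in the domain, the data `±1` and the test functions below a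
given one. -/
theorem mom_bdq (hδ : ∀ n, 0 < δ n) (hδ0 : Tendsto δ atTop (𝓝 0)) (hmb : S_mb δ) {R : ℝ}
    {f : ℝ × ℝ → ℝ} (hf : TestOn (Metric.ball 0 R) f) (hf0 : ∀ z, 0 ≤ f z) (k : ℕ) :
    ∃ C : ℝ, 0 ≤ C ∧ ∀ᶠ n in atTop, ∀ (V : Set Pt) (η : Hg),
      (∀ x ∈ V, dp (δ n) x ∈ Metric.ball (0 : ℝ × ℝ) R) → (∀ x, η x = 1 ∨ η x = -1) →
      (∀ x, f (dp (δ n) x) ≠ 0 → x ∈ V) → ∀ q : ℝ × ℝ → ℝ, TestOn (Metric.ball 0 R) q →
      (∀ z, 0 ≤ q z ∧ q z ≤ f z) →
      Ex (Cfg V (exa V η)) (fun h => F.SD.Lf (δ n) q h ^ (2 * k)) ≤ C := by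
  rcases Nat.eq_zero_or_pos k with rfl | hk
  · refine ⟨1, zero_le_one, Eventually.of_forall fun n V η hV hη _ q _ _ => ?_⟩
    simp only [mul_zero, pow_zero]
    exact Ex_le_const zero_le_one fun _ _ => le_rfl
  obtain ⟨C1, hC1⟩ := hmb (Metric.ball 0 (R + 1)) Metric.isOpen_ball Metric.isBounded_ball f
    (hf.mono (subset_univ _)) hf0 (2 * k)
  have hab := riem_ab hf.cont hf.2.1 (R := R) (fun z hz => hf.2.2 (subset_tsupport _ hz)) hδ hδ0
  have hab' : ∀ᶠ n in atTop, ab (Bx (δ n) R) (δ n) f < (∫ z, |f z|) + 1 :=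
    hab.eventually (gt_mem_nhds (by linarith))
  have hδ1 : ∀ᶠ n in atTop, 2 * δ n < 1 := by
    have h2 : Tendsto (fun n => 2 * δ n) atTop (𝓝 (2 * 0)) := hδ0.const_mul 2
    rw [mul_zero] at h2
    exact h2.eventually (gt_mem_nhds one_pos)
  set A : ℝ := (∫ z, |f z|) + 1 with hA
  have hA0 : 0 ≤ A := by
    have : 0 ≤ ∫ z, |f z| := integral_nonneg fun z => abs_nonneg _
    linarith
  refine ⟨2 * (4 ^ k * (max C1 0 + (2 * A) ^ (2 * k))), by positivity, ?_⟩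
  filter_upwards [hC1, hab', hδ1] with n h1 h2 h3 V η hV hη hfV q hq hqf
  have hVf := fin_of_ball (hδ n) hV
  have e1 : ∀ h, F.SD.Lf (δ n) q h = hB (Bx (δ n) R) (δ n) q (vm h) := lf_eq (hδ n) hq
  simp only [e1]
  have hq0 : ∀ z, 0 ≤ q z := fun z => (hqf z).1
  refine (exa_mom hVf hη hq0 k hk).trans ?_
  have hqV : ∀ x, q (dp (δ n) x) ≠ 0 → x ∈ V := fun x hx => hfV x fun h0 => hx
    (le_antisymm ((hqf _).2.trans h0.le) (hq0 _))
  have h4 := frd_mom (B := Bx (δ n) R) hVf (sub_Vs (hδ n) h3 hV) hq0 hqV (2 * k)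
  have h5 : ze (Vs (δ n) (Metric.ball (0 : ℝ × ℝ) (R + 1)))
      (fun ω => hB (Bx (δ n) R) (δ n) f ω ^ (2 * k)) =
      EE (δ n) (Metric.ball 0 (R + 1)) (fun ω => hv (δ n) f ω ^ (2 * k)) := by
    unfold EE
    congr 1
    funext ω
    rw [hv_Bx (hδ n) (R := R)]
    exact fun z hz => hf.2.2 (subset_tsupport _ hz)
  have h5' : ze (Vs (δ n) (Metric.ball (0 : ℝ × ℝ) (R + 1)))
      (fun ω => hB (Bx (δ n) R) (δ n) q ω ^ (2 * k)) ≤
      ze (Vs (δ n) (Metric.ball (0 : ℝ × ℝ) (R + 1)))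
      (fun ω => hB (Bx (δ n) R) (δ n) f ω ^ (2 * k)) := by
    have h6 := cone_dom (B := Bx (δ n) R) (δ := δ n) hf0 (zero_le_one (α := ℝ))
      (List.replicate (2 * k) q) (fun g hg z => by
        rw [List.mem_replicate] at hg
        rw [hg.2, one_mul]
        exact hqf z)
    have h7 := cone_ze_nonneg s_mono (Vs (δ n) (Metric.ball (0 : ℝ × ℝ) (R + 1))) h6
    have e8 : (fun ω => 1 ^ (List.replicate (2 * k) q).length *
        hB (Bx (δ n) R) (δ n) f ω ^ (List.replicate (2 * k) q).length -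
        hl (Bx (δ n) R) (δ n) (List.replicate (2 * k) q) ω) =
        fun ω => hB (Bx (δ n) R) (δ n) f ω ^ (2 * k) +
          (-1) * hB (Bx (δ n) R) (δ n) q ω ^ (2 * k) := by
      funext ω
      simp [hl]
      ring
    rw [e8, ze_add', ze_smul'] at h7
    linarith
  rw [h5] at h5'
  have h6 : (2 * ab (Bx (δ n) R) (δ n) q) ^ (2 * k) ≤ (2 * A) ^ (2 * k) := by
    have h9 := ab_mono (B := Bx (δ n) R) (δ := δ n) hqf
    exact pow_le_pow_left₀ (by have := ab_nonneg (Bx (δ n) R) (δ n) q; positivity)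
      (by linarith) _
  have h7 := ((h4.trans h5').trans h1).trans (le_max_left C1 0)
  have h8 : (0 : ℝ) ≤ 4 ^ k := by positivity
  nlinarith [mul_le_mul_of_nonneg_left (add_le_add h7 h6) h8]

/-- Cauchy-Schwarz. -/
theorem Ex_cs {α : Type*} {S : Set α} (hS : S.Finite) (F G : α → ℝ) :
    |Ex S (fun a => F a * G a)| ≤ √(Ex S fun a => F a ^ 2) * √(Ex S fun a => G a ^ 2) := by
  rw [← Real.sqrt_mul (Ex_nonneg fun a _ => sq_nonneg _)]
  exact Real.abs_le_sqrt (Ex_mul_sq_le hS F G)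

/-- Comparison of powers. -/
theorem pw_close {α : Type*} {S : Set α} (hS : S.Finite) {G X X' : α → ℝ} {B θ : ℝ}
    (hθ : 0 ≤ θ) (j : ℕ) (h1 : Ex S (fun a => G a ^ 4) ≤ B)
    (h2 : Ex S (fun a => X a ^ (2 * (2 * (j - 1)))) ≤ B)
    (h3 : Ex S (fun a => X' a ^ (2 * (2 * (j - 1)))) ≤ B)
    (h4 : Ex S (fun a => (X a - X' a) ^ 2) ≤ θ ^ 2) :
    |Ex S (fun a => G a * (X a ^ j - X' a ^ j))| ≤ j * (θ * √(2 * B)) := by
  set W : α → ℝ := fun a => max |X a| |X' a| with hW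
  have hW0 : ∀ a, 0 ≤ W a := fun a => le_max_of_le_left (abs_nonneg _)
  have k1 : |Ex S (fun a => G a * (X a ^ j - X' a ^ j))| ≤
      Ex S (fun a => (j : ℝ) * (|X a - X' a| * (|G a| * W a ^ (j - 1)))) := by
    refine (abs_Ex_le _).trans (Ex_mono fun a _ => ?_)
    rw [abs_mul]
    have := abs_pow_sub_pow_le (X a) (X' a) j
    calc |G a| * |X a ^ j - X' a ^ j| ≤ |G a| * (|X a - X' a| * j * max |X a| |X' a| ^ (j - 1)) :=
          mul_le_mul_of_nonneg_left this (abs_nonneg _)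
      _ = _ := by rw [hW]; ring
  rw [Ex_const_mul] at k1
  have k2 := (le_abs_self _).trans (Ex_cs hS (fun a => |X a - X' a|)
    (fun a => |G a| * W a ^ (j - 1)))
  have k3 : √(Ex S fun a => |X a - X' a| ^ 2) ≤ θ := by
    refine Real.sqrt_le_iff.2 ⟨hθ, ?_⟩
    simpa only [sq_abs] using h4
  have k4 : √(Ex S fun a => (|G a| * W a ^ (j - 1)) ^ 2) ≤ √(2 * B) := by
    refine Real.sqrt_le_sqrt ?_
    have h5 : Ex S (fun a => (|G a| * W a ^ (j - 1)) ^ 2) ≤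
        Ex S (fun a => (1 / 2) * (G a ^ 4 + (X a ^ (2 * (2 * (j - 1))) +
          X' a ^ (2 * (2 * (j - 1)))))) := by
      refine Ex_mono fun a _ => ?_
      have e1 : (|G a| * W a ^ (j - 1)) ^ 2 = (G a ^ 2) * ((W a ^ (j - 1)) ^ 2) := by
        rw [mul_pow, sq_abs]
      have e2 : W a ^ (2 * (2 * (j - 1))) = ((W a ^ (j - 1)) ^ 2) ^ 2 := by
        rw [← pow_mul, ← pow_mul]; congr 1; ring
      have e3 : G a ^ 4 = (G a ^ 2) ^ 2 := by ring
      have e4 : W a ^ (2 * (2 * (j - 1))) ≤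
          X a ^ (2 * (2 * (j - 1))) + X' a ^ (2 * (2 * (j - 1))) := by
        have ev : Even (2 * (2 * (j - 1))) := even_two_mul _
        rw [hW]
        simp only
        rcases le_total |X a| |X' a| with h | h
        · rw [max_eq_right h, ev.pow_abs]
          exact le_add_of_nonneg_left (ev.pow_nonneg _)
        · rw [max_eq_left h, ev.pow_abs]
          exact le_add_of_nonneg_right (ev.pow_nonneg _)
      rw [e1, e3]
      rw [e2] at e4
      nlinarith [sq_nonneg (G a ^ 2 - (W a ^ (j - 1)) ^ 2)]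
    rw [Ex_const_mul, Ex_add, Ex_add] at h5
    have h6 : 0 ≤ Ex S (fun a => G a ^ 4) := Ex_nonneg fun a _ => by positivity
    linarith
  refine k1.trans (mul_le_mul_of_nonneg_left (k2.trans ?_) (Nat.cast_nonneg _))
  exact mul_le_mul k3 k4 (Real.sqrt_nonneg _) hθ

end Vale.Agent.P153.R2.SDAR
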