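import Vale.Agent.P153.R2.SDAR.CellP
import Vale.Agent.P153.R2.SDAR.MomQ

/-!
P153-R2, block SDAR (helper506): the Schwinger-Dyson equations for one cell and nonnegative test
functions.
-/

set_option autoImplicit false

namespace Vale.Agent.P153.R2.SDAR

open Filter Topology Set MeasureTheory
open Vale.Agent.P145.PT Vale.Agent.P153 Vale.Agent.P153.F Vale.Agent.P153.F.SD
open Vale.Agent.P153.F.Top (dp c1 c2 lat_finite S_mb S_l2)
open Vale.Agent.P153.Topo (Conn)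

theorem box_sub (b : PW) : b.box ⊆ tcell b 0 := by
  rintro z ⟨h1, h2, h3⟩
  exact ⟨by linarith, by linarith, by linarith⟩

theorem off_str {b : PW} {e : ℝ} (he : 0 < e) {g : ℝ × ℝ → ℝ}
    (hg : ∀ z, g z ≠ 0 → z ∈ Off b.x0 b.y0 b.s0 e) (i : Fin 3) {z : ℝ × ℝ} (hz : z ∈ tsupport g) :
    ts i z ≠ t0 b i := by
  have hsub : tsupport g ⊆ {z : ℝ × ℝ | e ≤ |ts i z - t0 b i|} := by
    refine closure_minimal ?_ (isClosed_le continuous_const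
      (((cont_ts i).sub continuous_const).abs))
    intro w hw
    obtain ⟨h1, h2, h3, -⟩ := hg w hw
    show e ≤ |ts i w - t0 b i|
    rcases fin3 i with rfl | rfl | rfl
    · rw [ts0, t00]; exact h1.le
    · rw [ts1, t01, show -c1 w - -b.x0 = -(c1 w - b.x0) by ring, abs_neg]; exact h1.le
    · rw [ts2, t02]; exact h3.le
  have h2 : e ≤ |ts i z - t0 b i| := hsub hz
  intro h
  rw [h, sub_self, abs_zero] at h2
  linarith

theorem box_str {b : PW} (i : Fin 3) {z : ℝ × ℝ} (hz : z ∈ b.box) : ts i z ≠ t0 b i := by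
  obtain ⟨h1, h2, h3⟩ := hz
  rcases fin3 i with rfl | rfl | rfl
  · rw [ts0, t00]; exact h1.ne'
  · rw [ts1, t01]; exact fun h => h1.ne' (neg_injective h)
  · rw [ts2, t02]; exact h3.ne

/-- Change of the test function in the observable. -/
theorem YJ_change {κ δ : ℝ} {ψ f f' : ℝ × ℝ → ℝ} {S : Set Hg} (hS : S.Finite) {j : ℕ}
    {B θ c : ℝ} (hθ : 0 ≤ θ) (hB : 1 ≤ B)
    (h1 : Ex S (fun h => Lf δ (lap ψ) h ^ 4) ≤ B)
    (h2 : Ex S (fun h => Lf δ f h ^ (2 * (2 * (j - 1)))) ≤ B)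
    (h3 : Ex S (fun h => Lf δ f' h ^ (2 * (2 * (j - 1)))) ≤ B)
    (h4 : Ex S (fun h => Lf δ f h ^ (2 * (2 * (j - 1 - 1)))) ≤ B)
    (h5 : Ex S (fun h => Lf δ f' h ^ (2 * (2 * (j - 1 - 1)))) ≤ B)
    (h6 : Ex S (fun h => Lf δ f' h ^ (2 * (j - 1))) ≤ B)
    (h7 : Ex S (fun h => (Lf δ f h - Lf δ f' h) ^ 2) ≤ θ ^ 2)
    (h8 : |(∫ x, ψ x * f x) - ∫ x, ψ x * f' x| ≤ c) :
    |Ex S (YJ κ δ ψ f j) - Ex S (YJ κ δ ψ f' j)| ≤
      (j + |κ| * j * |∫ x, ψ x * f x| * j) * √(2 * B) * θ + |κ| * j * c * (1 + B) := by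
  set G : Hg → ℝ := fun h => Lf δ (lap ψ) h with hG
  set X : Hg → ℝ := fun h => Lf δ f h with hX
  set X' : Hg → ℝ := fun h => Lf δ f' h with hX'
  set I : ℝ := ∫ x, ψ x * f x with hI
  set I' : ℝ := ∫ x, ψ x * f' x with hI'
  have e1 : Ex S (YJ κ δ ψ f j) - Ex S (YJ κ δ ψ f' j) =
      Ex S (fun h => G h * (X h ^ j - X' h ^ j)) +
      κ * j * I * Ex S (fun h => 1 * (X h ^ (j - 1) - X' h ^ (j - 1))) +
      κ * j * (I - I') * Ex S (fun h => X' h ^ (j - 1)) := by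
    rw [← Ex_const_mul, ← Ex_const_mul, ← Ex_sub, ← Ex_add, ← Ex_add]
    congr 1
    funext h
    simp only [YJ]
    ring
  have b1 := pw_close hS hθ j h1 h2 h3 h7
  have b2 := pw_close (G := fun _ => (1 : ℝ)) hS hθ (j - 1) (by
    refine Ex_le_const (by linarith) fun _ _ => ?_
    rw [one_pow]; exact hB) h4 h5 h7
  have b3 : |Ex S (fun h => X' h ^ (j - 1))| ≤ 1 + B := by
    refine (abs_Ex_le _).trans ?_
    have : Ex S (fun h => |X' h ^ (j - 1)|) ≤ Ex S (fun h => 1 + X' h ^ (2 * (j - 1))) := by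
      refine Ex_mono fun h _ => ?_
      rw [mul_comm 2 (j - 1), pow_mul]
      set y := X' h ^ (j - 1)
      rw [← sq_abs y]
      nlinarith [sq_nonneg (|y| - 1), abs_nonneg y]
    refine this.trans ?_
    rw [Ex_add]
    exact add_le_add (Ex_le_const zero_le_one fun _ _ => le_rfl) h6
  have hj1 : ((j - 1 : ℕ) : ℝ) ≤ j := by exact_mod_cast Nat.sub_le j 1
  have hs : 0 ≤ √(2 * B) := Real.sqrt_nonneg _
  have hj : (0 : ℝ) ≤ j := Nat.cast_nonneg _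
  rw [e1]
  refine (abs_add_le _ _).trans (add_le_add ((abs_add_le _ _).trans ?_) ?_)
  · have b4 : |κ * j * I * Ex S (fun h => 1 * (X h ^ (j - 1) - X' h ^ (j - 1)))| ≤
        |κ| * j * |I| * (j * (θ * √(2 * B))) := by
      rw [abs_mul, abs_mul, abs_mul, abs_of_nonneg hj]
      refine mul_le_mul_of_nonneg_left (b2.trans ?_) (by positivity)
      exact mul_le_mul_of_nonneg_right hj1 (by positivity)
    calc _ ≤ j * (θ * √(2 * B)) + |κ| * j * |I| * (j * (θ * √(2 * B))) := add_le_add b1 b4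
      _ = _ := by ring
  · rw [abs_mul, abs_mul, abs_mul, abs_of_nonneg hj]
    exact mul_le_mul (mul_le_mul_of_nonneg_left h8 (by positivity)) b3 (abs_nonneg _)
      (mul_nonneg (by positivity) ((abs_nonneg _).trans h8))

theorem four_le (x y : ℝ) : (x - y) ^ 4 ≤ 8 * (x ^ (2 * 2) + y ^ (2 * 2)) := by
  have h1 : (x - y) ^ 2 ≤ 2 * (x ^ 2 + y ^ 2) := by nlinarith [sq_nonneg (x + y)]
  have h2 : ((x - y) ^ 2) ^ 2 ≤ (2 * (x ^ 2 + y ^ 2)) ^ 2 := pow_le_pow_left₀ (sq_nonneg _) h1 2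
  have h3 : 0 ≤ (x ^ 2 - y ^ 2) ^ 2 := sq_nonneg _
  have e1 : (x - y) ^ 4 = ((x - y) ^ 2) ^ 2 := by ring
  have e2 : 8 * (x ^ (2 * 2) + y ^ (2 * 2)) =
      (2 * (x ^ 2 + y ^ 2)) ^ 2 + 4 * (x ^ 2 - y ^ 2) ^ 2 := by ring
  rw [e1, e2]
  linarith

theorem lap_four {δ : ℝ} (hδ : 0 < δ) {D : Set (ℝ × ℝ)} {ψ p m : ℝ × ℝ → ℝ} (hp : TestOn D p)
    (hm : TestOn D m) (hpm : ∀ z, lap ψ z = p z - m z) {S : Set Hg} :
    Ex S (fun h => Lf δ (lap ψ) h ^ 4) ≤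
      8 * (Ex S (fun h => Lf δ p h ^ (2 * 2)) + Ex S (fun h => Lf δ m h ^ (2 * 2))) := by
  rw [← Ex_add, ← Ex_const_mul]
  refine Ex_mono fun h _ => ?_
  rw [show lap ψ = fun z => p z - m z from funext hpm, lf_sub hδ (TestOn.un hp) (TestOn.un hm)]
  exact four_le _ _

theorem rem_two {δ : ℝ} (hδ : 0 < δ) {D : Set (ℝ × ℝ)} {f f' : ℝ × ℝ → ℝ} (hf : TestOn D f)
    (hf' : TestOn D f') (hfg : ∀ z, f' z ≤ f z) {C ρ θ : ℝ} (hC : 0 ≤ C) (hρ0 : 0 ≤ ρ)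
    (hρ1 : ρ ≤ 1) (h2 : (∫ z, (f z - f' z) ^ 2) ≤ ρ) (h1 : (∫ z, (f z - f' z)) ≤ ρ) {S : Set Hg}
    (hS : Ex S (fun h => Lf δ (fun z => f z - f' z) h ^ 2) ≤
      C * ((∫ z, (f z - f' z) ^ 2) + (∫ z, (f z - f' z)) ^ 2) + ρ)
    (hρ2 : ρ * (2 * C + 1) ≤ θ ^ 2) :
    Ex S (fun h => (Lf δ f h - Lf δ f' h) ^ 2) ≤ θ ^ 2 := by
  have e1 : Ex S (fun h => (Lf δ f h - Lf δ f' h) ^ 2) =
      Ex S (fun h => Lf δ (fun z => f z - f' z) h ^ 2) := by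
    congr 1
    funext h
    rw [lf_sub hδ (TestOn.un hf) (TestOn.un hf')]
  rw [e1]
  refine hS.trans (le_trans ?_ hρ2)
  have h5 : (∫ z, f z - f' z) ^ 2 ≤ ρ := by
    have h3 : 0 ≤ ∫ z, f z - f' z := integral_nonneg fun z => sub_nonneg.2 (hfg z)
    calc (∫ z, f z - f' z) ^ 2 ≤ ρ ^ 2 := pow_le_pow_left₀ h3 h1 2
      _ = ρ * ρ := by ring
      _ ≤ 1 * ρ := mul_le_mul_of_nonneg_right hρ1 hρ0
      _ = ρ := one_mul _
  have h6 := mul_le_mul_of_nonneg_left (add_le_add h2 h5) hC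
  linarith

theorem rem_int {D D' : Set (ℝ × ℝ)} {ψ f f' : ℝ × ℝ → ℝ} (hψ : TestOn D' ψ) (hf : TestOn D f)
    (hf' : TestOn D f') (hfg : ∀ z, f' z ≤ f z) {B ρ : ℝ} (hB : ∀ x, ‖ψ x‖ ≤ B)
    (h1 : (∫ z, (f z - f' z)) ≤ ρ) : |(∫ x, ψ x * f x) - ∫ x, ψ x * f' x| ≤ B * ρ := by
  have hB0 : 0 ≤ B := (norm_nonneg _).trans (hB 0)
  rw [← integral_sub (hψ.intMul hf.cont) (hψ.intMul hf'.cont)]
  have h2 : |∫ x, (ψ x * f x - ψ x * f' x)| ≤ ∫ x, B * (f x - f' x) := by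
    rw [← Real.norm_eq_abs]
    refine norm_integral_le_of_norm_le ((hf.sub hf').int.const_mul B)
      (Eventually.of_forall fun x => ?_)
    rw [← mul_sub, norm_mul, Real.norm_of_nonneg (sub_nonneg.2 (hfg x))]
    exact mul_le_mul_of_nonneg_right (hB x) (sub_nonneg.2 (hfg x))
  refine h2.trans ?_
  rw [integral_const_mul]
  exact mul_le_mul_of_nonneg_left h1 hB0

variable {b : PW} {Rb : ℝ} {ψ f : ℝ × ℝ → ℝ} {κ : ℝ} {P : Measure Fld}

/-- The Schwinger-Dyson equations for one cell and nonnegative test functions. -/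
theorem cell_f (hP : GFF.Plane P) (hR : X.S_rsw P) (hF : X.S_conf) (hred : S_red)
    (hg : S_gaps P) (hs : S_sdb κ P) {l : Filter ℕ} {D : Set (ℝ × ℝ)}
    {E : ℝ × ℝ → Set (ℝ × ℝ)} {δ : ℕ → ℝ} {V : ℕ → Set Pt} {η : ℕ → Hg}
    (hsc : Scen l D E δ V η Rb) (hmb : S_mb δ) (hl2 : S_l2 δ) (hb : b.x0 + b.y0 < b.s0)
    (hTD : tcell b 0 ⊆ D) {z₀ : ℝ × ℝ} (hz₀ : z₀ ∈ tcell b 0)
    (hE : ∀ z ∈ E z₀, c1 z ≠ b.x0 ∧ c1 z + c2 z ≠ b.s0) (hψ : TestOn b.box ψ) (hf : TestOn D f)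
    (hf0 : ∀ z, 0 ≤ f z) (j : ℕ) {ε : ℝ} (hε : 0 < ε) :
    ∀ᶠ n in l, |Ex (Cfg (V n) (exa (V n) (η n))) (YJ κ (δ n) ψ f j)| ≤ ε := by
  have hDb : Bornology.IsBounded D := Metric.isBounded_ball.subset hsc.sub
  have hbD : b.box ⊆ D := (box_sub b).trans hTD
  have hRb : 0 < Rb := by
    have := hsc.sub (hTD hz₀)
    rw [Metric.mem_ball] at this
    exact dist_nonneg.trans_lt this
  obtain ⟨p, m, hp, hm, hp0, hm0, hpm⟩ := exists_decomp (cell_isOpen b.x0 b.y0 b.s0)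
    (hDb.subset hbD) (hψ.lap)
  have tb : ∀ {q : ℝ × ℝ → ℝ}, TestOn D q → TestOn (Metric.ball 0 Rb) q := fun h => h.mono hsc.sub
  have tp : TestOn D p := hp.mono hbD
  have tm : TestOn D m := hm.mono hbD
  -- moments
  obtain ⟨B1, hB1, m1⟩ := mom_bd hsc.pos hsc.lim hmb (tb tp) hp0 2
  obtain ⟨B2, hB2, m2⟩ := mom_bd hsc.pos hsc.lim hmb (tb tm) hm0 2
  obtain ⟨B3, hB3, m3⟩ := mom_bdq hsc.pos hsc.lim hmb (tb hf) hf0 (2 * (j - 1))
  obtain ⟨B4, hB4, m4⟩ := mom_bdq hsc.pos hsc.lim hmb (tb hf) hf0 (2 * (j - 1 - 1))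
  obtain ⟨B5, hB5, m5⟩ := mom_bdq hsc.pos hsc.lim hmb (tb hf) hf0 (j - 1)
  obtain ⟨C2, hC2, m6⟩ := l2_bd hsc.pos hsc.lim hl2 hRb
  obtain ⟨Bψ, hBψ⟩ := hψ.cs.exists_bound_of_continuous hψ.cont
  have hBψ0 : 0 ≤ Bψ := (norm_nonneg _).trans (hBψ 0)
  set B : ℝ := 8 * (B1 + B2) + B3 + B4 + B5 + 1 with hB
  have hB1' : 1 ≤ B := by rw [hB]; linarith
  set A1 : ℝ := (j + |κ| * j * |∫ x, ψ x * f x| * j) * √(2 * B) with hA1
  have hA10 : 0 ≤ A1 := by positivity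
  set θ : ℝ := (ε / 4) / (A1 + 1) with hθ
  have hθ0 : 0 < θ := by positivity
  have hθ1 : A1 * θ ≤ ε / 4 := by
    rw [hθ, mul_div_assoc', div_le_iff₀ (by positivity)]
    nlinarith
  set A2 : ℝ := |κ| * j * Bψ * (1 + B) with hA2
  have hA20 : 0 ≤ A2 := by positivity
  set ρ : ℝ := min 1 (min (θ ^ 2 / (2 * C2 + 1)) ((ε / 4) / (A2 + 1))) with hρ
  have hρ0 : 0 < ρ := lt_min one_pos (lt_min (by positivity) (by positivity))
  have hρ1 : ρ ≤ 1 := min_le_left _ _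
  have hρ2 : ρ * (2 * C2 + 1) ≤ θ ^ 2 := by
    rw [← le_div_iff₀ (by positivity)]
    exact (min_le_right _ _).trans (min_le_left _ _)
  have hρ3 : A2 * ρ ≤ ε / 4 := by
    have h1 : ρ * (A2 + 1) ≤ ε / 4 := by
      rw [← le_div_iff₀ (by positivity)]
      exact (min_le_right _ _).trans (min_le_right _ _)
    nlinarith
  obtain ⟨e, he, f0, g, tf0, tf0D, tg, hf00, hg0, hgo, hfg, hI2, hI1⟩ :=
    exists_off hf hf0 b.x0 b.y0 b.s0 hρ0
  set f' : ℝ × ℝ → ℝ := fun z => f0 z + g z with hf'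
  have tf' : TestOn D f' := tf0D.add tg
  have hf'0 : ∀ z, 0 ≤ f' z := fun z => add_nonneg (hf00 z) (hg0 z)
  set C : Set (ℝ × ℝ) := tsupport p ∪ tsupport m ∪ (tsupport f0 ∪ tsupport g) with hC
  have hCD : C ⊆ D := union_subset (union_subset tp.2.2 tm.2.2) (union_subset tf0D.2.2 tg.2.2)
  have hcp : CP b Rb e C ψ p m f0 g :=
    { hb := hb
      he := he
      cpt := (hp.cs.isCompact.union hm.cs.isCompact).union
        (tf0.cs.isCompact.union tg.cs.isCompact)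
      Cb := hCD.trans hsc.sub
      tψ := hψ
      tp := TestOn.un hp
      tm := TestOn.un hm
      tf := tf0
      tg := TestOn.un tg
      pC := subset_union_left.trans subset_union_left
      mC := subset_union_right.trans subset_union_left
      fC0 := subset_union_left.trans subset_union_right
      gC := subset_union_right.trans subset_union_right
      p0 := hp0
      m0 := hm0
      f00 := hf00
      g0 := hg0
      hlap := hpm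
      off := hgo }
  have hCs : ∀ i, ∀ z ∈ C, ¬ (ts i z = t0 b i ∧ l0 b i ≤ ls i z) := by
    intro i z hz hh
    rcases hz with (hz | hz) | (hz | hz)
    · exact box_str i (hp.2.2 hz) hh.1
    · exact box_str i (hm.2.2 hz) hh.1
    · exact box_str i (tf0.2.2 hz) hh.1
    · exact off_str he hgo i hz hh.1
  have key := cell_sd hP hR hF hred hg hs hsc hmb hcp hCD hTD hz₀ hE hCs j (half_pos hε)
  -- the remainder
  have tr : TestOn D (fun z => f z - f' z) := hf.sub tf'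
  have hr0 : ∀ z, 0 ≤ f z - f' z := fun z => sub_nonneg.2 (hfg z)
  have m7 := m6 _ (tb tr) hr0 ρ hρ0
  filter_upwards [key, hsc.le m1, hsc.le m2, hsc.le m3, hsc.le m4, hsc.le m5, hsc.le m7, hsc.ball,
    hsc.cpt _ hcp.cpt hCD, hsc.cpt _ hf.cs.isCompact hf.2.2] with n k0 k1 k2 k3 k4 k5 k7 hbn hCn hfn
  have hδ := hsc.pos n
  set S : Set Hg := Cfg (V n) (exa (V n) (η n)) with hS
  have hSf : S.Finite := Cfg_finite (dat_exa (fin_of_ball hδ hbn))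
  have hpm' := hsc.pm n
  have sup : ∀ {q : ℝ × ℝ → ℝ}, tsupport q ⊆ C → ∀ x, q (dp (δ n) x) ≠ 0 → x ∈ V n :=
    fun h5 x hx => hCn (h5 (subset_tsupport _ hx))
  have supf : ∀ x, f (dp (δ n) x) ≠ 0 → x ∈ V n := fun x hx => hfn (subset_tsupport _ hx)
  have supr : ∀ x, f (dp (δ n) x) - f' (dp (δ n) x) ≠ 0 → x ∈ V n := by
    intro x hx
    apply supf x
    intro h0
    apply hx
    have h1 := hfg (dp (δ n) x)
    have h2 := hf'0 (dp (δ n) x)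
    have h3 : f' (dp (δ n) x) ≤ f (dp (δ n) x) := h1
    linarith
  have q1 := k1 (V n) (η n) hbn hpm' (sup hcp.pC)
  have q2 := k2 (V n) (η n) hbn hpm' (sup hcp.mC)
  have q3 := k3 (V n) (η n) hbn hpm' supf f (tb hf) fun z => ⟨hf0 z, le_rfl⟩
  have q3' := k3 (V n) (η n) hbn hpm' supf f' (tb tf') fun z => ⟨hf'0 z, hfg z⟩
  have q4 := k4 (V n) (η n) hbn hpm' supf f (tb hf) fun z => ⟨hf0 z, le_rfl⟩
  have q4' := k4 (V n) (η n) hbn hpm' supf f' (tb tf') fun z => ⟨hf'0 z, hfg z⟩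
  have q5' := k5 (V n) (η n) hbn hpm' supf f' (tb tf') fun z => ⟨hf'0 z, hfg z⟩
  have q7 := k7 (V n) (η n) hbn hpm' supr
  have r1 : Ex S (fun h => Lf (δ n) (lap ψ) h ^ 4) ≤ B := by
    have h1 := lap_four hδ hp hm hpm (S := S)
    rw [hB]
    linarith
  have r7 : Ex S (fun h => (Lf (δ n) f h - Lf (δ n) f' h) ^ 2) ≤ θ ^ 2 :=
    rem_two hδ hf tf' hfg hC2 hρ0.le hρ1 hI2 hI1 q7 hρ2
  have r8 : |(∫ x, ψ x * f x) - ∫ x, ψ x * f' x| ≤ Bψ * ρ :=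
    rem_int hψ hf tf' hfg hBψ hI1
  have hch := YJ_change (κ := κ) hSf hθ0.le hB1' r1 (q3.trans (by rw [hB]; linarith))
    (q3'.trans (by rw [hB]; linarith)) (q4.trans (by rw [hB]; linarith))
    (q4'.trans (by rw [hB]; linarith)) (q5'.trans (by rw [hB]; linarith)) r7 r8
  have e1 : |κ| * j * (Bψ * ρ) * (1 + B) = A2 * ρ := by rw [hA2]; ring
  rw [e1, ← hA1] at hch
  have e2 : Ex S (YJ κ (δ n) ψ f j) = (Ex S (YJ κ (δ n) ψ f j) - Ex S (YJ κ (δ n) ψ f' j)) +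
      Ex S (YJ κ (δ n) ψ f' j) := by ring
  rw [e2]
  refine (abs_add_le _ _).trans ?_
  have k0' : |Ex S (YJ κ (δ n) ψ f' j)| ≤ ε / 2 := k0
  linarith

end Vale.Agent.P153.R2.SDAR
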