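import Vale.Agent.P153.R2.SDAR.Closed
import Vale.Agent.P153.R2.SDAR.Scen

/-!
P153-R2, block SDAR (helper506): the Schwinger-Dyson equations for one cell and test functions which
vanish near the lines.
-/

set_option autoImplicit false

namespace Vale.Agent.P153.R2.SDAR

open Filter Topology Set MeasureTheory
open Vale.Agent.P145.PT Vale.Agent.P153 Vale.Agent.P153.F Vale.Agent.P153.F.SD
open Vale.Agent.P153.F.Top (dp c1 c2 lat_finite S_mb)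
open Vale.Agent.P153.Topo (Conn)

variable {b : PW} {Rb e : ℝ} {C : Set (ℝ × ℝ)} {ψ p m f0 g : ℝ × ℝ → ℝ}

/-- The moments which are used for the bad event. -/
theorem CP.mom (h : CP b Rb e C ψ p m f0 g) {δ : ℕ → ℝ} (hδ : ∀ n, 0 < δ n)
    (hδ0 : Tendsto δ atTop (𝓝 0)) (hmb : S_mb δ) (j : ℕ) : ∃ B : ℝ, 0 ≤ B ∧
    ∀ᶠ n in atTop, ∀ (V : Set Pt) (η : Hg),
      (∀ x ∈ V, dp (δ n) x ∈ Metric.ball (0 : ℝ × ℝ) Rb) → (∀ x, η x = 1 ∨ η x = -1) →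
      ov (δ n) C ⊆ V →
      Ex (Cfg V (exa V η)) (FF (δ n) (l1 p f0 g j ++ l1 p f0 g j)) ≤ B ∧
      Ex (Cfg V (exa V η)) (FF (δ n) (l1 m f0 g j ++ l1 m f0 g j)) ≤ B ∧
      Ex (Cfg V (exa V η)) (FF (δ n) (l3 f0 g j ++ l3 f0 g j)) ≤ B := by
  have tb : ∀ {q : ℝ × ℝ → ℝ}, TestOn univ q → tsupport q ⊆ C →
      TestOn (Metric.ball 0 Rb) q := fun h1 h2 => ⟨h1.1, h1.2.1, h2.trans h.Cb⟩
  set f : ℝ × ℝ → ℝ := fun z => f0 z + g z with hf
  have hf0 : ∀ z, 0 ≤ f z := fun z => add_nonneg (h.f00 z) (h.g0 z)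
  obtain ⟨B1, hB1, e1⟩ := mom_bd hδ hδ0 hmb (tb h.tp h.pC) h.p0 2
  obtain ⟨B2, hB2, e2⟩ := mom_bd hδ hδ0 hmb (tb h.tm h.mC) h.m0 2
  obtain ⟨B3, hB3, e3⟩ := mom_bd hδ hδ0 hmb (tb h.f h.fC) hf0 (2 * j)
  obtain ⟨B4, hB4, e4⟩ := mom_bd hδ hδ0 hmb (tb h.f h.fC) hf0 (j - 1)
  refine ⟨B1 + B2 + B3 + B4, by positivity, ?_⟩
  filter_upwards [e1, e2, e3, e4] with n h1 h2 h3 h4 V η hV hη hCV
  have sup : ∀ {q : ℝ × ℝ → ℝ}, tsupport q ⊆ C → ∀ x, q (dp (δ n) x) ≠ 0 → x ∈ V :=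
    fun h5 x hx => hCV (h5 (subset_tsupport _ hx))
  have k1 := h1 V η hV hη (sup h.pC)
  have k2 := h2 V η hV hη (sup h.mC)
  have k3 := h3 V η hV hη (sup h.fC)
  have k4 := h4 V η hV hη (sup h.fC)
  have two : ∀ q : ℝ × ℝ → ℝ, Ex (Cfg V (exa V η)) (FF (δ n) (l1 q f0 g j ++ l1 q f0 g j)) ≤
      Ex (Cfg V (exa V η)) (fun h => Lf (δ n) q h ^ (2 * 2)) +
        Ex (Cfg V (exa V η)) (fun h => Lf (δ n) f h ^ (2 * (2 * j))) := by
    intro q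
    rw [← Ex_add]
    refine Ex_mono fun h _ => ?_
    rw [FF_app, l1, FF_cons, FF_rep]
    set x := Lf (δ n) q h
    set y := Lf (δ n) f h
    have e5 : x * y ^ j * (x * y ^ j) = x ^ 2 * (y ^ (2 * j)) := by ring
    have e6 : x ^ (2 * 2) = (x ^ 2) ^ 2 := by ring
    have e7 : y ^ (2 * (2 * j)) = (y ^ (2 * j)) ^ 2 := by ring
    rw [e5, e6, e7]
    nlinarith [sq_nonneg (x ^ 2 - y ^ (2 * j)), sq_nonneg (x ^ 2), sq_nonneg (y ^ (2 * j))]
  have three : Ex (Cfg V (exa V η)) (FF (δ n) (l3 f0 g j ++ l3 f0 g j)) =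
      Ex (Cfg V (exa V η)) (fun h => Lf (δ n) f h ^ (2 * (j - 1))) := by
    congr 1
    funext h
    rw [FF_app, l3, FF_rep]
    ring
  refine ⟨(two p).trans (by linarith), (two m).trans (by linarith), ?_⟩
  rw [three]
  linarith

theorem sq3_le (x y z c : ℝ) : (x - y + c * z) ^ 2 ≤ 3 * (x * x + y * y + c ^ 2 * (z * z)) := by
  nlinarith [sq_nonneg (x + y), sq_nonneg (x - c * z), sq_nonneg (y + c * z)]

variable {κ : ℝ} {P : Measure Fld}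

/-- The Schwinger-Dyson equations for one cell. -/
theorem cell_sd (hP : GFF.Plane P) (hR : X.S_rsw P) (hF : X.S_conf) (hred : S_red)
    (hg : S_gaps P) (hs : S_sdb κ P) {l : Filter ℕ} {D : Set (ℝ × ℝ)}
    {E : ℝ × ℝ → Set (ℝ × ℝ)} {δ : ℕ → ℝ} {V : ℕ → Set Pt} {η : ℕ → Hg}
    (hsc : Scen l D E δ V η Rb) (hmb : S_mb δ) (hcp : CP b Rb e C ψ p m f0 g) (hCD : C ⊆ D)
    (hTD : tcell b 0 ⊆ D) {z₀ : ℝ × ℝ} (hz₀ : z₀ ∈ tcell b 0)
    (hE : ∀ z ∈ E z₀, c1 z ≠ b.x0 ∧ c1 z + c2 z ≠ b.s0)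
    (hCs : ∀ i, ∀ z ∈ C, ¬ (ts i z = t0 b i ∧ l0 b i ≤ ls i z)) (j : ℕ) {ε : ℝ} (hε : 0 < ε) :
    ∀ᶠ n in l, |Ex (Cfg (V n) (exa (V n) (η n)))
      (YJ κ (δ n) ψ (fun z => f0 z + g z) j)| ≤ ε := by
  set c : ℝ := κ * j * ∫ x, ψ x * (f0 x + g x) with hc
  obtain ⟨B, hB, hmom⟩ := hcp.mom hsc.pos hsc.lim hmb j
  -- the accuracy of the reduction
  set A : ℝ := 3 * (2 + c ^ 2) * (B + 1) with hA
  have hA0 : 0 < A := by positivity
  obtain ⟨ε₁, h10, h11, h12, h13⟩ : ∃ ε₁ : ℝ, 0 < ε₁ ∧ ε₁ ≤ 1 ∧ (2 + |c|) * ε₁ ≤ ε / 4 ∧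
      √ε₁ * √A ≤ ε / 4 := by
    refine ⟨min 1 (min (ε / (4 * (2 + |c|))) ((ε / 4) ^ 2 / A)), by positivity, min_le_left _ _,
      ?_, ?_⟩
    · have h1 : min 1 (min (ε / (4 * (2 + |c|))) ((ε / 4) ^ 2 / A)) ≤ ε / (4 * (2 + |c|)) :=
        (min_le_right _ _).trans (min_le_left _ _)
      have h2 : (2 + |c|) * min 1 (min (ε / (4 * (2 + |c|))) ((ε / 4) ^ 2 / A)) ≤
          (2 + |c|) * (ε / (4 * (2 + |c|))) := mul_le_mul_of_nonneg_left h1 (by positivity)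
      refine h2.trans (le_of_eq ?_)
      field_simp
    · rw [← Real.sqrt_mul (by positivity)]
      refine Real.sqrt_le_iff.2 ⟨by positivity, ?_⟩
      have h1 : min 1 (min (ε / (4 * (2 + |c|))) ((ε / 4) ^ 2 / A)) ≤ (ε / 4) ^ 2 / A :=
        (min_le_right _ _).trans (min_le_right _ _)
      have h2 := mul_le_mul_of_nonneg_right h1 hA0.le
      rwa [div_mul_cancel₀ _ hA0.ne'] at h2
  obtain ⟨K, r, lf, M, w₀, hK, hCK, hr, hw₀, hKr, hlf, hredw⟩ := hred l D E δ V η Rb hsc b hcp.hb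
    hTD z₀ hz₀ hE C hcp.cpt hCD hCs [l1 p f0 g j, l1 m f0 g j, l3 f0 g j,
      l1 p f0 g j ++ l1 p f0 g j, l1 m f0 g j ++ l1 m f0 g j, l3 f0 g j ++ l3 f0 g j] (by
      have app : ∀ q, NT C q → NT C (q ++ q) := fun q hq f hf => by
        rw [List.mem_append, or_self] at hf
        exact hq f hf
      intro q hq
      simp only [List.mem_cons, List.not_mem_nil, or_false] at hq
      rcases hq with rfl | rfl | rfl | rfl | rfl | rfl
      · exact hcp.NT1 j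
      · exact hcp.NT2 j
      · exact hcp.NT3 j
      · exact app _ (hcp.NT1 j)
      · exact app _ (hcp.NT2 j)
      · exact app _ (hcp.NT3 j)) ε₁ h10
  obtain ⟨w, hw, hww, δ₀, hδ₀, hcl⟩ := closed_sd hP hR hF hg hs hcp hK hCK hr hKr hlf M j hw₀
    (show 0 < ε / 4 by positivity)
  have hδl : ∀ᶠ n in l, δ n < δ₀ := (hsc.lim.mono_left hsc.le).eventually (gt_mem_nhds hδ₀)
  filter_upwards [hredw w hw hww, hδl, hsc.le hmom, hsc.ball, hsc.cpt C hcp.cpt hCD] with n hn hδn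
    hmn hbn hCn
  obtain ⟨V', η', G, U, ζ, σ, hV', hη', hσ, hins, hPr, hgood, hdec⟩ := hn
  have hδ := hsc.pos n
  set S : Set Hg := Cfg (V n) (exa (V n) (η n)) with hS
  set S' : Set Hg := Cfg V' (exa V' η') with hS'
  have hS'f : S'.Finite := Cfg_finite (dat_exa hV')
  obtain ⟨m1, m2, m3⟩ := hmn (V n) (η n) hbn (hsc.pm n) hCn
  set Y : Hg → ℝ := YJ κ (δ n) ψ (fun z => f0 z + g z) j with hY
  -- the insertion
  have i1 := hins (l1 p f0 g j) (by simp)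
  have i2 := hins (l1 m f0 g j) (by simp)
  have i3 := hins (l3 f0 g j) (by simp)
  have i4 := hins (l1 p f0 g j ++ l1 p f0 g j) (by simp)
  have i5 := hins (l1 m f0 g j ++ l1 m f0 g j) (by simp)
  have i6 := hins (l3 f0 g j ++ l3 f0 g j) (by simp)
  have e1 : Ex S Y = Ex S (FF (δ n) (l1 p f0 g j)) - Ex S (FF (δ n) (l1 m f0 g j)) +
      c * Ex S (FF (δ n) (l3 f0 g j)) := Ex_YJ1 hδ hcp.tp hcp.tm hcp.hlap j S
  have e2 : Ex S' Y = Ex S' (FF (δ n) (l1 p f0 g j)) - Ex S' (FF (δ n) (l1 m f0 g j)) +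
      c * Ex S' (FF (δ n) (l3 f0 g j)) := Ex_YJ1 hδ hcp.tp hcp.tm hcp.hlap j S'
  have b1 : |Ex S Y - Ex S' Y| ≤ (2 + |c|) * ε₁ := by
    have e3 : Ex S Y - Ex S' Y =
        (Ex S (FF (δ n) (l1 p f0 g j)) - Ex S' (FF (δ n) (l1 p f0 g j))) -
        (Ex S (FF (δ n) (l1 m f0 g j)) - Ex S' (FF (δ n) (l1 m f0 g j))) +
        c * (Ex S (FF (δ n) (l3 f0 g j)) - Ex S' (FF (δ n) (l3 f0 g j))) := by
      rw [e1, e2]; ring
    rw [e3]
    refine (abs_add_le _ _).trans ?_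
    rw [abs_mul]
    have h1 := (abs_sub _ _).trans (add_le_add i1 i2)
    have h2 := mul_le_mul_of_nonneg_left i3 (abs_nonneg c)
    linarith
  -- the second moment
  have b2 : Ex S' (fun h => Y h ^ 2) ≤ A := by
    have h1 : Ex S' (fun h => Y h ^ 2) ≤
        Ex S' (fun h => 3 * (FF (δ n) (l1 p f0 g j ++ l1 p f0 g j) h +
          FF (δ n) (l1 m f0 g j ++ l1 m f0 g j) h +
          c ^ 2 * FF (δ n) (l3 f0 g j ++ l3 f0 g j) h)) := by
      refine Ex_mono fun h _ => ?_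
      rw [FF_app, FF_app, FF_app, hY, YJ_eq hδ hcp.tp hcp.tm hcp.hlap j h]
      exact sq3_le _ _ _ _
    rw [Ex_const_mul, Ex_add, Ex_add, Ex_const_mul] at h1
    rw [abs_le] at i4 i5 i6
    have h4 : Ex S' (FF (δ n) (l1 p f0 g j ++ l1 p f0 g j)) ≤ B + 1 := by linarith
    have h5 : Ex S' (FF (δ n) (l1 m f0 g j ++ l1 m f0 g j)) ≤ B + 1 := by linarith
    have h6 : Ex S' (FF (δ n) (l3 f0 g j ++ l3 f0 g j)) ≤ B + 1 := by linarith
    have h7 := mul_le_mul_of_nonneg_left h6 (sq_nonneg c)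
    refine h1.trans ?_
    rw [hA]
    linarith
  -- the bad event
  have b3 : |Ex S' (fun h => ind Gᶜ h * Y h)| ≤ ε / 4 := by
    refine (Ex_ind_le hS'f Gᶜ Y).trans (le_trans ?_ h13)
    exact mul_le_mul (Real.sqrt_le_sqrt hPr) (Real.sqrt_le_sqrt b2) (Real.sqrt_nonneg _)
      (Real.sqrt_nonneg _)
  -- the good event
  have b4 : |Ex S' (fun h => ind G h * Y h)| ≤ ε / 4 := by
    have h1 : Ex S' (fun h => ind G h * Y h) =
        Ex S' (fun h => ind G h * Ex (Cfg (U h) (exa (U h) (ζ h))) Y) := by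
      have h2 := Ex_YJ (κ := κ) hδ hcp.tp hcp.tm hcp.hlap j (f := fun z => f0 z + g z) S' (ind G)
      rw [hY, h2]
      have d1 := hdec _ (hcp.NT1 j)
      have d2 := hdec _ (hcp.NT2 j)
      have d3 := hdec _ (hcp.NT3 j)
      unfold l1 at d1 d2
      unfold l3 at d3
      rw [d1, d2, d3, ← Ex_sub, ← Ex_const_mul, ← Ex_add]
      congr 1
      funext h
      rw [Ex_YJ1 hδ hcp.tp hcp.tm hcp.hlap j]
      ring
    rw [h1]
    refine (abs_Ex_le _).trans (Ex_le_const (by positivity) fun h hh => ?_)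
    unfold ind
    split_ifs with hG
    · rw [one_mul]
      obtain ⟨g1, g2, g3, g4⟩ := hgood h hh hG
      exact hcl (δ n) hδ hδn (U h) (ζ h) σ g1 g2 hσ g3 g4
    · rw [zero_mul, abs_zero]
      positivity
  have e5 : Ex S' Y = Ex S' (fun h => ind G h * Y h) + Ex S' (fun h => ind Gᶜ h * Y h) := by
    rw [← Ex_add]
    congr 1
    funext h
    unfold ind
    by_cases hG : h ∈ G
    · have hG' : h ∉ Gᶜ := fun h' => h' hG
      rw [if_pos hG, if_neg hG']; ring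
    · have hG' : h ∈ Gᶜ := hG
      rw [if_neg hG, if_pos hG']; ring
  have e6 : Ex S Y = (Ex S Y - Ex S' Y) + (Ex S' (fun h => ind G h * Y h) +
      Ex S' (fun h => ind Gᶜ h * Y h)) := by rw [← e5]; ring
  rw [e6]
  refine (abs_add_le _ _).trans ?_
  have h1 := abs_add_le (Ex S' (fun h => ind G h * Y h)) (Ex S' (fun h => ind Gᶜ h * Y h))
  linarith

end Vale.Agent.P153.R2.SDAR
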