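import Vale.Agent.P153.R2.SDAR.Geo

/-!
P153-R2, block SDAR (helper506): decomposition of test functions into cells in general position;
test functions which vanish near the three lines of a triangle.
-/

set_option autoImplicit false

namespace Vale.Agent.P153.R2.SDAR

open Filter Topology Set MeasureTheory
open Vale.Agent.P145.PT Vale.Agent.P153 Vale.Agent.P153.F.Top Vale.Agent.P153.F.X
open Vale.Agent.P145.X (T T_nonneg T_le T_zero T_one T_pos T_sm mul_T_le line_null)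
open scoped Manifold ContDiff

theorem cell_isOpen (a b c : ℝ) : IsOpen (cell a b c) := by
  have h : cell a b c = {z : ℝ × ℝ | a < c1 z} ∩ {z | b < c2 z} ∩ {z | c1 z + c2 z < c} := by
    ext z
    simp only [cell, Set.mem_ofPred_eq, Set.mem_inter_iff]
    tauto
  have k1 : Continuous c1 := sm_c1.continuous
  have k2 : Continuous c2 := sm_c2.continuous
  rw [h]
  exact ((isOpen_lt continuous_const k1).inter (isOpen_lt continuous_const k2)).inter
    (isOpen_lt (k1.add k2) continuous_const)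

theorem cell_small {D : Set (ℝ × ℝ)} (hD : IsOpen D) {z : ℝ × ℝ} (hz : z ∈ D) :
    ∃ e : ℝ, 0 < e ∧ ccell (c1 z - e) (c2 z - e) (c1 z + c2 z + e) ⊆ D := by
  obtain ⟨r, hr, hb⟩ := Metric.nhds_basis_closedBall.mem_iff.1 (hD.mem_nhds hz)
  refine ⟨r / 4, by positivity, fun w hw => hb ?_⟩
  obtain ⟨h1, h2, h3⟩ := hw
  rw [Metric.mem_closedBall]
  refine (dist_le_c w z).trans ?_
  have a1 : |c1 w - c1 z| ≤ r / 2 := abs_le.2 ⟨by linarith, by linarith⟩
  have a2 : |c2 w - c2 z| ≤ r / 2 := abs_le.2 ⟨by linarith, by linarith⟩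
  linarith

theorem exists_Ioo {F : Set ℝ} (hF : F.Finite) {e : ℝ} (he : 0 < e) (φ : ℝ → ℝ)
    (hφ : Function.Injective φ) : ∃ x : ℝ, 0 < x ∧ x < e ∧ φ x ∉ F := by
  have h1 : (φ ⁻¹' F).Finite := hF.preimage hφ.injOn
  have h2 : (Ioo 0 e \ φ ⁻¹' F).Infinite := (Ioo_infinite he).sdiff h1
  obtain ⟨x, hx, hx2⟩ := h2.nonempty
  exact ⟨x, hx.1, hx.2, hx2⟩

/-- Decomposition of a test function into test functions of cells in general position. -/
theorem exists_cells_gen {D : Set (ℝ × ℝ)} (hD : IsOpen D) {ψ : ℝ × ℝ → ℝ} (hψ : TestOn D ψ)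
    {F1 F2 : Set ℝ} (h1 : F1.Finite) (h2 : F2.Finite) :
    ∃ (m : ℕ) (g : Fin m → ℝ × ℝ → ℝ) (a b c : Fin m → ℝ),
      (∀ i, a i + b i < c i ∧ ccell (a i) (b i) (c i) ⊆ D ∧
        TestOn (cell (a i) (b i) (c i)) (g i) ∧ a i ∉ F1 ∧ c i ∉ F2) ∧ ∀ z, ψ z = ∑ i, g i z := by
  classical
  have hK : IsCompact (tsupport ψ) := hψ.2.1
  have hKD : tsupport ψ ⊆ D := hψ.2.2
  choose! e he heD using fun (z : ℝ × ℝ) (hz : z ∈ D) => cell_small hD hz
  choose! e1 he1 he1' he1F using fun (z : ℝ × ℝ) (hz : z ∈ D) =>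
    exists_Ioo h1 (he z hz) (fun x => c1 z - x) (fun x y h => by simpa using h)
  choose! e2 he2 he2' he2F using fun (z : ℝ × ℝ) (hz : z ∈ D) =>
    exists_Ioo h2 (he z hz) (fun x => c1 z + c2 z + x) (fun x y h => by simpa using h)
  let U : ℝ × ℝ → Set (ℝ × ℝ) := fun z => cell (c1 z - e1 z) (c2 z - e z) (c1 z + c2 z + e2 z)
  obtain ⟨t, htK, htc⟩ := hK.elim_nhds_subcover U (fun z hz => (cell_isOpen _ _ _).mem_nhds (by
    have h := he z (hKD hz)
    have h' := he1 z (hKD hz)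
    have h'' := he2 z (hKD hz)
    exact ⟨by linarith only [h'], by linarith only [h], by linarith only [h'']⟩))
  let q : Fin t.card ≃ t := t.equivFin.symm
  let c : Fin t.card → ℝ × ℝ := fun i => (q i : ℝ × ℝ)
  have hcK : ∀ i, c i ∈ tsupport ψ := fun i => htK _ (q i).2
  have hcov : tsupport ψ ⊆ ⋃ i, U (c i) := by
    intro z hz
    obtain ⟨x, hx, hxz⟩ := Set.mem_iUnion₂.1 (htc hz)
    refine Set.mem_iUnion.2 ⟨q.symm ⟨x, hx⟩, ?_⟩
    simpa [c] using hxz
  obtain ⟨f, hf⟩ := SmoothPartitionOfUnity.exists_isSubordinate 𝓘(ℝ, ℝ × ℝ)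
    (isClosed_tsupport ψ) (fun i => U (c i)) (fun i => cell_isOpen _ _ _) hcov
  refine ⟨t.card, fun i z => ψ z * f i z, fun i => c1 (c i) - e1 (c i),
    fun i => c2 (c i) - e (c i), fun i => c1 (c i) + c2 (c i) + e2 (c i), fun i => ?_, fun z => ?_⟩
  · have hc := hKD (hcK i)
    have h := he (c i) hc
    have h' := he1 (c i) hc
    have h'' := he2 (c i) hc
    have k' := he1' (c i) hc
    have k'' := he2' (c i) hc
    refine ⟨by linarith only [h, h', h''], fun z hz => heD _ hc ?_, ⟨?_, ?_, ?_⟩, he1F _ hc,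
      he2F _ hc⟩
    · exact ⟨by linarith [hz.1], hz.2.1, by linarith [hz.2.2]⟩
    · have h1 : ContDiff ℝ ∞ (fun z => f i z) := (f i).contMDiff.contDiff
      exact hψ.1.mul h1
    · exact hψ.2.1.mul_right
    · exact (tsupport_mul_subset_right).trans (hf i)
  · by_cases hz : z ∈ tsupport ψ
    · rw [← Finset.mul_sum]
      have h1 : ∑ᶠ i, f i z = 1 := f.sum_eq_one hz
      rw [finsum_eq_sum_of_fintype] at h1
      rw [h1, mul_one]
    · have h0 : ψ z = 0 := image_eq_zero_of_notMem_tsupport hz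
      simp only [h0, zero_mul, Finset.sum_const_zero]

/-! ### Off the lines -/

/-- One-line cutoff: `0` for `|x| ≤ e`, `1` for `|x| ≥ 2 e`. -/
noncomputable def oc (e x : ℝ) : ℝ := T (x / e - 1) + T (-x / e - 1)

theorem oc_nonneg (e x : ℝ) : 0 ≤ oc e x := add_nonneg (T_nonneg _) (T_nonneg _)

theorem oc_of_pos {e x : ℝ} (he : 0 < e) (hx : 0 ≤ x) : oc e x = T (x / e - 1) := by
  unfold oc
  have : -x / e ≤ 0 := div_nonpos_of_nonpos_of_nonneg (by linarith) he.le
  rw [T_zero (t := -x / e - 1) (by linarith), add_zero]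

theorem oc_of_neg {e x : ℝ} (he : 0 < e) (hx : x ≤ 0) : oc e x = T (-x / e - 1) := by
  unfold oc
  have : x / e ≤ 0 := div_nonpos_of_nonpos_of_nonneg hx he.le
  rw [T_zero (t := x / e - 1) (by linarith), zero_add]

theorem oc_le {e : ℝ} (he : 0 < e) (x : ℝ) : oc e x ≤ 1 := by
  rcases le_total 0 x with h | h
  · rw [oc_of_pos he h]; exact T_le _
  · rw [oc_of_neg he h]; exact T_le _

theorem oc_pos {e x : ℝ} (he : 0 < e) (h : oc e x ≠ 0) : e < |x| := by
  rcases le_total 0 x with h1 | h1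
  · rw [oc_of_pos he h1] at h
    have := T_pos h
    rw [sub_pos, lt_div_iff₀ he] at this
    rw [abs_of_nonneg h1]; linarith
  · rw [oc_of_neg he h1] at h
    have := T_pos h
    rw [sub_pos, lt_div_iff₀ he] at this
    rw [abs_of_nonpos h1]; linarith

theorem oc_one {x : ℝ} (hx : x ≠ 0) : ∀ᶠ e : ℝ in 𝓝[>] 0, oc e x = 1 := by
  have h0 : 0 < |x| := abs_pos.2 hx
  have : ∀ᶠ e : ℝ in 𝓝[>] 0, e < |x| / 2 :=
    nhdsWithin_le_nhds (eventually_lt_nhds (half_pos h0))
  filter_upwards [this, self_mem_nhdsWithin] with e he he0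
  have he0' : (0 : ℝ) < e := he0
  rcases le_total 0 x with h1 | h1
  · rw [oc_of_pos he0' h1]
    rw [abs_of_nonneg h1] at he
    have h5 : 2 ≤ x / e := by rw [le_div_iff₀ he0']; linarith
    exact T_one (by linarith only [h5])
  · rw [oc_of_neg he0' h1]
    rw [abs_of_nonpos h1] at he
    have h5 : 2 ≤ -x / e := by rw [le_div_iff₀ he0']; linarith
    exact T_one (by linarith only [h5])

theorem sm_oc (e : ℝ) {φ : ℝ × ℝ → ℝ} (hφ : Sm φ) : Sm (fun z => oc e (φ z)) := by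
  have h := T_sm
  unfold Sm at hφ ⊢
  unfold oc
  have e1 : ContDiff ℝ ((⊤ : ℕ∞) : WithTop ℕ∞) (fun z : ℝ × ℝ => φ z / e - 1) := by
    fun_prop
  have e2 : ContDiff ℝ ((⊤ : ℕ∞) : WithTop ℕ∞) (fun z : ℝ × ℝ => -φ z / e - 1) := by
    fun_prop
  exact (h.comp e1).add (h.comp e2)

/-- The cutoff off the three lines. -/
noncomputable def of3 (a b c e : ℝ) (z : ℝ × ℝ) : ℝ :=
  oc e (c1 z - a) * oc e (c2 z - b) * oc e (c - (c1 z + c2 z))

theorem sm_of3 (a b c e : ℝ) : Sm (of3 a b c e) := by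
  have h1 : Sm (fun z => c1 z - a) := by
    unfold Sm; have := sm_c1; fun_prop
  have h2 : Sm (fun z => c2 z - b) := by
    unfold Sm; have := sm_c2; fun_prop
  have h3 : Sm (fun z => c - (c1 z + c2 z)) := by
    unfold Sm; have := sm_c1; have := sm_c2; fun_prop
  exact ((sm_oc e h1).mul (sm_oc e h2)).mul (sm_oc e h3)

theorem of3_nonneg (a b c e : ℝ) (z : ℝ × ℝ) : 0 ≤ of3 a b c e z :=
  mul_nonneg (mul_nonneg (oc_nonneg _ _) (oc_nonneg _ _)) (oc_nonneg _ _)

theorem of3_le {a b c e : ℝ} (he : 0 < e) (z : ℝ × ℝ) : of3 a b c e z ≤ 1 :=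
  mul_T_le (mul_nonneg (oc_nonneg _ _) (oc_nonneg _ _)) (mul_T_le (oc_nonneg _ _) (oc_le he _)
    (oc_nonneg _ _) (oc_le he _)) (oc_nonneg _ _) (oc_le he _)

theorem k0_le_of3 {a b c e : ℝ} (z : ℝ × ℝ) : k0 a b c e z ≤ of3 a b c e z := by
  unfold k0 of3
  have h1 : T ((c1 z - a) / e - 1) ≤ oc e (c1 z - a) := le_add_of_nonneg_right (T_nonneg _)
  have h2 : T ((c2 z - b) / e - 1) ≤ oc e (c2 z - b) := le_add_of_nonneg_right (T_nonneg _)
  have h3 : T ((c - (c1 z + c2 z)) / e - 1) ≤ oc e (c - (c1 z + c2 z)) :=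
    le_add_of_nonneg_right (T_nonneg _)
  calc _ = T ((c1 z - a) / e - 1) * T ((c2 z - b) / e - 1) * T ((c - (c1 z + c2 z)) / e - 1) := by
        ring
    _ ≤ _ := mul_le_mul (mul_le_mul h1 h2 (T_nonneg _) (oc_nonneg _ _)) h3 (T_nonneg _)
        (mul_nonneg (oc_nonneg _ _) (oc_nonneg _ _))

theorem k0_eq_of3 {a b c e : ℝ} (he : 0 < e) {z : ℝ × ℝ}
    (h : a < c1 z ∧ b < c2 z ∧ c1 z + c2 z < c) : k0 a b c e z = of3 a b c e z := by
  unfold k0 of3
  rw [oc_of_pos he (by linarith [h.1]), oc_of_pos he (by linarith [h.2.1]),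
    oc_of_pos he (by linarith [h.2.2])]
  ring

/-- The points at distance more than `e` from the three lines, outside of the triangle. -/
def Off (a b c e : ℝ) : Set (ℝ × ℝ) :=
  {z | e < |c1 z - a| ∧ e < |c2 z - b| ∧ e < |c1 z + c2 z - c| ∧
    ¬ (a < c1 z ∧ b < c2 z ∧ c1 z + c2 z < c)}

/-- **partition off the lines** -/
theorem exists_off {D : Set (ℝ × ℝ)} {f : ℝ × ℝ → ℝ} (hf : TestOn D f) (hf0 : ∀ z, 0 ≤ f z)
    (a b c : ℝ) {ρ : ℝ} (hρ : 0 < ρ) :
    ∃ e : ℝ, 0 < e ∧ ∃ f0 g : ℝ × ℝ → ℝ, TestOn (cell a b c) f0 ∧ TestOn D f0 ∧ TestOn D g ∧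
      (∀ z, 0 ≤ f0 z) ∧ (∀ z, 0 ≤ g z) ∧ (∀ z, g z ≠ 0 → z ∈ Off a b c e) ∧
      (∀ z, f0 z + g z ≤ f z) ∧ (∫ z, (f z - (f0 z + g z)) ^ 2) ≤ ρ ∧
      (∫ z, (f z - (f0 z + g z))) ≤ ρ := by
  set F : ℝ → ℝ × ℝ → ℝ := fun e z => of3 a b c e z with hF
  have hF0 : ∀ e z, 0 ≤ F e z := fun e z => of3_nonneg _ _ _ _ _
  have hlim : ∀ᵐ z : ℝ × ℝ, Tendsto (fun e => f z - F e z * f z) (𝓝[>] 0) (𝓝 0) := by
    filter_upwards [lines_null a b c] with z hz
    refine Tendsto.congr' ?_ tendsto_const_nhds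
    filter_upwards [oc_one (sub_ne_zero.2 hz.1), oc_one (sub_ne_zero.2 hz.2.1),
      oc_one (sub_ne_zero.2 hz.2.2.symm)] with e h1 h2 h3
    simp only [hF, of3]
    rw [h1, h2, h3]; ring
  have hFc : ∀ e, Continuous (F e) := fun e => (sm_of3 a b c e).continuous
  have hbd : ∀ e, 0 < e → ∀ z, 0 ≤ f z - F e z * f z ∧ f z - F e z * f z ≤ f z := by
    intro e he z
    have h1 : F e z ≤ 1 := of3_le he z
    have h2 := hF0 e z
    have h3 := hf0 z
    constructor
    · have : F e z * f z ≤ 1 * f z := mul_le_mul_of_nonneg_right h1 h3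
      linarith
    · have : 0 ≤ F e z * f z := mul_nonneg h2 h3
      linarith
  have L1 : Tendsto (fun e => ∫ z, (f z - F e z * f z)) (𝓝[>] 0) (𝓝 0) := by
    have h := tendsto_integral_filter_of_dominated_convergence (μ := volume)
      (F := fun e z => f z - F e z * f z) (f := fun _ => (0 : ℝ)) (l := 𝓝[>] (0 : ℝ))
      (bound := f) ?_ ?_ hf.int hlim
    · simpa using h
    · exact Eventually.of_forall fun e =>
        (hf.cont.sub ((hFc e).mul hf.cont)).aestronglyMeasurable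
    · filter_upwards [self_mem_nhdsWithin] with e he
      refine Eventually.of_forall fun z => ?_
      have h1 := hbd e he z
      rw [Real.norm_eq_abs, abs_of_nonneg h1.1]
      exact h1.2
  have L2 : Tendsto (fun e => ∫ z, (f z - F e z * f z) ^ 2) (𝓝[>] 0) (𝓝 0) := by
    have hf2 : Integrable (fun z => f z ^ 2) := hf.intSq
    have h := tendsto_integral_filter_of_dominated_convergence (μ := volume)
      (F := fun e z => (f z - F e z * f z) ^ 2) (f := fun _ => (0 : ℝ)) (l := 𝓝[>] (0 : ℝ))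
      (bound := fun z => f z ^ 2) ?_ ?_ hf2 ?_
    · simpa using h
    · exact Eventually.of_forall fun e =>
        ((hf.cont.sub ((hFc e).mul hf.cont)).pow 2).aestronglyMeasurable
    · filter_upwards [self_mem_nhdsWithin] with e he
      refine Eventually.of_forall fun z => ?_
      have h1 := hbd e he z
      rw [Real.norm_eq_abs, abs_of_nonneg (sq_nonneg _)]
      exact pow_le_pow_left₀ h1.1 h1.2 2
    · filter_upwards [hlim] with z hz
      have := hz.pow 2
      simpa using this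
  have hev := (L1.eventually (gt_mem_nhds hρ)).and (L2.eventually (gt_mem_nhds hρ))
  obtain ⟨e, ⟨e1, e2⟩, he⟩ := (hev.and self_mem_nhdsWithin).exists
  have he0 : 0 < e := he
  have hsm : Sm (fun z => of3 a b c e z - k0 a b c e z) := (sm_of3 a b c e).sub (sm_k0 a b c e)
  refine ⟨e, he0, fun z => k0 a b c e z * f z, fun z => (of3 a b c e z - k0 a b c e z) * f z, ?_,
    hf.mulSm (sm_k0 _ _ _ _), hf.mulSm hsm,
    fun z => mul_nonneg (k0_nonneg z) (hf0 z),
    fun z => mul_nonneg (sub_nonneg.2 (k0_le_of3 z)) (hf0 z),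
    fun z hz => ?_, ?_, ?_, ?_⟩
  · refine ⟨(sm_k0 _ _ _ _).mul hf.1, hf.2.1.mul_left, ?_⟩
    have hcl : IsClosed {z : ℝ × ℝ | a + e ≤ c1 z ∧ b + e ≤ c2 z ∧ c1 z + c2 z ≤ c - e} := by
      have q1 : Continuous c1 := sm_c1.continuous
      have q2 : Continuous c2 := sm_c2.continuous
      exact (isClosed_le continuous_const q1).inter ((isClosed_le continuous_const q2).inter
        (isClosed_le (q1.add q2) continuous_const))
    have hsub : tsupport (fun z => k0 a b c e z * f z) ⊆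
        {z : ℝ × ℝ | a + e ≤ c1 z ∧ b + e ≤ c2 z ∧ c1 z + c2 z ≤ c - e} := by
      refine closure_minimal ?_ hcl
      intro z hz
      obtain ⟨q1, q2, q3⟩ := pos_of_k0 he0 (left_ne_zero_of_mul hz)
      exact ⟨q1.le, q2.le, q3.le⟩
    intro z hz
    obtain ⟨q1, q2, q3⟩ := hsub hz
    exact ⟨by linarith, by linarith, by linarith⟩
  · have h1 := left_ne_zero_of_mul hz
    have h2 : ¬ (a < c1 z ∧ b < c2 z ∧ c1 z + c2 z < c) := fun h => h1 (by
      rw [k0_eq_of3 he0 h, sub_self])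
    have h3 : of3 a b c e z ≠ 0 := by
      intro h3
      have h4 := k0_le_of3 (a := a) (b := b) (c := c) (e := e) z
      have h5 := k0_nonneg (a := a) (b := b) (c := c) (e := e) z
      exact h1 (by linarith)
    unfold of3 at h3
    refine ⟨oc_pos he0 (left_ne_zero_of_mul (left_ne_zero_of_mul h3)),
      oc_pos he0 (right_ne_zero_of_mul (left_ne_zero_of_mul h3)), ?_, h2⟩
    have := oc_pos he0 (right_ne_zero_of_mul h3)
    rwa [abs_sub_comm] at this
  · intro z
    have h1 : of3 a b c e z ≤ 1 := of3_le he0 z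
    have h3 := hf0 z
    have h4 : of3 a b c e z * f z ≤ 1 * f z := mul_le_mul_of_nonneg_right h1 h3
    calc _ = of3 a b c e z * f z := by ring
      _ ≤ f z := by linarith
  · refine le_trans (le_of_eq ?_) e2.le
    congr 1
    funext z
    simp only [hF]
    ring
  · refine le_trans (le_of_eq ?_) e1.le
    congr 1
    funext z
    simp only [hF]
    ring

end Vale.Agent.P153.R2.SDAR
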