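import Vale.Agent.P153.R2.SDAR.Geo
import Vale.Agent.P153.R2.SDAR.Cells

/-!
P153-R2, block SDAR (helper506): geometry of the exact data of the open laws, algebra of the
observables.
-/

set_option autoImplicit false

namespace Vale.Agent.P153.R2.SDAR

open Filter Topology Set MeasureTheory
open Vale.Agent.P145.PT Vale.Agent.P153 Vale.Agent.P153.F Vale.Agent.P153.F.SD
open Vale.Agent.P153.F.Top (dp c1 c2)
open Vale.Agent.P153.Topo (Conn)

theorem c_zero : c1 (0 : ℝ × ℝ) = 0 ∧ c2 (0 : ℝ × ℝ) = 0 := by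
  unfold c1 c2; simp

theorem c_norm (z : ℝ × ℝ) : |c1 z| ≤ 2 * dist z 0 ∧ |c2 z| ≤ 2 * dist z 0 := by
  have h := F.X.Sdx.c_le z 0
  rwa [c_zero.1, c_zero.2, sub_zero, sub_zero] at h

/-- The pinwheel with corridors of width `w / 4` and radius `R`. -/
noncomputable def pwb (b : PW) (w R : ℝ) : PW := ⟨b.x0, b.y0, b.s0, w / 4, R⟩

/-- The thickened open triangle. -/
def tri (b : PW) (w : ℝ) : Set (ℝ × ℝ) :=
  {z | b.x0 - w / 2 < c1 z ∧ b.y0 - w / 2 < c2 z ∧ c1 z + c2 z < b.s0 + w / 2}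

theorem tri_open (b : PW) (w : ℝ) : IsOpen (tri b w) :=
  cell_isOpen (b.x0 - w / 2) (b.y0 - w / 2) (b.s0 + w / 2)

theorem tcell_tri {b : PW} {w : ℝ} (hw : 0 < w) : tcell b 0 ⊆ tri b w := by
  rintro z ⟨h1, h2, h3⟩
  exact ⟨by linarith, by linarith, by linarith⟩

variable {b : PW} {δ w Rp R : ℝ} {U : Set Pt}

theorem pin_tri (hw : 0 < w) (hU : ov δ (tcell b w) ⊆ U) {x : Pt} (hx : x ∉ U) :
    Disjoint (Metric.closedBall (dp δ x) (w / 8)) (tri b w) := by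
  rw [Set.disjoint_left]
  rintro z hz ⟨h1, h2, h3⟩
  apply hx
  apply hU
  rw [Metric.mem_closedBall] at hz
  obtain ⟨a1, a2⟩ := F.X.Sdx.c_le z (dp δ x)
  rw [abs_le] at a1 a2
  exact ⟨by linarith, by linarith, by linarith⟩

theorem pin_arm (hw : 0 < w) (hU : ov δ (tcell b w) ⊆ U) (hR : 2 * Rp + w ≤ R) {x : Pt}
    (hx : x ∈ pin b δ w Rp U) :
    Metric.closedBall (dp δ x) (w / 8) ⊆ (pwb b w R).K1 ∨
      Metric.closedBall (dp δ x) (w / 8) ⊆ (pwb b w R).K2 ∨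
      Metric.closedBall (dp δ x) (w / 8) ⊆ (pwb b w R).K3 := by
  obtain ⟨hb, hxU, hxc⟩ := hx
  rw [Metric.mem_closedBall] at hb
  obtain ⟨n1, n2⟩ := c_norm (dp δ x)
  have bd : ∀ z ∈ Metric.closedBall (dp δ x) (w / 8), (|c1 z| ≤ R ∧ |c2 z| ≤ R) ∧
      (|c1 z - c1 (dp δ x)| ≤ w / 4 ∧ |c2 z - c2 (dp δ x)| ≤ w / 4) := by
    intro z hz
    rw [Metric.mem_closedBall] at hz
    obtain ⟨a1, a2⟩ := F.X.Sdx.c_le z (dp δ x)
    have e1 : c1 z = c1 (dp δ x) + (c1 z - c1 (dp δ x)) := by ring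
    have e2 : c2 z = c2 (dp δ x) + (c2 z - c2 (dp δ x)) := by ring
    refine ⟨⟨?_, ?_⟩, by linarith, by linarith⟩
    · rw [e1]; exact (abs_add_le _ _).trans (by linarith)
    · rw [e2]; exact (abs_add_le _ _).trans (by linarith)
  have ht : ¬ (b.x0 - w ≤ c1 (dp δ x) ∧ b.y0 - w ≤ c2 (dp δ x) ∧
      c1 (dp δ x) + c2 (dp δ x) ≤ b.s0 + w) := fun h => hxU (hU h)
  have hc0 : ¬ (|c1 (dp δ x) - b.x0| ≤ w ∧ b.s0 - b.x0 ≤ c2 (dp δ x)) := fun h =>
    hxc ⟨0, by rw [ts0, t00]; exact h.1, by rw [ls0, l00]; exact h.2⟩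
  have hc1 : ¬ (|c1 (dp δ x) - b.x0| ≤ w ∧ c2 (dp δ x) ≤ b.y0) := fun h =>
    hxc ⟨1, by
      rw [ts1, t01, show -c1 (dp δ x) - -b.x0 = -(c1 (dp δ x) - b.x0) by ring, abs_neg]
      exact h.1, by rw [ls1, l01]; linarith [h.2]⟩
  have hc2 : ¬ (|c1 (dp δ x) + c2 (dp δ x) - b.s0| ≤ w ∧ c2 (dp δ x) ≤ b.y0) := fun h =>
    hxc ⟨2, by rw [ts2, t02]; exact h.1, by rw [ls2, l02]; linarith [h.2]⟩
  set u := c1 (dp δ x) with hu
  set v := c2 (dp δ x) with hv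
  rcases lt_or_ge u (b.x0 - w) with h1 | h1
  · left
    intro z hz
    obtain ⟨h3, h4, h5⟩ := bd z hz
    rw [abs_le] at h4
    exact ⟨by simp only [pwb]; linarith, h3.1, h3.2⟩
  rcases le_or_gt u (b.x0 + w) with h2 | h2
  · exfalso
    have h3 : |u - b.x0| ≤ w := abs_le.2 ⟨by linarith, by linarith⟩
    have h4 : v < b.s0 - b.x0 := by
      by_contra hc; exact hc0 ⟨h3, not_lt.1 hc⟩
    have h5 : b.y0 < v := by
      by_contra hc; exact hc1 ⟨h3, not_lt.1 hc⟩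
    exact ht ⟨h1, by linarith, by linarith⟩
  rcases lt_or_ge (b.s0 + w) (u + v) with h3 | h3
  · right; left
    intro z hz
    obtain ⟨h4, h5, h6⟩ := bd z hz
    rw [abs_le] at h5 h6
    exact ⟨by simp only [pwb]; linarith, by simp only [pwb]; linarith, h4.1, h4.2⟩
  · right; right
    have h4 : v ≤ b.y0 := by
      by_contra hc
      push Not at hc
      exact ht ⟨h1, by linarith, h3⟩
    have h5 : u + v < b.s0 - w := by
      by_contra hc
      push Not at hc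
      exact hc2 ⟨abs_le.2 ⟨by linarith, by linarith⟩, h4⟩
    have h6 : v < b.y0 - w := by
      by_contra hc
      push Not at hc
      exact ht ⟨h1, hc, h3⟩
    intro z hz
    obtain ⟨h7, h8, h9⟩ := bd z hz
    rw [abs_le] at h8 h9
    exact ⟨by simp only [pwb]; linarith, by simp only [pwb]; linarith,
      by simp only [pwb]; linarith, h7.1, h7.2⟩

/-- The centres of the far balls. -/
noncomputable def Qf (Λ : ℝ) (i : Fin 3) : ℝ × ℝ :=
  if i = 0 then F.X.Sdx.pc (-Λ) 0 else if i = 1 then F.X.Sdx.pc Λ Λ else F.X.Sdx.pc Λ (-(3 * Λ))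

theorem Qf0 (Λ : ℝ) : Qf Λ 0 = F.X.Sdx.pc (-Λ) 0 := by simp [Qf]
theorem Qf1 (Λ : ℝ) : Qf Λ 1 = F.X.Sdx.pc Λ Λ := by simp [Qf]
theorem Qf2 (Λ : ℝ) : Qf Λ 2 = F.X.Sdx.pc Λ (-(3 * Λ)) := by simp [Qf]

/-- `Λ` is large. -/
def Big (b : PW) (Rb w Λ : ℝ) : Prop := |b.x0| + |b.y0| + |b.s0| + 2 * |Rb| + 2 * w + 4 ≤ Λ

theorem Qf_coord {Λ ρ : ℝ} {z : ℝ × ℝ} {i : Fin 3} (hz : z ∈ Metric.closedBall (Qf Λ i) ρ) :
    |c1 z - c1 (Qf Λ i)| ≤ 2 * ρ ∧ |c2 z - c2 (Qf Λ i)| ≤ 2 * ρ := by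
  rw [Metric.mem_closedBall] at hz
  obtain ⟨h1, h2⟩ := F.X.Sdx.c_le z (Qf Λ i)
  exact ⟨by linarith, by linarith⟩

theorem Qf_arm {Rb Λ ρ : ℝ} (hw : 0 < w) (hΛ : Big b Rb w Λ) (hρ : ρ ≤ 1) (hR : 4 * Λ ≤ R) :
    Metric.closedBall (Qf Λ 0) ρ ⊆ (pwb b w R).K1 ∧
      Metric.closedBall (Qf Λ 1) ρ ⊆ (pwb b w R).K2 ∧
      Metric.closedBall (Qf Λ 2) ρ ⊆ (pwb b w R).K3 := by
  unfold Big at hΛ
  have a1 := abs_nonneg b.x0
  have a2 := abs_nonneg b.y0
  have a3 := abs_nonneg b.s0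
  have a4 := abs_nonneg Rb
  have e1 := le_abs_self b.x0
  have e1' := neg_abs_le b.x0
  have e2 := le_abs_self b.y0
  have e2' := neg_abs_le b.y0
  have e3 := le_abs_self b.s0
  have e3' := neg_abs_le b.s0
  refine ⟨fun z hz => ?_, fun z hz => ?_, fun z hz => ?_⟩
  · obtain ⟨h1, h2⟩ := Qf_coord hz
    rw [Qf0, F.X.Sdx.c1_pc, abs_le] at h1
    rw [Qf0, F.X.Sdx.c2_pc, abs_le] at h2
    exact ⟨by simp only [pwb]; linarith, abs_le.2 ⟨by simp only [pwb]; linarith,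
      by simp only [pwb]; linarith⟩, abs_le.2 ⟨by simp only [pwb]; linarith,
      by simp only [pwb]; linarith⟩⟩
  · obtain ⟨h1, h2⟩ := Qf_coord hz
    rw [Qf1, F.X.Sdx.c1_pc, abs_le] at h1
    rw [Qf1, F.X.Sdx.c2_pc, abs_le] at h2
    exact ⟨by simp only [pwb]; linarith, by simp only [pwb]; linarith,
      abs_le.2 ⟨by simp only [pwb]; linarith, by simp only [pwb]; linarith⟩,
      abs_le.2 ⟨by simp only [pwb]; linarith, by simp only [pwb]; linarith⟩⟩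
  · obtain ⟨h1, h2⟩ := Qf_coord hz
    rw [Qf2, F.X.Sdx.c1_pc, abs_le] at h1
    rw [Qf2, F.X.Sdx.c2_pc, abs_le] at h2
    exact ⟨by simp only [pwb]; linarith, by simp only [pwb]; linarith,
      by simp only [pwb]; linarith,
      abs_le.2 ⟨by simp only [pwb]; linarith, by simp only [pwb]; linarith⟩,
      abs_le.2 ⟨by simp only [pwb]; linarith, by simp only [pwb]; linarith⟩⟩

theorem Qf_pin {Rb Λ ρ : ℝ} (hw : 0 < w) (hΛ : Big b Rb w Λ) (hρ : ρ ≤ 1) (hRp : 5 * Λ ≤ Rp)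
    (hU : ∀ x ∈ U, dp δ x ∈ Metric.ball (0 : ℝ × ℝ) Rb) (i : Fin 3) {x : Pt}
    (hx : dp δ x ∈ Metric.closedBall (Qf Λ i) ρ) : x ∈ pin b δ w Rp U := by
  unfold Big at hΛ
  have a1 := abs_nonneg b.x0
  have a2 := abs_nonneg b.y0
  have a3 := abs_nonneg b.s0
  have a4 := abs_nonneg Rb
  have e1 := le_abs_self b.x0
  have e1' := neg_abs_le b.x0
  have e2 := le_abs_self b.y0
  have e2' := neg_abs_le b.y0
  have e3 := le_abs_self b.s0
  have e3' := neg_abs_le b.s0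
  have e4 := le_abs_self Rb
  obtain ⟨h1, h2⟩ := Qf_coord hx
  have hd := dist_le_c (dp δ x) 0
  rw [c_zero.1, c_zero.2, sub_zero, sub_zero] at hd
  obtain ⟨n1, -⟩ := c_norm (dp δ x)
  have key : |c1 (dp δ x)| ≥ Λ - 2 ∧ |c1 (dp δ x)| + |c2 (dp δ x)| ≤ 5 * Λ ∧
      dp δ x ∉ corr b w := by
    set u := c1 (dp δ x) with hu
    set v := c2 (dp δ x) with hv
    have hcorr : ∀ (P : Prop), (|u - b.x0| ≤ w → False) → (|u + v - b.s0| ≤ w → False) →
        dp δ x ∉ corr b w := by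
      rintro - q1 q2 ⟨k, hk1, hk2⟩
      rcases fin3 k with rfl | rfl | rfl
      · rw [ts0, t00] at hk1; exact q1 hk1
      · rw [ts1, t01, show -c1 (dp δ x) - -b.x0 = -(c1 (dp δ x) - b.x0) by ring, abs_neg] at hk1
        exact q1 hk1
      · rw [ts2, t02] at hk1; exact q2 hk1
    rcases fin3 i with rfl | rfl | rfl
    · rw [Qf0, F.X.Sdx.c1_pc, abs_le] at h1
      rw [Qf0, F.X.Sdx.c2_pc, abs_le] at h2
      have hu0 : |u| = -u := abs_of_nonpos (by linarith)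
      have hv0 : |v| ≤ 2 := abs_le.2 ⟨by linarith, by linarith⟩
      refine ⟨by rw [hu0]; linarith, by rw [hu0]; linarith, hcorr True ?_ ?_⟩
      · intro h; rw [abs_le] at h; linarith [h.1]
      · intro h; rw [abs_le] at h; linarith [h.1]
    · rw [Qf1, F.X.Sdx.c1_pc, abs_le] at h1
      rw [Qf1, F.X.Sdx.c2_pc, abs_le] at h2
      have hu0 : |u| = u := abs_of_nonneg (by linarith)
      have hv0 : |v| = v := abs_of_nonneg (by linarith)
      refine ⟨by rw [hu0]; linarith, by rw [hu0, hv0]; linarith, hcorr True ?_ ?_⟩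
      · intro h; rw [abs_le] at h; linarith [h.2]
      · intro h; rw [abs_le] at h; linarith [h.2]
    · rw [Qf2, F.X.Sdx.c1_pc, abs_le] at h1
      rw [Qf2, F.X.Sdx.c2_pc, abs_le] at h2
      have hu0 : |u| = u := abs_of_nonneg (by linarith)
      have hv0 : |v| = -v := abs_of_nonpos (by linarith)
      refine ⟨by rw [hu0]; linarith, by rw [hu0, hv0]; linarith, hcorr True ?_ ?_⟩
      · intro h; rw [abs_le] at h; linarith [h.2]
      · intro h; rw [abs_le] at h; linarith [h.1]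
  refine ⟨?_, fun hxU => ?_, key.2.2⟩
  · rw [Metric.mem_closedBall]
    linarith [key.2.1]
  · have h3 := hU x hxU
    rw [Metric.mem_ball] at h3
    linarith [key.1]

/-- The test function `g` lives in the arms. -/
theorem off_arm {e Rb : ℝ} (he : 0 < e) (hwe : w / 4 ≤ e) (hR : 2 * Rb ≤ R)
    {z : ℝ × ℝ} (hz : z ∈ Off b.x0 b.y0 b.s0 e) (hzb : z ∈ Metric.ball (0 : ℝ × ℝ) Rb) :
    z ∈ (pwb b w R).K1 ∨ z ∈ (pwb b w R).K2 ∨ z ∈ (pwb b w R).K3 := by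
  obtain ⟨h1, h2, h3, h4⟩ := hz
  rw [Metric.mem_ball] at hzb
  obtain ⟨n1, n2⟩ := c_norm z
  have b1 : |c1 z| ≤ R := by linarith
  have b2 : |c2 z| ≤ R := by linarith
  rw [lt_abs] at h1 h2 h3
  rcases h1 with h1 | h1
  · rcases h3 with h3 | h3
    · right; left
      exact ⟨by simp only [pwb]; linarith, by simp only [pwb]; linarith [abs_nonneg (c1 z)], b1, b2⟩
    · right; right
      rcases h2 with h2 | h2
      · exact absurd ⟨by linarith, by linarith, by linarith⟩ h4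
      · exact ⟨by simp only [pwb]; linarith, by simp only [pwb]; linarith,
          by simp only [pwb]; linarith, b1, b2⟩
  · left
    exact ⟨by simp only [pwb]; linarith, b1, b2⟩

end Vale.Agent.P153.R2.SDAR
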