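import Vale.Agent.P153.R2.GAPS.MomT
import Vale.Agent.P153.R2.GAPS.Gibbs

/-!
P153-R2, block SDAR (helper506): cylinders of bounded data have positive mass.
-/

set_option autoImplicit false

namespace Vale.Agent.P153.R2.SDAR

open Filter Topology Set MeasureTheory
open Vale.Agent.P153 Vale.Agent.P153.F Vale.Agent.P153.F.Gh Vale.Agent.P153.F.X Vale.Agent.P153.F.X.LE
open Vale.Agent.P153.Topo (Conn)
open Vale.Agent.P153.R2.Gp

variable {P : Measure (Pt → ℤ)}

theorem Ex_pos {α : Type*} {S : Set α} (hS : S.Finite) {F : α → ℝ} (h0 : ∀ a ∈ S, 0 ≤ F a)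
    {a : α} (ha : a ∈ S) (hF : 0 < F a) : 0 < Ex S F := by
  rw [Ex_eq_ev hS]
  unfold ev
  have hc : (0 : ℝ) < hS.toFinset.card := by
    exact_mod_cast Finset.card_pos.2 ⟨a, hS.mem_toFinset.2 ha⟩
  refine div_pos ?_ hc
  exact Finset.sum_pos' (fun b hb => h0 b (hS.mem_toFinset.1 hb)) ⟨a, hS.mem_toFinset.2 ha, hF⟩

/-- Interpolation between the data `η` and the height `1`. -/
def ipl (η : Hg) (v : Pt → ℤ) : Hg := fun x => max (min (η x) (1 + 2 * v x)) (1 - 2 * v x)

theorem ipl_lip {η : Hg} (hη : Lip η) {v : Pt → ℤ} (hv : ∀ x y, Adj x y → |v x - v y| ≤ 1) :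
    Lip (ipl η v) := by
  refine ⟨fun x => ?_, fun x y hxy => ?_⟩
  · have h1 : Odd (1 + 2 * v x) := ⟨v x, by ring⟩
    have h2 : Odd (1 - 2 * v x) := ⟨-v x, by ring⟩
    unfold ipl
    rcases max_choice (min (η x) (1 + 2 * v x)) (1 - 2 * v x) with h | h <;> rw [h]
    · rcases min_choice (η x) (1 + 2 * v x) with h' | h' <;> rw [h']
      · exact hη.1 x
      · exact h1
    · exact h2
  · have h1 := abs_le.1 (hη.2 x y hxy)
    have h2 := abs_le.1 (hv x y hxy)
    unfold ipl
    rw [abs_le]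
    omega

theorem gS_nonneg (S : Finset Pt) (η h : Hg) : 0 ≤ gS S η h := by
  unfold gS
  split_ifs <;> norm_num

theorem gS_locF (S : Finset Pt) (η : Hg) : LocF (gS S η) := ⟨S, fun h h' hh => by
  unfold gS
  have : (∀ x ∈ S, h x = η x) ↔ ∀ x ∈ S, h' x = η x :=
    forall₂_congr fun x hx => by rw [hh x hx]
  simp only [this]⟩

/-- The sup norm. -/
def nm (x : Pt) : ℤ := max |x.1| |x.2|

theorem nm_adj {x y : Pt} (hxy : Adj x y) : |nm x - nm y| ≤ 1 := by
  have h := Topo.adj_iff.1 hxy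
  have h1 : |(|x.1| - |y.1|)| ≤ |x.1 - y.1| := abs_abs_sub_abs_le _ _
  have h2 : |(|x.2| - |y.2|)| ≤ |x.2 - y.2| := abs_abs_sub_abs_le _ _
  have h3 : |x.1 - y.1| ≤ 1 := by rw [abs_le]; omega
  have h4 : |x.2 - y.2| ≤ 1 := by rw [abs_le]; omega
  have h5 := abs_le.1 (h1.trans h3)
  have h6 := abs_le.1 (h2.trans h4)
  unfold nm
  rw [abs_le]
  omega

theorem mem_bL_iff {L : ℕ} {x : Pt} : x ∈ bL L ↔ nm x ≤ L := by
  rw [mem_bL, nm, max_le_iff, abs_le, abs_le]

/-- The cutoff of the interpolation. -/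
def vcut (L₁ M : ℕ) (x : Pt) : ℤ := max 0 (min (M + 1) (L₁ + M + 1 - nm x))

theorem vcut_lip (L₁ M : ℕ) {x y : Pt} (hxy : Adj x y) :
    |vcut L₁ M x - vcut L₁ M y| ≤ 1 := by
  have h := abs_le.1 (nm_adj hxy)
  unfold vcut
  rw [abs_le]
  omega

theorem ipl_in {M L₁ : ℕ} {η : Hg} (hη : ∀ x, |η x| ≤ 2 * M + 1) {x : Pt} (hx : x ∈ bL L₁) :
    ipl η (vcut L₁ M) x = η x := by
  have h1 := mem_bL_iff.1 hx
  have h3 := abs_le.1 (hη x)
  unfold ipl vcut
  omega

theorem ipl_out {M L₁ : ℕ} {η : Hg} {x : Pt} (hx : (L₁ : ℤ) + M + 1 ≤ nm x) :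
    ipl η (vcut L₁ M) x = 1 := by
  unfold ipl vcut
  omega

/-- Cylinders of bounded Lipschitz data have positive mass. -/
theorem pos_gS (hP : GFF.Plane P) (hR : S_rsw P) (hF : S_conf) {M : ℕ} {η : Hg} (hη : Bd M η)
    {S : Finset Pt} (hS : S.Nonempty) : 0 < ∫ h, gS S η h ∂(muT P) := by
  classical
  obtain ⟨L₁, hL₁⟩ := exists_bL S
  set L : ℕ := L₁ + M + 2 with hL
  set V : Finset Pt := bL L with hV
  set B : Finset Pt := bL (L + 1) \ V with hB
  set ξ : Hg := ipl η (vcut L₁ M) with hξ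
  have hξl : Lip ξ := ipl_lip hη.1 fun x y => vcut_lip L₁ M
  have hξS : ∀ x ∈ S, ξ x = η x := fun x hx => ipl_in hη.2 (hL₁ hx)
  have hξ1 : ∀ x, (L₁ : ℤ) + M + 1 ≤ nm x → ξ x = 1 := fun x hx => ipl_out hx
  set A : Set Hg := Cyl B fun _ => 1 with hA
  have hSV : ∀ x ∈ S, x ∈ V := fun x hx => by
    have h1 := mem_bL_iff.1 (hL₁ hx)
    rw [hV, mem_bL_iff]
    omega
  have hAd : DepS (L + 1) A := by
    intro h h' hh
    have hBs : ∀ x ∈ B, x ∈ bL (L + 1) := fun x hx => (Finset.mem_sdiff.1 hx).1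
    constructor
    · intro h1 x hx
      rw [← hh x (hBs x hx)]
      exact h1 x hx
    · intro h1 x hx
      rw [hh x (hBs x hx)]
      exact h1 x hx
  have hx0 : (((L + 1 : ℕ) : ℤ), (0 : ℤ)) ∈ B := by
    rw [hB, Finset.mem_sdiff, hV, mem_bL, mem_bL]
    push_cast
    constructor
    · omega
    · omega
  have hAp : PinB (L + 1) 1 A := fun h hh _ =>
    ⟨_, (Finset.mem_sdiff.1 hx0).1, by rw [hh _ hx0]; simp⟩
  have hAV : ∀ a b : Hg, (∀ x, x ∉ V → a x = b x) → (a ∈ A ↔ b ∈ A) := by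
    intro a b hab
    constructor
    · intro h1 x hx
      rw [← hab x (Finset.mem_sdiff.1 hx).2]
      exact h1 x hx
    · intro h1 x hx
      rw [hab x (Finset.mem_sdiff.1 hx).2]
      exact h1 x hx
  have hloc : LocF (gS S η) := gS_locF S η
  have hμA : 0 < muT P A := by
    refine lt_of_lt_of_le (cyl_one_pos hP hR hF (bL (L + 1))) (measure_mono ?_)
    intro h hh x hx
    exact hh x (Finset.mem_sdiff.1 hx).1
  -- the conditional probabilities are positive
  have key : ∀ ω ∈ A, Lip ω → 0 < Ex (Cfg (V : Set Pt) (exa V ω)) (gS S η) := by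
    intro ω hω hωl
    have hfin : (Cfg (V : Set Pt) (exa V ω)).Finite := by
      rw [cfg_exa_eq hωl]
      exact Finset.finite_toSet _
    set h' : Hg := fun x => if x ∈ V then ξ x else ω x with hh'
    have hin : ∀ x, x ∈ V → h' x = ξ x := fun x hx => if_pos hx
    have hout : ∀ x, x ∉ V → h' x = ω x := fun x hx => if_neg hx
    have hcross : ∀ x y, x ∈ V → y ∉ V → Adj x y → |ξ x - ω y| ≤ 2 := by
      intro x y hx hy hxy
      have h1 := abs_le.1 (nm_adj hxy)
      rw [hV, mem_bL_iff] at hx hy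
      have hyB : y ∈ B := by
        rw [hB, Finset.mem_sdiff, hV, mem_bL_iff, mem_bL_iff]
        constructor
        · push_cast
          omega
        · exact hy
      rw [hω y hyB, hξ1 x (by omega)]
      norm_num
    have hlip : Lip h' := by
      refine ⟨fun x => ?_, fun x y hxy => ?_⟩
      · by_cases hx : x ∈ V
        · rw [hin x hx]; exact hξl.1 x
        · rw [hout x hx]; exact hωl.1 x
      · by_cases hx : x ∈ V
        · by_cases hy : y ∈ V
          · rw [hin x hx, hin y hy]; exact hξl.2 x y hxy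
          · rw [hin x hx, hout y hy]; exact hcross x y hx hy hxy
        · by_cases hy : y ∈ V
          · rw [hout x hx, hin y hy, abs_sub_comm]
            exact hcross y x hy hx (Topo.adj_symm hxy)
          · rw [hout x hx, hout y hy]; exact hωl.2 x y hxy
    refine Ex_pos hfin (fun h _ => gS_nonneg S η h) (a := h')
      ((mem_cfg_exa hωl).2 ⟨hlip, fun x hx => hout x (by simpa using hx)⟩) ?_
    unfold gS
    rw [if_pos fun x hx => by rw [hin x (hSV x hx), hξS x hx]]
    exact one_pos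
  have hint1 : Integrable (fun h => gS S η h) (muT P) := by
    have := gS_integrable hP hS η (G := fun _ => (1 : ℝ)) ⟨∅, fun _ _ _ => rfl⟩
    simpa using this
  have h1 : 0 < ∫ ω in A, Ex (Cfg (V : Set Pt) (exa V ω)) (gS S η) ∂(muT P) := by
    have hio := integrableOn_Ex (V := V) hP hAd hAp hloc
    rw [integral_pos_iff_support_of_nonneg_ae (Eventually.of_forall fun ω =>
      Ex_nonneg fun h _ => gS_nonneg S η h) hio]
    have hlipae : ∀ᵐ ω ∂(muT P), Lip ω := (gb_of_plane hP).lip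
    have h2 : (muT P).restrict A A ≤ (muT P).restrict A
        (Function.support fun ω => Ex (Cfg (V : Set Pt) (exa V ω)) (gS S η)) := by
      refine measure_mono_ae ?_
      filter_upwards [ae_restrict_of_ae hlipae] with ω hω hωA
      exact (key ω hωA hω).ne'
    rw [Measure.restrict_apply_self] at h2
    exact lt_of_lt_of_le hμA h2
  rw [← dlr_Ex hP hAd hAp hAV hloc] at h1
  exact lt_of_lt_of_le h1 (setIntegral_le_integral hint1 (Eventually.of_forall fun h =>
    gS_nonneg S η h))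

end Vale.Agent.P153.R2.SDAR
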