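import Vale.Agent.P153.R2.SDAR.Alg
import Vale.Agent.P153.R2.SDAR.Pin
import Vale.Agent.P153.R2.SDAR.Pos

/-!
P153-R2, block SDAR (helper506): the Schwinger-Dyson equations for the closed laws of the explored
domains, from those of the open laws.
-/

set_option autoImplicit false

namespace Vale.Agent.P153.R2.SDAR

open Filter Topology Set MeasureTheory
open Vale.Agent.P145.PT Vale.Agent.P153 Vale.Agent.P153.F Vale.Agent.P153.F.SD
open Vale.Agent.P153.F.Top (dp c1 c2 lat_finite)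
open Vale.Agent.P153.Topo (Conn)

/-- The data of a cell problem: `lap ψ = p - m`, `f0` in the cell, `g` in the arms. -/
structure CP (b : PW) (Rb e : ℝ) (C : Set (ℝ × ℝ)) (ψ p m f0 g : ℝ × ℝ → ℝ) : Prop where
  hb : b.x0 + b.y0 < b.s0
  he : 0 < e
  cpt : IsCompact C
  Cb : C ⊆ Metric.ball (0 : ℝ × ℝ) Rb
  tψ : TestOn b.box ψ
  tp : TestOn univ p
  tm : TestOn univ m
  tf : TestOn b.box f0
  tg : TestOn univ g
  pC : tsupport p ⊆ C
  mC : tsupport m ⊆ C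
  fC0 : tsupport f0 ⊆ C
  gC : tsupport g ⊆ C
  p0 : ∀ z, 0 ≤ p z
  m0 : ∀ z, 0 ≤ m z
  f00 : ∀ z, 0 ≤ f0 z
  g0 : ∀ z, 0 ≤ g z
  hlap : ∀ z, lap ψ z = p z - m z
  off : ∀ z, g z ≠ 0 → z ∈ Off b.x0 b.y0 b.s0 e

variable {b : PW} {Rb e : ℝ} {C : Set (ℝ × ℝ)} {ψ p m f0 g : ℝ × ℝ → ℝ}

theorem CP.f (h : CP b Rb e C ψ p m f0 g) : TestOn univ (fun z => f0 z + g z) :=
  (TestOn.un h.tf).add h.tg

theorem CP.fC (h : CP b Rb e C ψ p m f0 g) : tsupport (fun z => f0 z + g z) ⊆ C :=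
  (tsupport_add f0 g).trans (union_subset h.fC0 h.gC)

/-- The three lists of observables. -/
def l1 (p f0 g : ℝ × ℝ → ℝ) (j : ℕ) : List (ℝ × ℝ → ℝ) :=
  p :: List.replicate j (fun z => f0 z + g z)
def l3 (f0 g : ℝ × ℝ → ℝ) (j : ℕ) : List (ℝ × ℝ → ℝ) :=
  List.replicate (j - 1) (fun z => f0 z + g z)

theorem CP.NT1 (h : CP b Rb e C ψ p m f0 g) (j : ℕ) : NT C (l1 p f0 g j) := by
  intro q hq
  rw [l1, List.mem_cons, List.mem_replicate] at hq
  rcases hq with rfl | ⟨-, rfl⟩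
  · exact ⟨h.tp.1, h.tp.2.1, h.pC, h.p0⟩
  · exact ⟨h.f.1, h.f.2.1, h.fC, fun z => add_nonneg (h.f00 z) (h.g0 z)⟩

theorem CP.NT2 (h : CP b Rb e C ψ p m f0 g) (j : ℕ) : NT C (l1 m f0 g j) := by
  intro q hq
  rw [l1, List.mem_cons, List.mem_replicate] at hq
  rcases hq with rfl | ⟨-, rfl⟩
  · exact ⟨h.tm.1, h.tm.2.1, h.mC, h.m0⟩
  · exact ⟨h.f.1, h.f.2.1, h.fC, fun z => add_nonneg (h.f00 z) (h.g0 z)⟩

theorem CP.NT3 (h : CP b Rb e C ψ p m f0 g) (j : ℕ) : NT C (l3 f0 g j) := by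
  intro q hq
  rw [l3, List.mem_replicate] at hq
  obtain ⟨-, rfl⟩ := hq
  exact ⟨h.f.1, h.f.2.1, h.fC, fun z => add_nonneg (h.f00 z) (h.g0 z)⟩

theorem nt_mon {K K' : Set (ℝ × ℝ)} (hK : K ⊆ K') {l : List (ℝ × ℝ → ℝ)} (h : NT K l) :
    NT K' l := fun f hf => ⟨(h f hf).1, (h f hf).2.1, (h f hf).2.2.1.trans hK, (h f hf).2.2.2⟩

theorem FF_locF (δ : ℝ) (l : List (ℝ × ℝ → ℝ)) : Gp.LocF (FF δ l) := by
  classical
  induction l with
  | nil => exact ⟨∅, fun _ _ _ => rfl⟩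
  | cons f l ih =>
    obtain ⟨Λ, hΛ⟩ := ih
    obtain ⟨Λ', hΛ'⟩ := Gp.lf_loc δ f fun x => x
    refine ⟨Λ ∪ Λ', fun h h' hh => ?_⟩
    have h1 : Lf δ f h = Lf δ f h' := hΛ' h h' fun x hx => hh x (Finset.mem_union_right _ hx)
    rw [FF_cons, FF_cons, hΛ h h' fun x hx => hh x (Finset.mem_union_left _ hx), h1]

theorem abs_comb {x1 x2 x3 y1 y2 y3 c a G ε E : ℝ} (hE : x1 - x2 + c * x3 = E)
    (h1 : |x1 - y1 * G| ≤ ε * G) (h2 : |x2 - y2 * G| ≤ ε * G) (h3 : |x3 - y3 * G| ≤ ε * G)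
    (h4 : |E| ≤ ε * G) (ha : a = (y1 - y2 + c * y3)) (hG : 0 < G) : |a| ≤ (3 + |c|) * ε := by
  have e1 : a * G = E - (x1 - y1 * G) + (x2 - y2 * G) - c * (x3 - y3 * G) := by
    rw [ha, ← hE]; ring
  have h5 : |a * G| ≤ ε * G + ε * G + ε * G + |c| * (ε * G) := by
    rw [e1]
    refine (abs_sub _ _).trans (add_le_add ?_ ?_)
    · refine (abs_add_le _ _).trans (add_le_add ?_ h2)
      exact (abs_sub _ _).trans (add_le_add h4 h1)
    · rw [abs_mul]
      exact mul_le_mul_of_nonneg_left h3 (abs_nonneg _)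
  rw [abs_mul, abs_of_pos hG] at h5
  have h6 : |a| * G ≤ ((3 + |c|) * ε) * G := by
    calc |a| * G ≤ _ := h5
      _ = _ := by ring
  exact le_of_mul_le_mul_right h6 hG

theorem int_comb {μ : Measure Fld} {F1 F2 F3 : Hg → ℝ} (h1 : Integrable F1 μ)
    (h2 : Integrable F2 μ) (h3 : Integrable F3 μ) (c : ℝ) :
    (∫ h, F1 h ∂μ) - (∫ h, F2 h ∂μ) + c * (∫ h, F3 h ∂μ) =
      ∫ h, (F1 h - F2 h + c * F3 h) ∂μ := by
  have h4 : Integrable (fun h => c * F3 h) μ := h3.const_mul c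
  rw [integral_add (f := fun h => F1 h - F2 h) (h1.sub h2) h4, integral_sub h1 h2,
    integral_const_mul]

variable {κ : ℝ} {P : Measure Fld}

/-- The Schwinger-Dyson equations for the closed laws with flat windows. -/
theorem closed_sd (hP : GFF.Plane P) (hR : X.S_rsw P) (hF : X.S_conf) (hg : S_gaps P)
    (hs : S_sdb κ P) (hcp : CP b Rb e C ψ p m f0 g) {K : Set (ℝ × ℝ)} (hK : Un K) (hCK : C ⊆ K)
    {r : ℝ} (hr : 0 < r) {lf : Fin 3 → ℝ} (hKr : ∀ i, Disjoint K (sbx i (t0 b i) (lf i) r))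
    (hlf : ∀ i, l0 b i + r < lf i) (M j : ℕ) {w₀ : ℝ} (hw₀ : 0 < w₀) {ε : ℝ} (hε : 0 < ε) :
    ∃ w : ℝ, 0 < w ∧ w ≤ w₀ ∧ ∃ δ₀ : ℝ, 0 < δ₀ ∧ ∀ δ : ℝ, 0 < δ → δ < δ₀ →
      ∀ (U : Set Pt) (η : Hg) (σ : Fin 3 → ℤ), Dmn δ Rb (K ∪ tcell b w) U → Bd M η →
      (∀ i, σ i = 1 ∨ σ i = -1) → (∀ i, Win b δ i (lf i) w r (σ i) U η) →
      (∀ i, Few U η (σ i) (ov δ (sbx i (t0 b i) (lf i) r))) →
      |Ex (Cfg U (exa U η)) (YJ κ δ ψ (fun z => f0 z + g z) j)| ≤ ε := by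
  classical
  have he := hcp.he
  set c : ℝ := κ * j * ∫ x, ψ x * (f0 x + g x) with hc
  set ε' : ℝ := ε / (3 + |c|) with hε'
  have hc0 : 0 < 3 + |c| := by positivity
  have hε'0 : 0 < ε' := by positivity
  have hKo : IsOpen K := by
    obtain ⟨k, D, hD, rfl⟩ := hK
    exact isOpen_iUnion fun i => (hD i).1
  obtain ⟨ρ₁, hρ₁, hρK⟩ := hcp.cpt.exists_thickening_subset_open hKo hCK
  -- the width
  obtain ⟨w, hw, hww, hgw⟩ := hg b K Rb r lf M [l1 p f0 g j, l1 m f0 g j, l3 f0 g j] hcp.hb hK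
    (by
      intro l hl
      simp only [List.mem_cons, List.not_mem_nil, or_false] at hl
      rcases hl with rfl | rfl | rfl
      · exact nt_mon hCK (hcp.NT1 j)
      · exact nt_mon hCK (hcp.NT2 j)
      · exact nt_mon hCK (hcp.NT3 j)) hr hKr hlf ε' hε'0 (min w₀ (4 * e)) (lt_min hw₀ (by linarith))
  refine ⟨w, hw, hww.trans (min_le_left _ _), ?_⟩
  have hwe : w / 4 ≤ e := by linarith [hww.trans (min_le_right w₀ (4 * e))]
  -- the far balls
  set Λ : ℝ := |b.x0| + |b.y0| + |b.s0| + 2 * |Rb| + 2 * w + 4 with hΛ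
  have hBig : Big b Rb w Λ := le_rfl
  have hΛ0 : 0 < Λ := by positivity
  set Rp : ℝ := 5 * Λ with hRp
  set R : ℝ := 2 * Rp + w with hRd
  have hRb1 : Rb + 1 ≤ Rp := by
    have a1 := abs_nonneg b.x0
    have a2 := abs_nonneg b.y0
    have a3 := abs_nonneg b.s0
    have a4 := le_abs_self Rb
    have a5 := abs_nonneg Rb
    rw [hRp, hΛ]; linarith
  obtain ⟨δ₁, hδ₁, hgd⟩ := hgw Rp hRb1
  set ρ : ℝ := min (w / 8) (min 1 (ρ₁ / 2)) with hρ
  have hρ0 : 0 < ρ := lt_min (by positivity) (lt_min one_pos (by positivity))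
  have hρw : ρ ≤ w / 8 := min_le_left _ _
  have hρ1 : ρ ≤ 1 := (min_le_right _ _).trans (min_le_left _ _)
  have hρ2 : ρ ≤ ρ₁ / 2 := (min_le_right _ _).trans (min_le_right _ _)
  set D : Set (ℝ × ℝ) := Metric.thickening (ρ₁ / 2) C ∪ tri b w with hD
  have hDo : IsOpen D := Metric.isOpen_thickening.union (tri_open b w)
  have hRΛ : 4 * Λ ≤ R := by rw [hRd, hRp]; linarith
  have hRbR : 2 * Rb ≤ R := by rw [hRd]; linarith
  obtain ⟨δ₂, hδ₂, hsd⟩ := hs (pwb b w R) hcp.hb (by show 0 < w / 4; positivity) D hDo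
    ((tcell_tri hw).trans subset_union_right) M ρ hρ0 (Qf Λ) ψ f0 g hcp.tψ hcp.tf
    (hcp.tg.1 |> fun h1 => ⟨h1, hcp.tg.2.1, hcp.gC.trans
      ((Metric.self_subset_thickening (by positivity) C).trans subset_union_left)⟩)
    (fun x hx => off_arm he hwe hRbR (hcp.off x hx) (hcp.Cb (hcp.gC (subset_tsupport _ hx))))
    j ε' hε'0
  refine ⟨min δ₁ (min δ₂ (ρ / 4)), lt_min hδ₁ (lt_min hδ₂ (by positivity)), fun δ hδ hδd U η σ hU hη hσ hwin hfew => ?_⟩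
  have hδ1 : δ < δ₁ := hδd.trans_le (min_le_left _ _)
  have hδ2 : δ < δ₂ := hδd.trans_le ((min_le_right _ _).trans (min_le_left _ _))
  have hδρ : δ < ρ / 4 := hδd.trans_le ((min_le_right _ _).trans (min_le_right _ _))
  have hfin : (pin b δ w Rp U).Finite := by
    refine (lat_finite hδ (Rp + 1)).subset fun x hx => ?_
    have := hx.1
    rw [Metric.mem_closedBall] at this
    show dp δ x ∈ Metric.ball 0 (Rp + 1)
    rw [Metric.mem_ball]
    linarith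
  set S : Finset Pt := hfin.toFinset with hS
  have hSc : (S : Set Pt) = pin b δ w Rp U := hfin.coe_toFinset
  have hmem : ∀ x, x ∈ S ↔ x ∈ pin b δ w Rp U := fun x => hfin.mem_toFinset
  have hUt : ov δ (tcell b w) ⊆ U := fun x hx => hU.sub (Or.inr hx)
  have hUK : ov δ K ⊆ U := fun x hx => hU.sub (Or.inl hx)
  have hfar : ∀ i x, dp δ x ∈ Metric.closedBall (Qf Λ i) ρ → x ∈ S := fun i x hx =>
    (hmem x).2 (Qf_pin hw hBig hρ1 le_rfl hU.bdd i hx)
  have hSne : S.Nonempty := by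
    obtain ⟨x, h1, h2, h3, h4⟩ := exists_vertex hδ 0 (ts 0 (Qf Λ 0)) (ls 0 (Qf Λ 0))
    refine ⟨x, hfar 0 x ?_⟩
    rw [Metric.mem_closedBall]
    refine (dist_le_tl 0 _ _).trans ?_
    rw [abs_of_nonneg (by linarith), abs_of_nonneg (by linarith)]
    linarith
  have hpos := pos_gS hP hR hF hη hSne
  have hgap := hgd δ hδ hδ1 U η σ S hU hη hσ hwin hfew hSc
  have hsd' := hsd δ hδ hδ2 S η hη
    (fun x hx => by
      have h1 : Metric.closedBall (dp δ x) ρ ⊆ Metric.closedBall (dp δ x) (w / 8) :=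
        Metric.closedBall_subset_closedBall hρw
      rcases pin_arm hw hUt le_rfl ((hmem x).1 hx) with h | h | h
      · exact Or.inl (h1.trans h)
      · exact Or.inr (Or.inl (h1.trans h))
      · exact Or.inr (Or.inr (h1.trans h)))
    (fun x hx => by
      have hxU : x ∉ U := ((hmem x).1 hx).2.1
      rw [hD]
      refine disjoint_union_right.2 ⟨?_, ?_⟩
      · rw [Set.disjoint_left]
        intro z hz hz'
        rw [Metric.mem_thickening_iff] at hz'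
        obtain ⟨y, hy, hzy⟩ := hz'
        rw [Metric.mem_closedBall] at hz
        apply hxU
        apply hUK
        apply hρK
        rw [Metric.mem_thickening_iff]
        refine ⟨y, hy, ?_⟩
        rw [dist_comm] at hz
        linarith [dist_triangle (dp δ x) z y]
      · exact (pin_tri hw hUt hxU).mono_left (Metric.closedBall_subset_closedBall hρw))
    (Qf_arm hw hBig hρ1 hRΛ) hfar
  have hI : ∀ l : List (ℝ × ℝ → ℝ), Integrable (fun h => FF δ l h * gS S η h) (muT P) := fun l =>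
    Gp.gS_integrable hP hSne η (FF_locF δ l)
  have hE : (∫ h, FF δ (l1 p f0 g j) h * gS S η h ∂(muT P)) -
      (∫ h, FF δ (l1 m f0 g j) h * gS S η h ∂(muT P)) +
      c * (∫ h, FF δ (l3 f0 g j) h * gS S η h ∂(muT P)) =
      ∫ h, YJ κ δ ψ (fun x => f0 x + g x) j h * gS S η h ∂(muT P) := by
    rw [int_comb (hI _) (hI _) (hI _)]
    congr 1
    funext h
    rw [YJ_eq hδ hcp.tp hcp.tm hcp.hlap j h]
    simp only [l1, l3]
    ring
  have hfinal := abs_comb hE (hgap _ (by simp)) (hgap _ (by simp)) (hgap _ (by simp)) hsd'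
    (Ex_YJ1 (κ := κ) hδ hcp.tp hcp.tm hcp.hlap j (f := fun x => f0 x + g x) (Cfg U (exa U η))) hpos
  refine hfinal.trans (le_of_eq ?_)
  rw [hε']
  field_simp

end Vale.Agent.P153.R2.SDAR
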