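import Vale.Agent.P153.R2.PLAN.Cut

/-!
# P153-R2, block SDAR (helper443): the graph `K_{3,3}` is not a minor of the triangular lattice
-/

namespace Vale.Agent.P153.R2.PLAN.K33

open Set Relation
open Vale.Agent.P153
open Vale.Agent.P153.Topo (Conn)
open Vale.Agent.P153.R2.PLAN

/-- Cochains. -/
abbrev Ch : Type := ℤ × ℤ → ℤ × ℤ → ZMod 2

/-- There is a path from `x` to `y` in `S`, `f c` is the sum of `c` along it. -/
inductive Pth (S : Set Pt) : Pt → Pt → (Ch → ZMod 2) → Prop
  | refl {x : Pt} (hx : x ∈ S) : Pth S x x (fun _ => 0)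
  | tail {x y z : Pt} {f : Ch → ZMod 2} (h : Pth S x y f) (hyz : Adj y z) (hz : z ∈ S) :
      Pth S x z (fun c => f c + c y z)

variable {S : Set Pt} {x y z : Pt} {f : Ch → ZMod 2} {c d : Ch}

theorem Pth.right (h : Pth S x y f) : y ∈ S := by
  cases h with
  | refl hx => exact hx
  | tail _ _ hz => exact hz

theorem Pth.of_conn (h : Conn S x y) : ∃ f, Pth S x y f := by
  obtain ⟨hx, h⟩ := h
  induction h with
  | refl => exact ⟨_, Pth.refl hx⟩
  | tail _ hbc ih =>
    obtain ⟨f, hf⟩ := ih
    exact ⟨_, Pth.tail hf hbc.1 hbc.2⟩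

theorem Pth.zero (h : Pth S x y f) (hc : ∀ u ∈ S, ∀ v ∈ S, c u v = 0) : f c = 0 := by
  induction h with
  | refl _ => rfl
  | tail h1 _ h3 ih =>
    show _ + _ = _
    rw [ih, hc _ h1.right _ h3, add_zero]

theorem Pth.pot (h : Pth S x y f) {U : Pt → ZMod 2}
    (hU : ∀ u v, Adj u v → c u v = U u + U v) : f c = U x + U y := by
  induction h with
  | refl _ => exact (z2 _).symm
  | @tail y' z' f' _ h2 _ ih =>
    show _ + _ = _
    rw [ih, hU _ _ h2]
    have := z2 (U y')
    linear_combination this

theorem Pth.add (h : Pth S x y f) : f (fun u v => c u v + d u v) = f c + f d := by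
  induction h with
  | refl _ => simp
  | tail _ _ _ ih =>
    show _ + _ = _ + _ + (_ + _)
    rw [ih]
    ring

/-! ### The hexagon around a vertex -/

/-- The neighbours of `p`, counterclockwise. -/
def n6 (p : Pt) : ℕ → Pt
  | 0 => (p.1 + 1, p.2)
  | 1 => (p.1, p.2 + 1)
  | 2 => (p.1 - 1, p.2 + 1)
  | 3 => (p.1 - 1, p.2)
  | 4 => (p.1, p.2 - 1)
  | _ => (p.1 + 1, p.2 - 1)

/-- The triangle between the neighbours `k` and `k + 1`. -/
def t6 (p : Pt) : ℕ → Tri
  | 0 => ((p.1, p.2), false)
  | 1 => ((p.1 - 1, p.2), true)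
  | 2 => ((p.1 - 1, p.2), false)
  | 3 => ((p.1 - 1, p.2 - 1), true)
  | 4 => ((p.1, p.2 - 1), false)
  | _ => ((p.1, p.2 - 1), true)

theorem exists_n6 {p q : Pt} (h : Adj p q) : ∃ k < 6, q = n6 p k := by
  obtain ⟨a, b⟩ := p
  obtain ⟨c, d⟩ := q
  rw [Topo.adj_iff] at h
  dsimp only at h
  rcases h with h | h | h | h | h | h
  · exact ⟨0, by norm_num, Prod.ext (by simp [n6]; omega) (by simp [n6]; omega)⟩
  · exact ⟨3, by norm_num, Prod.ext (by simp [n6]; omega) (by simp [n6]; omega)⟩
  · exact ⟨1, by norm_num, Prod.ext (by simp [n6]; omega) (by simp [n6]; omega)⟩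
  · exact ⟨4, by norm_num, Prod.ext (by simp [n6]; omega) (by simp [n6]; omega)⟩
  · exact ⟨5, by norm_num, Prod.ext (by simp [n6]; omega) (by simp [n6]; omega)⟩
  · exact ⟨2, by norm_num, Prod.ext (by simp [n6]; omega) (by simp [n6]; omega)⟩

theorem n6_inj {p : Pt} {k l : ℕ} (hk : k < 6) (hl : l < 6) (h : n6 p k = n6 p l) : k = l := by
  interval_cases k <;> interval_cases l <;> simp [n6] at h ⊢ <;> omega

theorem n6_ne {p : Pt} {k : ℕ} (hk : k < 6) : n6 p k ≠ p := by
  obtain ⟨a, b⟩ := p
  intro h
  interval_cases k <;> simp [n6] at h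

theorem n6_mem (p : Pt) {k : ℕ} (hk : k < 6) : n6 p k ∈ cor (t6 p k) := by
  obtain ⟨a, b⟩ := p
  interval_cases k <;> simp [n6, t6, cor_false, cor_true]

theorem ec_hor (i j : ℤ) (r : Tri) : tsum (ec s((i, j), (i + 1, j))) r =
    tind ((i, j), false) r + tind ((i, j - 1), true) r := by
  obtain ⟨⟨a, b⟩, c⟩ := r
  cases c
  · rw [tind_val, tind_zero (by decide), add_zero]
    simp only [tsum]
    rw [ec_val (P := a = i ∧ b = j) (by simp only [Prod.mk.injEq]; omega),
      ec_zero (by simp only [Prod.mk.injEq]; omega), ec_zero (by simp only [Prod.mk.injEq]; omega),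
      add_zero, add_zero]
  · rw [tind_val, tind_zero (by decide), zero_add]
    simp only [tsum]
    rw [ec_val (x := (a, b + 1)) (P := a = i ∧ b = j - 1) (by simp only [Prod.mk.injEq]; omega),
      ec_zero (by simp only [Prod.mk.injEq]; omega), ec_zero (by simp only [Prod.mk.injEq]; omega),
      zero_add, zero_add]

theorem ec_vert (i j : ℤ) (r : Tri) : tsum (ec s((i, j), (i, j + 1))) r =
    tind ((i, j), false) r + tind ((i - 1, j), true) r := by
  obtain ⟨⟨a, b⟩, c⟩ := r
  cases c
  · rw [tind_val, tind_zero (by decide), add_zero]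
    simp only [tsum]
    rw [ec_val (x := (a, b)) (y := (a, b + 1)) (P := a = i ∧ b = j)
        (by simp only [Prod.mk.injEq]; omega),
      ec_zero (by simp only [Prod.mk.injEq]; omega), ec_zero (by simp only [Prod.mk.injEq]; omega),
      zero_add, add_zero]
  · rw [tind_val, tind_zero (by decide), zero_add]
    simp only [tsum]
    rw [ec_val (x := (a + 1, b)) (y := (a + 1, b + 1)) (P := a = i - 1 ∧ b = j)
        (by simp only [Prod.mk.injEq]; omega),
      ec_zero (by simp only [Prod.mk.injEq]; omega), ec_zero (by simp only [Prod.mk.injEq]; omega),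
      zero_add, add_zero]

theorem ec_diag (i j : ℤ) (r : Tri) : tsum (ec s((i + 1, j), (i, j + 1))) r =
    tind ((i, j), false) r + tind ((i, j), true) r := by
  obtain ⟨⟨a, b⟩, c⟩ := r
  cases c
  · rw [tind_val, tind_zero (by decide), add_zero]
    simp only [tsum]
    rw [ec_val (x := (a + 1, b)) (P := a = i ∧ b = j)
        (by simp only [Prod.mk.injEq]; omega),
      ec_zero (by simp only [Prod.mk.injEq]; omega), ec_zero (by simp only [Prod.mk.injEq]; omega),
      zero_add, zero_add]
  · rw [tind_val, tind_zero (by decide), zero_add]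
    simp only [tsum]
    rw [ec_val (x := (a + 1, b)) (P := a = i ∧ b = j)
        (by simp only [Prod.mk.injEq]; omega),
      ec_zero (by simp only [Prod.mk.injEq]; omega), ec_zero (by simp only [Prod.mk.injEq]; omega),
      add_zero, add_zero]

theorem ec_n6 (p : Pt) {k : ℕ} (hk : k + 1 < 6) (r : Tri) :
    tsum (ec s(p, n6 p (k + 1))) r = tind (t6 p k) r + tind (t6 p (k + 1)) r := by
  obtain ⟨a, b⟩ := p
  have hk' : k < 5 := by omega
  clear hk
  interval_cases k
  · simpa [n6, t6] using ec_vert a b r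
  · have h := ec_diag (a - 1) b r
    rw [sub_add_cancel] at h
    simp only [n6, t6]
    rw [h, add_comm]
  · have h := ec_hor (a - 1) b r
    rw [sub_add_cancel, Sym2.eq_swap] at h
    simpa [n6, t6] using h
  · have h := ec_vert a (b - 1) r
    rw [sub_add_cancel, Sym2.eq_swap] at h
    simp only [n6, t6]
    rw [h, add_comm]
  · have h := ec_diag a (b - 1) r
    rw [sub_add_cancel, Sym2.eq_swap] at h
    simpa [n6, t6] using h

theorem ec_symm (e : Sym2 (ℤ × ℤ)) (x y : Pt) : ec e x y = ec e y x := by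
  unfold ec
  rw [Sym2.eq_swap]

/-- Turning around `p` from the triangle `0` to the triangle `k`. -/
theorem exists_turn (p : Pt) (k : ℕ) (hk : k < 6) : ∃ c : Ch, (∀ x y, c x y = c y x) ∧
    (∀ r, tsum c r = tind (t6 p 0) r + tind (t6 p k) r) ∧ (∀ x y, x ≠ p → y ≠ p → c x y = 0) ∧
    ∀ b < 6, c p (n6 p b) = if 1 ≤ b ∧ b ≤ k then 1 else 0 := by
  induction k with
  | zero =>
    refine ⟨fun _ _ => 0, fun _ _ => rfl, fun r => ?_, fun _ _ _ _ => rfl, fun b _ => ?_⟩
    · rw [z2]
      obtain ⟨⟨i, j⟩, b⟩ := r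
      cases b <;> simp [tsum]
    · rw [if_neg]; omega
  | succ k ih =>
    obtain ⟨c, h1, h2, h3, h4⟩ := ih (by omega)
    refine ⟨fun x y => c x y + ec s(p, n6 p (k + 1)) x y, fun x y => ?_, fun r => ?_,
      fun x y hx hy => ?_, fun b hb => ?_⟩
    · show c x y + _ = c y x + _
      rw [h1 x y, ec_symm]
    · rw [tsum_add, h2, ec_n6 p hk]
      have := z2 (tind (t6 p k) r)
      linear_combination this
    · show c x y + _ = 0
      rw [h3 x y hx hy, ec_zero, add_zero]
      rintro (h | h)
      · exact hx h.1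
      · exact hy h.2
    · show c p (n6 p b) + _ = _
      rw [h4 b hb]
      by_cases hbk : b = k + 1
      · subst hbk
        rw [if_neg (by omega), if_pos (by omega), zero_add]
        unfold ec
        rw [if_pos rfl]
      · rw [ec_zero, add_zero]
        · by_cases h5 : 1 ≤ b ∧ b ≤ k
          · rw [if_pos h5, if_pos (by omega)]
          · rw [if_neg h5, if_neg (by omega)]
        · rintro (h | h)
          · exact hbk (n6_inj hb hk h.2)
          · exact n6_ne hk h.1.symm

theorem tsum_cob (hc : ∀ x y, c x y = c y x) (h0 : ∀ r, tsum c r = 0) :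
    ∃ U : Pt → ZMod 2, ∀ x y, Adj x y → c x y = U x + U y :=
  exists_cob c hc (fun i j => h0 ((i, j), false)) (fun i j => h0 ((i, j), true))

/-- Closed loops do not see closed cochains. -/
theorem loop {S S' : Set Pt} {p q q' m : Pt} {f f' : Ch → ZMod 2} (hq : Adj p q) (hq' : Adj p q')
    (h : Pth S q m f) (h' : Pth S' q' m f') (hc : ∀ x y, c x y = c y x)
    (h0 : ∀ r, tsum c r = 0) : c p q + f c + (f' c + c p q') = 0 := by
  obtain ⟨U, hU⟩ := tsum_cob hc h0
  rw [h.pot hU, h'.pot hU, hU _ _ hq, hU _ _ hq']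
  have e1 := z2 (U p)
  have e2 := z2 (U q)
  have e3 := z2 (U q')
  have e4 := z2 (U m)
  linear_combination e1 + e2 + e3 + e4

/-- The configuration `K_{3,3}`. -/
structure K3 (P M Z : Set Pt) (C : Fin 3 → Set Pt) : Prop where
  cP : Cn P
  cM : Cn M
  cZ : Cn Z
  cC : ∀ i, Cn (C i)
  PM : Disjoint P M
  PZ : Disjoint P Z
  MZ : Disjoint M Z
  PC : ∀ i, Disjoint P (C i)
  MC : ∀ i, Disjoint M (C i)
  ZC : ∀ i, Disjoint Z (C i)
  CC : ∀ i j, i ≠ j → Disjoint (C i) (C j)
  aP : ∀ i, ∃ x ∈ C i, ∃ y ∈ P, Adj x y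
  aM : ∀ i, ∃ x ∈ C i, ∃ y ∈ M, Adj x y
  aZ : ∀ i, ∃ x ∈ C i, ∃ y ∈ Z, Adj x y

/-- One of the vertices of `K_{3,3}` is a vertex of the lattice. -/
theorem core {p : Pt} {M Z : Set Pt} {C : Fin 3 → Set Pt} (h : K3 {p} M Z C) : False := by
  have hpM : p ∉ M := fun hp => Set.disjoint_left.1 h.PM rfl hp
  have hpZ : p ∉ Z := fun hp => Set.disjoint_left.1 h.PZ rfl hp
  have hpC : ∀ i, p ∉ C i := fun i hp => Set.disjoint_left.1 (h.PC i) rfl hp
  have hq : ∀ i, ∃ q ∈ C i, Adj p q := by
    intro i
    obtain ⟨x, hx, y, hy, hxy⟩ := h.aP i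
    rw [mem_singleton_iff] at hy
    subst hy
    exact ⟨x, hx, Topo.adj_symm hxy⟩
  choose q hqC hpq using hq
  have ha : ∀ i, ∃ k < 6, q i = n6 p k := fun i => exists_n6 (hpq i)
  choose a ha6 haq using ha
  -- base vertices
  obtain ⟨x₀, -, m₀, hm₀, -⟩ := h.aM 0
  obtain ⟨x₁, -, z₀, hz₀, -⟩ := h.aZ 0
  have hf : ∀ i, ∃ f, Pth (C i ∪ M) (q i) m₀ f := by
    intro i
    apply Pth.of_conn
    obtain ⟨x, hx, y, hy, hxy⟩ := h.aM i
    have h1 : Conn (C i ∪ M) (q i) x := (h.cC i _ (hqC i) _ hx).mono subset_union_left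
    exact (h1.tail hxy (Or.inr hy)).trans ((h.cM _ hy _ hm₀).mono subset_union_right)
  choose f hf using hf
  have hh : ∀ i, Hug (Z ∪ C i) (z₀, false) (t6 p (a i)) := by
    intro i
    obtain ⟨x, hx, y, hy, hxy⟩ := h.aZ i
    have h1 : Conn (Z ∪ C i) z₀ y := (h.cZ _ hz₀ _ hy).mono subset_union_left
    have h2 : Conn (Z ∪ C i) z₀ (q i) :=
      (h1.tail (Topo.adj_symm hxy) (Or.inr hx)).trans
        ((h.cC i _ hx _ (hqC i)).mono subset_union_right)
    refine hug_of_conn h2 ?_ ?_
    · obtain ⟨i', j'⟩ := z₀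
      simp [cor_false]
    · rw [haq i]
      exact n6_mem p (ha6 i)
  choose η η1 η2 η3 using hh
  choose g g1 g2 g3 g4 using fun i => exists_turn p (a i) (ha6 i)
  -- vanishing
  have v1 : ∀ i j, i ≠ j → f i (η j) = 0 := by
    intro i j hij
    refine (hf i).zero fun u hu v hv => η3 j u v ?_ ?_
    · rintro (h1 | h1)
      · rcases hu with h2 | h2
        · exact Set.disjoint_left.1 (h.ZC i) h1 h2
        · exact Set.disjoint_left.1 h.MZ h2 h1
      · rcases hu with h2 | h2
        · exact Set.disjoint_left.1 (h.CC i j hij) h2 h1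
        · exact Set.disjoint_left.1 (h.MC j) h2 h1
    · rintro (h1 | h1)
      · rcases hv with h2 | h2
        · exact Set.disjoint_left.1 (h.ZC i) h1 h2
        · exact Set.disjoint_left.1 h.MZ h2 h1
      · rcases hv with h2 | h2
        · exact Set.disjoint_left.1 (h.CC i j hij) h2 h1
        · exact Set.disjoint_left.1 (h.MC j) h2 h1
  have v2 : ∀ i j, f i (g j) = 0 := by
    intro i j
    refine (hf i).zero fun u hu v hv => g3 j u v ?_ ?_
    · rintro rfl
      exact hu.elim (hpC i) hpM
    · rintro rfl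
      exact hv.elim (hpC i) hpM
  have v3 : ∀ i j, i ≠ j → η j p (q i) = 0 := by
    intro i j hij
    refine η3 j p (q i) ?_ ?_
    · rintro (h1 | h1)
      · exact hpZ h1
      · exact hpC j h1
    · rintro (h1 | h1)
      · exact Set.disjoint_left.1 (h.ZC i) h1 (hqC i)
      · exact Set.disjoint_left.1 (h.CC i j hij) (hqC i) h1
  have v4 : ∀ i j, g j p (q i) = if 1 ≤ a i ∧ a i ≤ a j then 1 else 0 := by
    intro i j
    rw [haq i]
    exact g4 j (a i) (ha6 i)
  have hinj : ∀ i j, i ≠ j → a i ≠ a j := by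
    intro i j hij h1
    have : q i = q j := by rw [haq i, haq j, h1]
    exact Set.disjoint_left.1 (h.CC i j hij) (hqC i) (this ▸ hqC j)
  -- the loop `i, j` on the closed cochain `η i + η j + g i + g j`, `k` is the third index
  have key : ∀ i j k : Fin 3, i ≠ j → i ≠ k → j ≠ k →
      (f k (η k) + η k p (q k)) + (g i p (q j) + g k p (q j) + (g i p (q k) + g k p (q k))) = 0 := by
    intro i j k hij hik hjk
    have h0 := loop (c := fun u v => (η i u v + η k u v) + (g i u v + g k u v)) (hpq j) (hpq k)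
      (hf j) (hf k) (fun x y => by
        show _ + _ + (_ + _) = _ + _ + (_ + _)
        rw [η1 i x y, η1 k x y, g1 i x y, g1 k x y]) (fun r => by
        rw [tsum_add, tsum_add, tsum_add, η2, η2, g2, g2]
        have e1 := z2 (tind (z₀, false) r)
        have e2 := z2 (tind (t6 p (a i)) r)
        have e3 := z2 (tind (t6 p (a k)) r)
        have e4 := z2 (tind (t6 p 0) r)
        linear_combination e1 + e2 + e3 + e4)
    have e1 : ∀ l, f l (fun u v => (η i u v + η k u v) + (g i u v + g k u v)) =
        (f l (η i) + f l (η k)) + (f l (g i) + f l (g k)) := by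
      intro l
      rw [(hf l).add, (hf l).add, (hf l).add]
    rw [e1, e1, v1 j i hij.symm, v1 k i hik.symm, v1 j k hjk, v2, v2, v2, v2] at h0
    simp only [v3 j i hij.symm, v3 k i hik.symm, v3 j k hjk] at h0
    linear_combination h0
  have k1 := key 0 1 2 (by decide) (by decide) (by decide)
  have k2 := key 1 0 2 (by decide) (by decide) (by decide)
  have k3 : g 0 p (q 1) + g 2 p (q 1) + (g 0 p (q 2) + g 2 p (q 2)) +
      (g 1 p (q 0) + g 2 p (q 0) + (g 1 p (q 2) + g 2 p (q 2))) = 0 := by
    have e1 := z2 (f 2 (η 2) + η 2 p (q 2))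
    linear_combination k1 + k2 - e1
  simp only [v4] at k3
  have h01 := hinj 0 1 (by decide)
  have h02 := hinj 0 2 (by decide)
  have h12 := hinj 1 2 (by decide)
  have b0 := ha6 0
  have b1 := ha6 1
  have b2 := ha6 2
  clear key k1 k2
  generalize a 0 = a0 at *
  generalize a 1 = a1 at *
  generalize a 2 = a2 at *
  revert k3 h01 h02 h12
  revert b0 b1 b2
  clear * -
  intro b2 b1 b0
  interval_cases a0 <;> interval_cases a1 <;> interval_cases a2 <;> simp <;> decide

/-! ### Reduction to one vertex -/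

/-- A finite connected set with at least two elements stays connected if some vertex different from
`b` is removed. -/
theorem exists_leaf {S : Set Pt} (hf : S.Finite) (hc : Cn S) {b c : Pt} (hb : b ∈ S) (hcS : c ∈ S)
    (hbc : c ≠ b) : ∃ v ∈ S, v ≠ b ∧ Cn (S \ {v}) := by
  classical
  -- a maximal proper connected subset which contains `b`
  let p : Set Pt → Prop := fun A => A ⊆ S ∧ b ∈ A ∧ Cn A ∧ A ≠ S
  have hp0 : p {b} := by
    refine ⟨by simpa using hb, rfl, ?_, ?_⟩
    · intro x hx y hy
      rw [mem_singleton_iff] at hx hy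
      subst hx hy
      exact Conn.refl rfl
    · intro h
      rw [← h] at hcS
      exact hbc hcS
  have hfin : {A : Set Pt | p A}.Finite := hf.finite_subsets.subset fun A hA => hA.1
  obtain ⟨A, hA, hmax⟩ := hfin.exists_maximalFor Set.ncard _ ⟨{b}, hp0⟩
  obtain ⟨h1, h2, h3, h4⟩ := hA
  -- a vertex of `S` next to `A`
  have hex : ∃ x ∈ A, ∃ v ∈ S, v ∉ A ∧ Adj x v := by
    by_contra hcon
    push Not at hcon
    apply h4
    refine Subset.antisymm h1 fun y hy => ?_
    refine Conn.ind (P := fun z => z ∈ A) h2 ?_ (hc b hb y hy)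
    intro u v _ huv hv hu
    by_contra hvA
    exact hcon u hu v hv hvA huv
  obtain ⟨x, hx, v, hv, hvA, hxv⟩ := hex
  have hins : Cn (insert v A) := by
    have key : ∀ z ∈ insert v A, Conn (insert v A) x z := by
      rintro z (rfl | hz)
      · exact Conn.of_adj (Or.inr hx) (Or.inl rfl) hxv
      · exact (h3 x hx z hz).mono (subset_insert _ _)
    intro y hy z hz
    exact (key y hy).symm.trans (key z hz)
  have hSA : insert v A = S := by
    by_contra hne
    have h5 : p (insert v A) := ⟨insert_subset hv h1, Or.inr h2, hins, hne⟩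
    have h6 : A.ncard < (insert v A).ncard := by
      rw [ncard_insert_of_notMem hvA (hf.subset h1)]
      omega
    have h7 := hmax h5 h6.le
    omega
  refine ⟨v, hv, fun h => hvA (h ▸ h2), ?_⟩
  rw [← hSA, insert_sdiff_of_mem _ (mem_singleton v), sdiff_singleton_eq_self hvA]
  exact h3

theorem K3.false {P M Z : Set Pt} {C : Fin 3 → Set Pt} (h : K3 P M Z C) (hf : P.Finite) :
    False := by
  classical
  induction hn : P.ncard using Nat.strong_induction_on generalizing P C with
  | _ n ih =>
    obtain ⟨-, -, b, hb, -⟩ := h.aP 0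
    by_cases hs : ∃ c ∈ P, c ≠ b
    · obtain ⟨c, hc, hcb⟩ := hs
      -- removing a leaf
      have red : ∀ v ∈ P, Cn (P \ {v}) → (∃ w ∈ P, w ≠ v) → ∀ k : Fin 3,
          (∀ i, i ≠ k → ∃ x ∈ C i, ∃ y ∈ P \ {v}, Adj x y) → False := by
        intro v hv hcv hw k hk
        obtain ⟨w, hw, hwv⟩ := hw
        have hlt : (P \ {v}).ncard < n := by
          rw [← hn]
          exact ncard_sdiff_singleton_lt_of_mem hv hf
        have hsub : P \ {v} ⊆ P := sdiff_subset
        by_cases hkk : ∃ x ∈ C k, ∃ y ∈ P \ {v}, Adj x y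
        · refine ih _ hlt (P := P \ {v}) (C := C) ⟨hcv, h.cM, h.cZ, h.cC,
            h.PM.mono_left hsub, h.PZ.mono_left hsub, h.MZ, fun i => (h.PC i).mono_left hsub, h.MC,
            h.ZC, h.CC, fun i => ?_, h.aM, h.aZ⟩ (hf.subset hsub) rfl
          by_cases hi : i = k
          · rw [hi]; exact hkk
          · exact hk i hi
        · -- the vertex `v` is given to `C k`
          have hkv : ∃ x ∈ C k, Adj x v := by
            obtain ⟨x, hx, y, hy, hxy⟩ := h.aP k
            refine ⟨x, hx, ?_⟩
            by_cases hyv : y = v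
            · exact hyv ▸ hxy
            · exact absurd ⟨x, hx, y, ⟨hy, hyv⟩, hxy⟩ hkk
          obtain ⟨x, hx, hxv⟩ := hkv
          have hvP : ∃ y ∈ P \ {v}, Adj v y := by
            by_contra hcon
            push Not at hcon
            have h1 : w = v := by
              refine Conn.ind (P := fun z => z = v) rfl ?_ (h.cP v hv w hw)
              intro u u' _ huu' hu' hu
              by_contra hne
              rw [hu] at huu'
              exact hcon u' ⟨hu', hne⟩ huu'
            exact hwv h1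
          set C' : Fin 3 → Set Pt := fun i => if i = k then insert v (C k) else C i with hC'
          have hCk : C' k = insert v (C k) := by simp [hC']
          have hCi : ∀ i, i ≠ k → C' i = C i := fun i hi => by simp [hC', hi]
          have hvd : ∀ {T : Set Pt}, Disjoint P T → v ∉ T := fun hT hvT =>
            Set.disjoint_left.1 hT hv hvT
          have hins : Cn (insert v (C k)) := by
            have key : ∀ z ∈ insert v (C k), Conn (insert v (C k)) x z := by
              rintro z (rfl | hz)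
              · exact Conn.of_adj (Or.inr hx) (Or.inl rfl) hxv
              · exact (h.cC k x hx z hz).mono (subset_insert _ _)
            intro y hy z hz
            exact (key y hy).symm.trans (key z hz)
          refine ih _ hlt (P := P \ {v}) (C := C') ⟨hcv, h.cM, h.cZ, fun i => ?_,
            h.PM.mono_left hsub, h.PZ.mono_left hsub, h.MZ, fun i => ?_, fun i => ?_, fun i => ?_,
            fun i j hij => ?_, fun i => ?_, fun i => ?_, fun i => ?_⟩ (hf.subset hsub) rfl
          · by_cases hi : i = k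
            · rw [hi, hCk]; exact hins
            · rw [hCi i hi]; exact h.cC i
          · by_cases hi : i = k
            · rw [hi, hCk, disjoint_insert_right]
              exact ⟨fun h1 => h1.2 rfl, (h.PC k).mono_left hsub⟩
            · rw [hCi i hi]; exact (h.PC i).mono_left hsub
          · by_cases hi : i = k
            · rw [hi, hCk, disjoint_insert_right]
              exact ⟨hvd h.PM, h.MC k⟩
            · rw [hCi i hi]; exact h.MC i
          · by_cases hi : i = k
            · rw [hi, hCk, disjoint_insert_right]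
              exact ⟨hvd h.PZ, h.ZC k⟩
            · rw [hCi i hi]; exact h.ZC i
          · by_cases hi : i = k
            · have hj : j ≠ k := fun h1 => hij (hi.trans h1.symm)
              rw [hi, hCk, hCi j hj, disjoint_insert_left]
              exact ⟨hvd (h.PC j), h.CC k j (Ne.symm hj)⟩
            · by_cases hj : j = k
              · rw [hj, hCk, hCi i hi, disjoint_insert_right]
                exact ⟨hvd (h.PC i), h.CC i k hi⟩
              · rw [hCi i hi, hCi j hj]
                exact h.CC i j hij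
          · by_cases hi : i = k
            · rw [hi, hCk]
              obtain ⟨y, hy, hvy⟩ := hvP
              exact ⟨v, Or.inl rfl, y, hy, hvy⟩
            · rw [hCi i hi]; exact hk i hi
          · by_cases hi : i = k
            · rw [hi, hCk]
              obtain ⟨x, hx, y, hy, hxy⟩ := h.aM k
              exact ⟨x, Or.inr hx, y, hy, hxy⟩
            · rw [hCi i hi]; exact h.aM i
          · by_cases hi : i = k
            · rw [hi, hCk]
              obtain ⟨x, hx, y, hy, hxy⟩ := h.aZ k
              exact ⟨x, Or.inr hx, y, hy, hxy⟩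
            · rw [hCi i hi]; exact h.aZ i
      obtain ⟨v, hv, hvb, hcv⟩ := exists_leaf hf h.cP hb hc hcb
      by_cases h1 : ∃ k : Fin 3, ∀ i, i ≠ k → ∃ x ∈ C i, ∃ y ∈ P \ {v}, Adj x y
      · obtain ⟨k, hk⟩ := h1
        exact red v hv hcv ⟨b, hb, hvb.symm⟩ k hk
      · obtain ⟨v', hv', hvv', hcv'⟩ := exists_leaf hf h.cP hv hb hvb.symm
        -- two of the sets touch `P` only at `v`, so they touch `P \ {v'}`
        have h2 : ∀ i, (¬ ∃ x ∈ C i, ∃ y ∈ P \ {v}, Adj x y) →
            ∃ x ∈ C i, ∃ y ∈ P \ {v'}, Adj x y := by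
          intro i hi
          obtain ⟨x, hx, y, hy, hxy⟩ := h.aP i
          by_cases hyv : y = v
          · exact ⟨x, hx, y, ⟨hy, fun h3 => hvv' (h3.symm.trans hyv)⟩, hxy⟩
          · exact absurd ⟨x, hx, y, ⟨hy, hyv⟩, hxy⟩ hi
        by_cases h3 : ∃ k, ∃ x ∈ C k, ∃ y ∈ P \ {v}, Adj x y
        · obtain ⟨k, hk⟩ := h3
          refine red v' hv' hcv' ⟨v, hv, hvv'.symm⟩ k fun i hi => h2 i fun h4 => h1 ?_
          -- otherwise only one index is bad
          have h5 : ∀ i k : Fin 3, i ≠ k → ∃ l : Fin 3, ∀ j, j ≠ l → j = i ∨ j = k := by decide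
          obtain ⟨l, hl⟩ := h5 i k hi
          refine ⟨l, fun j hj => ?_⟩
          rcases hl j hj with rfl | rfl
          · exact h4
          · exact hk
        · push Not at h3
          refine red v' hv' hcv' ⟨v, hv, hvv'.symm⟩ 0 fun i _ => h2 i ?_
          rintro ⟨x, hx, y, hy, hxy⟩
          exact h3 i x hx y hy hxy
    · push Not at hs
      have hPb : P = {b} := by
        ext x
        exact ⟨fun hx => hs x hx, fun hx => by rw [mem_singleton_iff] at hx; exact hx ▸ hb⟩
      subst hPb
      exact core h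

end Vale.Agent.P153.R2.PLAN.K33
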