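import Vale.Agent.P153.R2.Base.Basic

/-!
# P153-R2, block SDAR (helper443): no high crossings

For `h` in the law with free data `{-1, 1}` on `V`, let `UU V h a` be the set of the vertices which
are not joined to the complement of `V` by a path in `{h ≤ a}`. If the probability that `UU V h 1`
is in the increasing family `X` is at most `q` for all `V` of a class which is closed under the
exploration, then the probability that `UU V h (4 n + 1)` is in `X` is at most `q ^ (n + 1)`.
-/

namespace Vale.Agent.P153.R2.NH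

open Set Relation
open Vale.Agent.P153
open Vale.Agent.P153.Topo (Conn)

/-- The vertices joined to the complement of `V` by paths in the complement of `V` and `{h ≤ a}`. -/
def OO (V : Set Pt) (h : Hg) (a : ℤ) : Set Pt := Cl (Vᶜ ∪ dn h a) Vᶜ

/-- The vertices of `V` which are not joined to the complement of `V` by a path in `{h ≤ a}`. -/
def UU (V : Set Pt) (h : Hg) (a : ℤ) : Set Pt := (OO V h a)ᶜ

/-- The interior of `UU V h a`. -/
def VV (V : Set Pt) (h : Hg) (a : ℤ) : Set Pt :=
  {x | x ∈ UU V h a ∧ ∀ y, Adj x y → y ∈ UU V h a}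

variable {V : Set Pt} {I : Pt → Set ℤ} {h g : Hg} {a b : ℤ}

theorem compl_subset_OO : Vᶜ ⊆ OO V h a := fun x hx => ⟨x, hx, Conn.refl (Or.inl hx)⟩

theorem UU_subset : UU V h a ⊆ V := fun x hx => by
  by_contra h1
  exact hx (compl_subset_OO h1)

theorem VV_subset_UU : VV V h a ⊆ UU V h a := fun _ hx => hx.1

theorem VV_subset : VV V h a ⊆ V := VV_subset_UU.trans UU_subset

theorem OO_step {x y : Pt} (hx : x ∈ OO V h a) (hxy : Adj x y) (hy : y ∈ Vᶜ ∪ dn h a) :
    y ∈ OO V h a := by
  obtain ⟨z, hz, hzx⟩ := hx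
  exact ⟨z, hz, hzx.tail hxy hy⟩

theorem OO_mem {x : Pt} (hx : x ∈ OO V h a) : x ∈ Vᶜ ∪ dn h a := by
  obtain ⟨z, -, hzx⟩ := hx
  exact hzx.right_mem

theorem OO_anti (hgh : h ≤ g) (hab : b ≤ a) : OO V g b ⊆ OO V h a := by
  rintro y ⟨x, hx, hxy⟩
  refine ⟨x, hx, hxy.mono ?_⟩
  rintro z (hz | hz)
  · exact Or.inl hz
  · exact Or.inr ((hgh z).trans (le_trans hz hab))

theorem UU_mono (hgh : h ≤ g) (hab : b ≤ a) : UU V h a ⊆ UU V g b :=
  compl_subset_compl.2 (OO_anti hgh hab)

/-- `{h > a}` is contained in `UU`. -/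
theorem mem_UU_of_lt {x : Pt} (hx : x ∈ V) (hx' : a < h x) : x ∈ UU V h a := fun h1 => by
  rcases OO_mem h1 with h2 | h2
  · exact h2 hx
  · have : h x ≤ a := h2
    omega

/-- The heights at the inner boundary of `UU`. -/
theorem bdry_eq (ha : Odd a) (hI : ∀ x, x ∉ V → I x ⊆ Iic a) (hh : h ∈ Cfg V I) {x y : Pt}
    (hx : x ∈ UU V h a) (hy : y ∈ OO V h a) (hxy : Adj x y) : h x = a + 2 := by
  have hxV : x ∈ V := UU_subset hx
  have h1 : a < h x := by
    by_contra h2
    exact hx (OO_step hy (Topo.adj_symm hxy) (Or.inr (not_lt.1 h2)))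
  have h2 : h y ≤ a := by
    rcases OO_mem hy with h3 | h3
    · exact hI y h3 (hh.2.1 y)
    · exact h3
  have h3 := abs_le.1 (hh.2.2 x hxV y hxy)
  obtain ⟨c, hc⟩ := hh.1 x
  obtain ⟨d, hd⟩ := ha
  omega

theorem OO_congr (hg : ∀ x, x ∉ VV V h a → g x = h x) : OO V g a = OO V h a := by
  apply Subset.antisymm
  · rintro y ⟨x, hx, hxy⟩
    refine Conn.ind (P := fun z => z ∈ OO V h a) (compl_subset_OO hx) ?_ hxy
    intro u v _ huv hv hu
    by_contra hvU
    have hvn : v ∉ VV V h a := fun h1 => h1.2 u (Topo.adj_symm huv) hu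
    apply hvU
    refine OO_step hu huv ?_
    rcases hv with hv | hv
    · exact Or.inl hv
    · right
      show h v ≤ a
      rw [← hg v hvn]
      exact hv
  · rintro y ⟨x, hx, hxy⟩
    have key : Conn (OO V h a) x y := by
      have hx0 : x ∈ OO V h a := compl_subset_OO hx
      refine Conn.ind (P := fun z => Conn (OO V h a) x z) (Conn.refl hx0) ?_ hxy
      intro u v hu huv hv ih
      exact ih.tail huv ⟨x, hx, hu.tail huv hv⟩
    refine ⟨x, hx, key.mono ?_⟩
    intro z hz
    rcases OO_mem hz with h1 | h1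
    · exact Or.inl h1
    · right
      show g z ≤ a
      rw [hg z fun h2 => h2.1 hz]
      exact h1

theorem UU_congr (hg : ∀ x, x ∉ VV V h a → g x = h x) : UU V g a = UU V h a := by
  unfold UU
  rw [OO_congr hg]

theorem VV_congr' (hg : OO V g a = OO V h a) : VV V g a = VV V h a := by
  unfold VV UU
  rw [hg]

open Classical in
/-- The explored data. -/
noncomputable def phi (V : Set Pt) (a : ℤ) (h : Hg) : Set Pt × Hg :=
  (OO V h a, fun x => if x ∈ VV V h a then 0 else h x)

theorem phi_eq_iff : phi V a g = phi V a h ↔ ∀ x, x ∉ VV V h a → g x = h x := by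
  constructor
  · intro e x hx
    have e1 : OO V g a = OO V h a := congrArg Prod.fst e
    have e2 := congrFun (congrArg Prod.snd e) x
    simp only [phi] at e2
    rw [VV_congr' e1, if_neg hx, if_neg hx] at e2
    exact e2
  · intro hg
    have e1 := OO_congr hg
    unfold phi
    rw [VV_congr' e1, e1]
    refine Prod.ext rfl ?_
    funext x
    by_cases hx : x ∈ VV V h a
    · simp [hx]
    · simp [hx, hg x hx]

theorem fibre (h : Hg) : Cfg V I ∩ {g | phi V a g = phi V a h} =
    Cfg V I ∩ {g | ∀ x, x ∉ VV V h a → g x = h x} := by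
  ext g
  simp only [mem_inter_iff, mem_ofPred_eq, phi_eq_iff]

/-- The higher sets are computed in the smaller domain. -/
theorem UU_VV (ha : Odd a) (hI : ∀ x, x ∉ V → I x ⊆ Iic a) (hh : h ∈ Cfg V I) (hab : a + 2 ≤ b) :
    UU V h b = UU (VV V h a) h b := by
  have hout : ∀ x, x ∉ VV V h a → x ∉ OO V h a → ∃ y, y ∈ OO V h a ∧ Adj y x ∧ h x = a + 2 := by
    intro x hx hxO
    have : ∃ y, Adj x y ∧ y ∉ UU V h a := by
      by_contra hcon
      push Not at hcon
      exact hx ⟨hxO, hcon⟩
    obtain ⟨y, hxy, hy⟩ := this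
    have hy' : y ∈ OO V h a := not_not.1 hy
    exact ⟨y, hy', Topo.adj_symm hxy, bdry_eq ha hI hh hxO hy' hxy⟩
  have eS : Vᶜ ∪ dn h b = (VV V h a)ᶜ ∪ dn h b := by
    ext x
    constructor
    · rintro (hx | hx)
      · exact Or.inl fun h1 => hx (VV_subset h1)
      · exact Or.inr hx
    · rintro (hx | hx)
      · by_cases hxO : x ∈ OO V h a
        · rcases OO_mem hxO with h1 | h1
          · exact Or.inl h1
          · right
            have h2 : h x ≤ a := h1
            show h x ≤ b
            omega
        · obtain ⟨y, -, -, h1⟩ := hout x hx hxO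
          right
          show h x ≤ b
          omega
      · exact Or.inr hx
  unfold UU
  congr 1
  unfold OO
  rw [← eS]
  apply Subset.antisymm
  · rintro y ⟨x, hx, hxy⟩
    exact ⟨x, fun h1 => hx (VV_subset h1), hxy⟩
  · rintro y ⟨x, hx, hxy⟩
    have key : x ∈ Cl (Vᶜ ∪ dn h b) Vᶜ := by
      have h0 : OO V h a ⊆ Cl (Vᶜ ∪ dn h b) Vᶜ := OO_anti (le_refl h) (by omega)
      by_cases hxO : x ∈ OO V h a
      · exact h0 hxO
      · obtain ⟨z, hz, hzx, h1⟩ := hout x hx hxO
        obtain ⟨w, hw, hwz⟩ := h0 hz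
        refine ⟨w, hw, hwz.tail hzx (Or.inr ?_)⟩
        show h x ≤ b
        omega
    obtain ⟨w, hw, hwx⟩ := key
    exact ⟨w, hw, hwx.trans hxy⟩

/-! ### Free data -/

theorem ebd_finite (hV : V.Finite) : (ebd V).Finite := by
  classical
  have h1 : ebd V ⊆ ⋃ x ∈ V, {y | Adj x y} := by
    rintro y ⟨-, x, hx, hxy⟩
    exact mem_biUnion hx hxy
  refine (Finite.biUnion hV fun x _ => ?_).subset h1
  have h2 : {y : Pt | Adj x y} ⊆ (Icc (x.1 - 1) (x.1 + 1)) ×ˢ (Icc (x.2 - 1) (x.2 + 1)) := by
    intro y hy
    have := Topo.adj_iff.1 hy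
    simp only [mem_prod, mem_Icc]
    omega
  exact ((finite_Icc _ _).prod (finite_Icc _ _)).subset h2

theorem dat_frd (hV : V.Finite) (m : ℤ) : Dat V (frd V m) := by
  refine ⟨hV, fun x hx => ?_, ?_⟩
  · unfold frd
    rw [if_neg hx]
    split_ifs
    · exact toFinite _
    · exact toFinite _
  · refine (hV.union (ebd_finite hV)).subset ?_
    intro x hx
    by_contra hcon
    simp only [mem_union, not_or] at hcon
    apply hx
    unfold frd
    rw [if_neg hcon.1, if_neg hcon.2]
    exact subsingleton_singleton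

theorem const_mem_frd {m : ℤ} (hm : Even m) : (fun _ => m + 1) ∈ Cfg V (frd V m) := by
  refine ⟨fun x => hm.add_one, fun x => ?_, fun x _ y _ => by simp⟩
  unfold frd
  split_ifs <;> simp

theorem frd_shift {m : ℤ} (hm : Even m) :
    BijOn (fun (h : Hg) x => h x + m) (Cfg V (frd V 0)) (Cfg V (frd V m)) := by
  have key : ∀ (c m : ℤ), Even c → ∀ h ∈ Cfg V (frd V m),
      (fun x => h x + c) ∈ Cfg V (frd V (m + c)) := by
    intro c m hc h hh
    refine ⟨fun x => (hh.1 x).add_even hc, fun x => ?_, fun x hx y hxy => ?_⟩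
    · have h1 := hh.2.1 x
      unfold frd at h1 ⊢
      split_ifs at h1 ⊢
      · trivial
      · simp only [mem_insert_iff, mem_singleton_iff] at h1 ⊢
        omega
      · simp only [mem_singleton_iff] at h1 ⊢
        omega
    · have := hh.2.2 x hx y hxy
      simpa using this
  refine ⟨fun h hh => by simpa using key m 0 hm h hh, ?_, ?_⟩
  · intro h _ h' _ e
    funext x
    have := congrFun e x
    simp only at this
    omega
  · intro h hh
    refine ⟨fun x => h x + -m, by simpa using key (-m) m hm.neg h hh, ?_⟩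
    funext x
    simp

theorem OO_shift (m : ℤ) : OO V (fun x => h x + m) (a + m) = OO V h a := by
  have : dn (fun x => h x + m) (a + m) = dn h a := by
    ext x
    simp [dn]
  unfold OO
  rw [this]

/-- The shift of the level. -/
theorem Pr_shift {m : ℤ} (hm : Even m) (hV : V.Finite) (X : Set Pt → Prop) :
    Pr (Cfg V (frd V m)) {h | X (UU V h (a + m))} = Pr (Cfg V (frd V 0)) {h | X (UU V h a)} := by
  rw [Pr_eq_Ex (Cfg_finite (dat_frd hV m)), Pr_eq_Ex (Cfg_finite (dat_frd hV 0)),
    Ex_bij _ (frd_shift hm)]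
  apply Ex_congr
  intro h _
  have : UU V (fun x => h x + m) (a + m) = UU V h a := by
    unfold UU
    rw [OO_shift]
  have e : ((fun x => h x + m) ∈ {h | X (UU V h (a + m))}) ↔ h ∈ {h | X (UU V h a)} := by
    simp only [mem_ofPred_eq, this]
  by_cases h1 : h ∈ {h | X (UU V h a)}
  · simp [ind, e.2 h1, h1]
  · simp [ind, mt e.1 h1, h1]

/-- One step. -/
theorem step {X : Set Pt → Prop} (hX : ∀ S T : Set Pt, S ⊆ T → X S → X T) (hV : V.Finite)
    (ha : Odd a) (ha1 : 1 ≤ a) {q : ℝ}
    (hq : ∀ h ∈ Cfg V (frd V 0), Pr (Cfg (VV V h a) (frd (VV V h a) 0))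
      {g | X (UU (VV V h a) g 1)} ≤ q) :
    Pr (Cfg V (frd V 0)) {h | X (UU V h (a + 4))} ≤
      q * Pr (Cfg V (frd V 0)) {h | X (UU V h a)} := by
  classical
  have hfin := Cfg_finite (dat_frd hV 0)
  have hI : ∀ x, x ∉ V → frd V 0 x ⊆ Iic a := by
    intro x hx z hz
    unfold frd at hz
    rw [if_neg hx] at hz
    split_ifs at hz
    · simp only [mem_insert_iff, mem_singleton_iff] at hz
      simp only [mem_Iic]; omega
    · simp only [mem_singleton_iff] at hz
      simp only [mem_Iic]; omega
  have e1 : Pr (Cfg V (frd V 0)) {h | X (UU V h (a + 4))} =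
      Pr (Cfg V (frd V 0)) ({h | X (UU V h a)} ∩ {h | X (UU V h (a + 4))}) := by
    apply Pr_congr
    intro h _
    constructor
    · intro h1
      exact ⟨hX _ _ (UU_mono (le_refl h) (by omega)) h1, h1⟩
    · exact fun h1 => h1.2
  rw [e1]
  refine Pr_le_of_fiber hfin (phi V a) _ _ ?_ ?_
  · intro h _ g _ e
    have e2 : OO V h a = OO V g a := congrArg Prod.fst e
    simp only [mem_ofPred_eq, UU, e2]
  · intro h hh _
    rw [fibre, Cfg_agree hh VV_subset]
    set W := VV V h a with hW
    set J : Pt → Set ℤ := fun x => if x ∈ W then frd V 0 x else {h x} with hJ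
    have hWf : W.Finite := hV.subset VV_subset
    have hJd : Dat W J := by
      refine ⟨hWf, fun x hx => ?_, hWf.subset fun x hx => ?_⟩
      · simp only [hJ, if_neg hx]; exact finite_singleton _
      · by_contra h1
        apply hx
        simp only [hJ, if_neg h1]
        exact subsingleton_singleton
    have hne : (Cfg W J).Nonempty := by
      rw [← Cfg_agree hh VV_subset]
      exact ⟨h, hh, fun _ _ => rfl⟩
    -- the event in the smaller domain
    have e3 : Pr (Cfg W J) {h | X (UU V h (a + 4))} = Pr (Cfg W J) {g | X (UU W g (a + 4))} := by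
      apply Pr_congr
      intro g hg
      rw [← Cfg_agree hh VV_subset] at hg
      have h1 : VV V g a = W := VV_congr' (OO_congr hg.2)
      simp only [mem_ofPred_eq]
      rw [UU_VV ha hI hg.1 (by omega : a + 2 ≤ a + 4), h1]
    rw [e3]
    have hae : Even (a + 3) := by
      obtain ⟨c, hc⟩ := ha
      exact ⟨c + 2, by omega⟩
    have h4 : Pr (Cfg W J) {g | X (UU W g (a + 4))} ≤
        Pr (Cfg W (frd W (a + 3))) {g | X (UU W g (a + 4))} := by
      rw [Pr_eq_Ex (Cfg_finite hJd), Pr_eq_Ex (Cfg_finite (dat_frd hWf _))]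
      apply Cfg_le hJd (dat_frd hWf _) hne ⟨_, const_mem_frd hae⟩
      · intro x
        by_cases hx : x ∈ W
        · have hxV : x ∈ V := VV_subset hx
          simp only [hJ, frd, if_pos hx, if_pos hxV]
          exact SLe.refl _
        · by_cases hxe : x ∈ ebd W
          · have hx2 : h x = a + 2 := by
              obtain ⟨-, y, hy, hyx⟩ := hxe
              have hxU : x ∈ UU V h a := hy.2 x hyx
              have : ∃ z, Adj x z ∧ z ∉ UU V h a := by
                by_contra hcon
                push Not at hcon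
                exact hx ⟨hxU, hcon⟩
              obtain ⟨z, hxz, hz⟩ := this
              exact bdry_eq ha hI hh hxU (not_not.1 hz) hxz
            simp only [hJ, frd, if_neg hx, if_pos hxe, hx2]
            intro c hc d hd
            simp only [mem_singleton_iff] at hc
            simp only [mem_insert_iff, mem_singleton_iff] at hd
            subst hc
            rcases hd with rfl | rfl
            · constructor
              · simp only [mem_singleton_iff]; omega
              · simp only [mem_insert_iff, mem_singleton_iff]; omega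
            · constructor
              · simp only [mem_singleton_iff]; omega
              · simp only [mem_insert_iff, mem_singleton_iff]; omega
          · have hxa : h x ≤ a + 2 := by
              by_cases hxU : x ∈ UU V h a
              · have : ∃ z, Adj x z ∧ z ∉ UU V h a := by
                  by_contra hcon
                  push Not at hcon
                  exact hx ⟨hxU, hcon⟩
                obtain ⟨z, hxz, hz⟩ := this
                exact (bdry_eq ha hI hh hxU (not_not.1 hz) hxz).le
              · rcases OO_mem (not_not.1 hxU) with h5 | h5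
                · have := hI x h5 (hh.2.1 x)
                  simp only [mem_Iic] at this
                  omega
                · have : h x ≤ a := h5
                  omega
            simp only [hJ, frd, if_neg hx, if_neg hxe]
            intro c hc d hd
            simp only [mem_singleton_iff] at hc hd
            subst hc hd
            constructor
            · simp only [mem_singleton_iff]; omega
            · simp only [mem_singleton_iff]; omega
      · intro g g' hgg'
        have h5 : UU W g (a + 4) ⊆ UU W g' (a + 4) := UU_mono hgg' le_rfl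
        unfold ind
        by_cases h6 : X (UU W g (a + 4))
        · have h7 := hX _ _ h5 h6
          simp [h6, h7]
        · simp only [mem_ofPred_eq, h6, if_false]
          split_ifs <;> norm_num
    refine h4.trans ?_
    have e5 : a + 4 = 1 + (a + 3) := by ring
    rw [e5, Pr_shift hae hWf]
    exact hq h hh

/-- **No high crossings.** -/
theorem nh {X : Set Pt → Prop} (hX : ∀ S T : Set Pt, S ⊆ T → X S → X T) {C : Set Pt → Prop}
    (hfin : ∀ V, C V → V.Finite)
    (hC : ∀ V (a : ℤ), C V → Odd a → 1 ≤ a → ∀ h ∈ Cfg V (frd V 0), C (VV V h a)) {q : ℝ}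
    (hq0 : 0 ≤ q)
    (hq : ∀ V, C V → Pr (Cfg V (frd V 0)) {h | X (UU V h 1)} ≤ q) (n : ℕ) :
    ∀ V, C V → Pr (Cfg V (frd V 0)) {h | X (UU V h (4 * n + 1))} ≤ q ^ (n + 1) := by
  intro V hV
  induction n with
  | zero => simpa using hq V hV
  | succ n ih =>
    have ha : Odd (4 * (n : ℤ) + 1) := ⟨2 * n, by ring⟩
    have ha1 : (1 : ℤ) ≤ 4 * n + 1 := by omega
    have h1 := step hX (hfin V hV) ha ha1 (q := q) fun h hh => hq _ (hC V _ hV ha ha1 h hh)
    have e : 4 * ((n + 1 : ℕ) : ℤ) + 1 = 4 * n + 1 + 4 := by push_cast; ring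
    rw [e, pow_succ' q (n + 1)]
    exact h1.trans (mul_le_mul_of_nonneg_left ih hq0)

end Vale.Agent.P153.R2.NH
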