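import Vale.Agent.P153.R2.SDAR.RedGeo

/-!
# P153-R2, block SDAR (helper443): the three obstacles on the lattice, for `S_red`
-/

set_option autoImplicit false
set_option linter.unusedSectionVars false

namespace Vale.Agent.P153.R2.SDAR

open Filter Topology Set MeasureTheory
open Vale.Agent.P145.PT Vale.Agent.P153 Vale.Agent.P153.F Vale.Agent.P153.F.SD
open Vale.Agent.P153.F.Top (dp c1 c2)
open Vale.Agent.P153.Topo (Conn)

/-- The vertices of the walls of the sign different from `s` are in one connected set. -/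
def One (V : Set Pt) (η : Hg) (s : ℤ) : Prop := ∃ Z : Set Pt, Z ⊆ Vᶜ ∧ Cn Z ∧
  (∀ y ∈ Z, η y ≠ s) ∧ ∀ x ∈ V, ∀ y, y ∉ V → Adj x y → η y ≠ s → y ∈ Z

/-- Data for the obstacles. -/
structure Obs (b : PW) (δ : ℝ) (le : Fin 3 → ℝ) (rN R e : ℝ) (V : Set Pt) (η : Hg)
    (a : Fin 3 → Pt) (σ : Fin 3 → ℤ) : Prop where
  pos : 0 < δ
  small : 4 * δ ≤ e
  e20 : 20 * e ≤ b.s0 - b.x0 - b.y0
  Re : R ≤ e
  rR : rN ≤ R
  le0 : ∀ i, l0 b i < le i
  aV : ∀ i, a i ∈ V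
  abox : ∀ i, dp δ (a i) ∈ sbx i (t0 b i) (le i) rN
  wall : ∀ i, ∃ y, y ∉ V ∧ dp δ y ∈ sbx i (t0 b i) (le i) rN
  pm : ∀ x, η x = 1 ∨ η x = -1
  spm : ∀ i, σ i = 1 ∨ σ i = -1
  vis : ∀ i, ∀ x ∈ Cl (V ∩ ov δ (sbx i (t0 b i) (le i) R)) {a i}, ∀ y, y ∉ V → Adj x y → η y = σ i
  one : ∀ s : ℤ, s = 1 ∨ s = -1 → One V η s

/-- The obstacles. -/
def NN (b : PW) (δ : ℝ) (le : Fin 3 → ℝ) (rN : ℝ) (V : Set Pt) (a : Fin 3 → Pt) (i : Fin 3) : Set Pt :=
  Cl (V ∩ ov δ (sbx i (t0 b i) (le i) rN)) {a i}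

/-- The domain without the obstacles of `J`. -/
def VJ (b : PW) (δ : ℝ) (le : Fin 3 → ℝ) (rN : ℝ) (V : Set Pt) (a : Fin 3 → Pt)
    (J : Finset (Fin 3)) : Set Pt := {x | x ∈ V ∧ ∀ j ∈ J, x ∉ NN b δ le rN V a j}

open Classical in
/-- The data with the obstacles of `J`. -/
noncomputable def ηJ (b : PW) (δ : ℝ) (le : Fin 3 → ℝ) (rN : ℝ) (V : Set Pt) (η : Hg)
    (a : Fin 3 → Pt) (σ : Fin 3 → ℤ) (J : Finset (Fin 3)) : Hg := fun x =>
  if h : ∃ j ∈ J, x ∈ NN b δ le rN V a j then σ (Classical.choose h) else η x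

theorem sbx_mono (i : Fin 3) (t l : ℝ) {r r' : ℝ} (h : r ≤ r') : sbx i t l r ⊆ sbx i t l r' :=
  fun _ hz => ⟨hz.1.trans h, hz.2.trans h⟩

theorem cl_mono {S T : Set Pt} (h : S ⊆ T) (A : Set Pt) : Cl S A ⊆ Cl T A := by
  rintro y ⟨x, hx, h1⟩
  exact ⟨x, hx, h1.mono h⟩

theorem cl_sub (S : Set Pt) (A : Set Pt) : Cl S A ⊆ S := by
  rintro y ⟨x, hx, h1⟩
  exact h1.right_mem

theorem cn_cl (S : Set Pt) (a : Pt) : Cn (Cl S {a}) := by
  have key : ∀ y ∈ Cl S {a}, Conn (Cl S {a}) a y := by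
    rintro y ⟨x, hx, h1⟩
    rw [mem_singleton_iff] at hx
    subst hx
    refine Conn.ind (P := fun w => Conn (Cl S {x}) x w)
      (Conn.refl ⟨x, rfl, Conn.refl h1.left_mem⟩) ?_ h1
    intro u v hu huv hv ih
    exact ih.tail huv ⟨x, rfl, hu.tail huv hv⟩
  intro x hx y hy
  exact (key x hx).symm.trans (key y hy)

theorem cl_step {S A : Set Pt} {x y : Pt} (hx : x ∈ Cl S A) (hxy : Adj x y) (hy : y ∈ S) :
    y ∈ Cl S A := by
  obtain ⟨z, hz, h1⟩ := hx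
  exact ⟨z, hz, h1.tail hxy hy⟩

variable {b : PW} {δ : ℝ} {le : Fin 3 → ℝ} {rN R e : ℝ} {V : Set Pt} {η : Hg} {a : Fin 3 → Pt}
  {σ : Fin 3 → ℤ} {J : Finset (Fin 3)}

theorem dist_adj (hδ : 0 < δ) {x y : Pt} (h : Adj x y) : dist (dp δ x) (dp δ y) ≤ 4 * δ := by
  obtain ⟨h1, h2⟩ := adj_dp hδ (Topo.adj_symm h) 0
  have := dist_le_tl 0 (dp δ x) (dp δ y)
  linarith

/-- From the walls of both signs to `OneBad`. -/
theorem oneBad {V : Set Pt} {η : Hg} {σ : ℤ} {A : Set Pt} (hσ : σ = 1 ∨ σ = -1)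
    (hpm : ∀ x, η x = 1 ∨ η x = -1) (h1 : ∀ s : ℤ, s = 1 ∨ s = -1 → One V η s)
    (hA : ∀ y ∈ A, y ∉ V → ∃ x ∈ V, Adj x y ∧ η y = σ) : OneBad V η σ A := by
  obtain ⟨Zb, b1, b2, b3, b4⟩ := h1 σ hσ
  obtain ⟨Zg, g1, g2, g3, g4⟩ := h1 (-σ) (by rcases hσ with rfl | rfl <;> simp)
  have gv : ∀ y ∈ Zg, η y = σ := by
    intro y hy
    have := g3 y hy
    rcases hpm y with h | h <;> rcases hσ with rfl | rfl <;> simp_all
  refine ⟨Zb, Zg, b1, g1, b2, g2, ?_, ?_, fun x hx y hy hxy => ⟨b4 x hx y hy hxy, fun h => ?_⟩⟩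
  · rw [Set.disjoint_left]
    exact fun y h1 h2 => b3 y h1 (gv y h2)
  · rw [Set.disjoint_left]
    intro y h1 h2
    obtain ⟨x, hx, hxy, h3⟩ := hA y h2 (b1 h1)
    exact b3 y h1 h3
  · refine g4 x hx y hy hxy ?_
    rw [h]
    rcases hσ with rfl | rfl <;> simp

namespace Obs

variable (O : Obs b δ le rN R e V η a σ)
include O

theorem epos : 0 < e := by linarith [O.pos, O.small]

theorem N_sub_V (i : Fin 3) : NN b δ le rN V a i ⊆ V := fun _ hx => (cl_sub _ _ hx).1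

theorem N_sub_box (i : Fin 3) : NN b δ le rN V a i ⊆ ov δ (sbx i (t0 b i) (le i) rN) :=
  fun _ hx => (cl_sub _ _ hx).2

omit O in
theorem N_cn (i : Fin 3) : Cn (NN b δ le rN V a i) := cn_cl _ _

theorem a_mem (i : Fin 3) : a i ∈ NN b δ le rN V a i :=
  ⟨a i, rfl, Conn.refl ⟨O.aV i, O.abox i⟩⟩

/-- Boxes of different strands are far apart. -/
theorem far {i j : Fin 3} (hij : i ≠ j) {z w : ℝ × ℝ} (hz : z ∈ sbx i (t0 b i) (le i) R)
    (hw : w ∈ sbx j (t0 b j) (le j) R) : e < dist z w := by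
  have h1 := abs_le.1 hz.2
  have h2 := abs_le.1 hw.2
  refine sep_strands O.epos O.e20 hij (hz.1.trans O.Re) ?_ (hw.1.trans O.Re) ?_
  · linarith [O.le0 i, O.Re, h1.1]
  · linarith [O.le0 j, O.Re, h2.1]

theorem not_mem {i j : Fin 3} (hij : i ≠ j) {x : Pt}
    (hx : dp δ x ∈ sbx i (t0 b i) (le i) R) : x ∉ NN b δ le rN V a j := fun h => by
  have := O.far hij hx (sbx_mono _ _ _ O.rR (O.N_sub_box j h))
  rw [dist_self] at this
  linarith [O.epos]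

theorem not_adj {i j : Fin 3} (hij : i ≠ j) {x y : Pt}
    (hx : dp δ x ∈ sbx i (t0 b i) (le i) R) (hxy : Adj x y) : y ∉ NN b δ le rN V a j := fun h => by
  have h1 := O.far hij hx (sbx_mono _ _ _ O.rR (O.N_sub_box j h))
  have h2 := dist_adj O.pos hxy
  linarith [O.small]

theorem uniq {i j : Fin 3} {x : Pt} (hi : x ∈ NN b δ le rN V a i) (hj : x ∈ NN b δ le rN V a j) :
    i = j := by
  by_contra hij
  exact O.not_mem hij (sbx_mono _ _ _ O.rR (O.N_sub_box i hi)) hj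

/-- The obstacles are attached to the complement. -/
theorem att (i : Fin 3) : ∃ x ∈ NN b δ le rN V a i, ∃ y, y ∉ V ∧ Adj x y := by
  obtain ⟨y, hy, hyb⟩ := O.wall i
  have h1 : Conn (ov δ (sbx i (t0 b i) (le i) rN)) (a i) y :=
    cn_sbx O.pos i _ _ _ _ (O.abox i) _ hyb
  have key : y ∈ NN b δ le rN V a i ∨ ∃ x ∈ NN b δ le rN V a i, ∃ y, y ∉ V ∧ Adj x y := by
    refine Conn.ind (P := fun v => v ∈ NN b δ le rN V a i ∨
      ∃ x ∈ NN b δ le rN V a i, ∃ y, y ∉ V ∧ Adj x y) (Or.inl (O.a_mem i)) ?_ h1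
    intro u v _ huv hv hu
    rcases hu with hu | hu
    · by_cases hvV : v ∈ V
      · exact Or.inl (cl_step hu huv ⟨hvV, hv⟩)
      · exact Or.inr ⟨u, hu, v, hvV, huv⟩
    · exact Or.inr hu
  rcases key with h2 | h2
  · exact absurd (O.N_sub_V i h2) hy
  · exact h2

omit O in
theorem VJ_sub : VJ b δ le rN V a J ⊆ V := fun _ hx => hx.1

theorem ηJ_mem {j : Fin 3} (hj : j ∈ J) {x : Pt} (hx : x ∈ NN b δ le rN V a j) :
    ηJ b δ le rN V η a σ J x = σ j := by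
  have h : ∃ j ∈ J, x ∈ NN b δ le rN V a j := ⟨j, hj, hx⟩
  unfold ηJ
  rw [dif_pos h, O.uniq (Classical.choose_spec h).2 hx]

omit O in
theorem ηJ_not {x : Pt} (hx : ∀ j ∈ J, x ∉ NN b δ le rN V a j) :
    ηJ b δ le rN V η a σ J x = η x := by
  unfold ηJ
  rw [dif_neg]
  rintro ⟨j, hj, h⟩
  exact hx j hj h

theorem ηJ_out {x : Pt} (hx : x ∉ V) : ηJ b δ le rN V η a σ J x = η x :=
  ηJ_not fun j _ h => hx (O.N_sub_V j h)

theorem ηJ_pm (x : Pt) : ηJ b δ le rN V η a σ J x = 1 ∨ ηJ b δ le rN V η a σ J x = -1 := by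
  by_cases h : ∃ j ∈ J, x ∈ NN b δ le rN V a j
  · obtain ⟨j, hj, hx⟩ := h
    rw [O.ηJ_mem hj hx]
    exact O.spm j
  · push Not at h
    rw [ηJ_not h]
    exact O.pm x

omit O in
theorem VJ_empty : VJ b δ le rN V a ∅ = V := by
  ext x
  simp [VJ]

omit O in
theorem ηJ_empty : ηJ b δ le rN V η a σ ∅ = η := by
  funext x
  exact ηJ_not (by simp)

theorem box_eq {i : Fin 3} (hi : i ∉ J) {r : ℝ} (hr : r ≤ R) :
    VJ b δ le rN V a J ∩ ov δ (sbx i (t0 b i) (le i) r) = V ∩ ov δ (sbx i (t0 b i) (le i) r) := by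
  ext x
  constructor
  · rintro ⟨h1, h2⟩
    exact ⟨h1.1, h2⟩
  · rintro ⟨h1, h2⟩
    refine ⟨⟨h1, fun j hj => ?_⟩, h2⟩
    have hij : i ≠ j := by rintro rfl; exact hi hj
    exact O.not_mem hij (sbx_mono _ _ _ hr h2)

theorem N_eq {i : Fin 3} (hi : i ∉ J) :
    Cl (VJ b δ le rN V a J ∩ ov δ (sbx i (t0 b i) (le i) rN)) {a i} = NN b δ le rN V a i := by
  rw [O.box_eq hi O.rR]
  rfl

theorem VJ_insert {i : Fin 3} (hi : i ∉ J) :
    VJ b δ le rN V a J \ Cl (VJ b δ le rN V a J ∩ ov δ (sbx i (t0 b i) (le i) rN)) {a i} =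
      VJ b δ le rN V a (insert i J) := by
  rw [O.N_eq hi]
  ext x
  simp only [VJ, Set.mem_sdiff, mem_ofPred_eq, Finset.mem_insert, forall_eq_or_imp]
  tauto

theorem ηJ_insert {i : Fin 3} (hi : i ∉ J) :
    put (ηJ b δ le rN V η a σ J)
      (Cl (VJ b δ le rN V a J ∩ ov δ (sbx i (t0 b i) (le i) rN)) {a i}) (σ i) =
      ηJ b δ le rN V η a σ (insert i J) := by
  rw [O.N_eq hi]
  funext x
  unfold put
  by_cases h1 : x ∈ NN b δ le rN V a i
  · rw [if_pos h1, O.ηJ_mem (Finset.mem_insert_self i J) h1]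
  · rw [if_neg h1]
    by_cases h : ∃ j ∈ J, x ∈ NN b δ le rN V a j
    · obtain ⟨j, hj, hx⟩ := h
      rw [O.ηJ_mem hj hx, O.ηJ_mem (Finset.mem_insert_of_mem hj) hx]
    · push Not at h
      rw [ηJ_not h, ηJ_not]
      intro j hj
      rcases Finset.mem_insert.1 hj with rfl | hj
      · exact h1
      · exact h j hj

theorem cc_VJ (hCC : CC V) : CC (VJ b δ le rN V a J) := by
  have h0 : Vᶜ ⊆ (VJ b δ le rN V a J)ᶜ := compl_subset_compl.2 VJ_sub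
  have h1 : ∀ j ∈ J, NN b δ le rN V a j ⊆ (VJ b δ le rN V a J)ᶜ := fun j hj x hx hx' =>
    hx'.2 j hj hx
  have key : ∀ x, x ∉ VJ b δ le rN V a J → ∃ y, y ∉ V ∧ Conn (VJ b δ le rN V a J)ᶜ x y := by
    intro x hx
    by_cases hxV : x ∈ V
    · have h2 : ∃ j ∈ J, x ∈ NN b δ le rN V a j := by
        by_contra hcon
        push Not at hcon
        exact hx ⟨hxV, hcon⟩
      obtain ⟨j, hj, hxj⟩ := h2
      obtain ⟨u, hu, y, hy, huy⟩ := O.att j
      refine ⟨y, hy, ?_⟩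
      exact ((N_cn j x hxj u hu).mono (h1 j hj)).tail huy (h0 hy)
    · exact ⟨x, hxV, Conn.refl (h0 hxV)⟩
  intro x y hx hy
  obtain ⟨x', hx', h2⟩ := key x hx
  obtain ⟨y', hy', h3⟩ := key y hy
  exact h2.trans (((hCC x' y' hx' hy').mono h0).trans h3.symm)

/-- The walls of the sign different from `s` with the obstacles. -/
theorem few {s : ℤ} {k : ℕ} (hk : 4 ≤ k) {A : Set Pt} {Z : Set Pt} (hZ1 : Z ⊆ Vᶜ) (hZ2 : Cn Z)
    (hZ3 : ∀ x ∈ V, ∀ y, y ∉ V → Adj x y → η y ≠ s → y ∈ Z) (hZA : Disjoint Z A)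
    (hA : ∀ j ∈ J, σ j ≠ s → Disjoint (NN b δ le rN V a j) A) :
    FewN k (VJ b δ le rN V a J) (ηJ b δ le rN V η a σ J) s A := by
  classical
  refine ⟨fun m => if m.val = 0 then Z else if h : m.val - 1 < 3 then
    (if (⟨m.val - 1, h⟩ : Fin 3) ∈ J ∧ σ ⟨m.val - 1, h⟩ ≠ s then NN b δ le rN V a ⟨m.val - 1, h⟩
      else ∅) else ∅, fun m => ?_, fun x hx y hy hxy hne => ?_⟩
  · have hemp : (∅ : Set Pt) ⊆ (VJ b δ le rN V a J)ᶜ ∧ Cn (∅ : Set Pt) ∧ Disjoint (∅ : Set Pt) A :=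
      ⟨empty_subset _, fun x hx => absurd hx (notMem_empty x), Set.empty_disjoint _⟩
    dsimp only
    split_ifs with h1 h2 h3
    · exact ⟨hZ1.trans (compl_subset_compl.2 VJ_sub), hZ2, hZA⟩
    · exact ⟨fun x hx hx' => hx'.2 _ h3.1 hx, N_cn _, hA _ h3.1 h3.2⟩
    · exact hemp
    · exact hemp
  · by_cases hyV : y ∈ V
    · have h2 : ∃ j ∈ J, y ∈ NN b δ le rN V a j := by
        by_contra hcon
        push Not at hcon
        exact hy ⟨hyV, hcon⟩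
      obtain ⟨j, hj, hyj⟩ := h2
      rw [O.ηJ_mem hj hyj] at hne
      refine ⟨⟨j.val + 1, by omega⟩, ?_⟩
      have e1 : ¬ (j.val + 1 = 0) := by omega
      have e2 : j.val + 1 - 1 < 3 := by omega
      have e3 : (⟨j.val + 1 - 1, e2⟩ : Fin 3) = j := by
        apply Fin.ext
        simp
      dsimp only
      rw [if_neg e1, dif_pos e2, e3, if_pos ⟨hj, hne⟩]
      exact hyj
    · rw [O.ηJ_out hyV] at hne
      refine ⟨⟨0, by omega⟩, ?_⟩
      dsimp only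
      rw [if_pos rfl]
      exact hZ3 x hx.1 y hyV hxy hne

/-- The hypotheses of `S_rins` for the next obstacle. -/
theorem vis_VJ {i : Fin 3} (hi : i ∉ J) :
    ∀ x ∈ Cl (VJ b δ le rN V a J ∩ ov δ (sbx i (t0 b i) (le i) R)) {a i}, ∀ y,
      y ∉ VJ b δ le rN V a J → Adj x y → ηJ b δ le rN V η a σ J y = σ i := by
  rw [O.box_eq hi le_rfl]
  intro x hx y hy hxy
  have hxb := (cl_sub _ _ hx).2
  have hyN : ∀ j ∈ J, y ∉ NN b δ le rN V a j := fun j hj => by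
    have hij : i ≠ j := by rintro rfl; exact hi hj
    exact O.not_adj hij hxb hxy
  rw [ηJ_not hyN]
  exact O.vis i x hx y (fun hyV => hy ⟨hyV, hyN⟩) hxy

/-- The walls of each sign of the domain with obstacles lie in one connected set. -/
theorem one_VJ {s : ℤ} (hs : s = 1 ∨ s = -1) :
    One (VJ b δ le rN V a J) (ηJ b δ le rN V η a σ J) s := by
  obtain ⟨Z, hZ1, hZ2, hZ3, hZ4⟩ := O.one s hs
  -- the obstacles with the other sign are attached to `Z`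
  have hatt : ∀ j, σ j ≠ s → ∃ x ∈ NN b δ le rN V a j, ∃ y ∈ Z, Adj x y := by
    intro j hj
    obtain ⟨x, hx, y, hy, hxy⟩ := O.att j
    have h1 : η y = σ j := O.vis j x (cl_mono (inter_subset_inter_right _ fun z hz =>
      sbx_mono _ _ _ O.rR hz) _ hx) y hy hxy
    exact ⟨x, hx, y, hZ4 x (O.N_sub_V j hx) y hy hxy (by rw [h1]; exact hj), hxy⟩
  set Z' : Set Pt := {x | x ∈ Z ∨ ∃ j ∈ J, σ j ≠ s ∧ x ∈ NN b δ le rN V a j} with hZ'
  have hsubZ : Z ⊆ Z' := fun x hx => Or.inl hx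
  have hsubN : ∀ j ∈ J, σ j ≠ s → NN b δ le rN V a j ⊆ Z' := fun j hj hjs x hx =>
    Or.inr ⟨j, hj, hjs, hx⟩
  have key : ∀ x ∈ Z', ∃ y ∈ Z, Conn Z' x y := by
    rintro x (hx | ⟨j, hj, hjs, hx⟩)
    · exact ⟨x, hx, Conn.refl (hsubZ hx)⟩
    · obtain ⟨u, hu, y, hy, huy⟩ := hatt j hjs
      exact ⟨y, hy, ((N_cn j x hx u hu).mono (hsubN j hj hjs)).tail huy (hsubZ hy)⟩
  refine ⟨Z', ?_, ?_, ?_, ?_⟩
  · rintro x (hx | ⟨j, hj, -, hx⟩) hxV
    · exact hZ1 hx hxV.1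
    · exact hxV.2 j hj hx
  · intro x hx y hy
    obtain ⟨x', hx', h1⟩ := key x hx
    obtain ⟨y', hy', h2⟩ := key y hy
    exact h1.trans (((hZ2 x' hx' y' hy').mono hsubZ).trans h2.symm)
  · rintro x (hx | ⟨j, hj, hjs, hx⟩)
    · rw [O.ηJ_out (hZ1 hx)]
      exact hZ3 x hx
    · rw [O.ηJ_mem hj hx]
      exact hjs
  · intro x hx y hy hxy hne
    by_cases hyV : y ∈ V
    · have h2 : ∃ j ∈ J, y ∈ NN b δ le rN V a j := by
        by_contra hcon
        push Not at hcon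
        exact hy ⟨hyV, hcon⟩
      obtain ⟨j, hj, hyj⟩ := h2
      rw [O.ηJ_mem hj hyj] at hne
      exact Or.inr ⟨j, hj, hne, hyj⟩
    · rw [O.ηJ_out hyV] at hne
      exact Or.inl (hZ4 x hx.1 y hyV hxy hne)

theorem bad_VJ (hCC : CC V) {i : Fin 3} (hi : i ∉ J) :
    OneBad (VJ b δ le rN V a J) (ηJ b δ le rN V η a σ J) (σ i)
    (ebd (Cl (VJ b δ le rN V a J ∩ ov δ (sbx i (t0 b i) (le i) R)) {a i})) := by
  refine oneBad (O.spm i) O.ηJ_pm (fun s hs => O.one_VJ hs) ?_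
  rintro y ⟨hyW, x, hx, hxy⟩ hyV
  exact ⟨x, (cl_sub _ _ hx).1, hxy, O.vis_VJ hi x hx y hyV hxy⟩

/-- The windows of the domain with the three obstacles. -/
theorem flat {i : Fin 3} {re : ℝ} (hre0 : 0 < re) (hre : re ≤ rN / 4)
    (hgap : l0 b i + re ≤ le i - rN)
    (hV : ov δ (rct i (t0 b i) re (l0 b i) (le i - rN / 4)) ⊆ V)
    (ha1 : dp δ (a i) ∈ rct i (t0 b i) re (le i - rN) (le i - rN / 4)) {x : Pt}
    (hx : dp δ x ∈ sbx i (t0 b i) (le i - rN) re) :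
    (x ∈ VJ b δ le rN V a Finset.univ ↔ ls i (dp δ x) < le i - rN) ∧
      (le i - rN ≤ ls i (dp δ x) → ηJ b δ le rN V η a σ Finset.univ x = σ i) := by
  have h1 := abs_le.1 hx.2
  have hxV : x ∈ V := hV ⟨hx.1, by linarith [h1.1], by linarith [h1.2]⟩
  have hxN : le i - rN ≤ ls i (dp δ x) → x ∈ NN b δ le rN V a i := by
    intro h2
    have hc : Cn (ov δ (rct i (t0 b i) re (le i - rN) (le i - rN / 4))) := by
      have e : rct i (t0 b i) re (le i - rN) (le i - rN / 4) =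
          {z | ts i z ∈ Icc (t0 b i - re) (t0 b i + re) ∧
            ls i z ∈ Icc (le i - rN) (le i - rN / 4)} := by
        ext z
        simp only [rct, mem_ofPred_eq, abs_le, mem_Icc]
        constructor <;> rintro ⟨⟨h1, h2⟩, h3, h4⟩ <;> refine ⟨⟨?_, ?_⟩, ?_, ?_⟩ <;> linarith
      rw [e]
      exact cn_ov O.pos i ordConnected_Icc ordConnected_Icc
    have hsub : ov δ (rct i (t0 b i) re (le i - rN) (le i - rN / 4)) ⊆
        V ∩ ov δ (sbx i (t0 b i) (le i) rN) := by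
      intro y hy
      obtain ⟨h3, h4, h5⟩ := hy
      refine ⟨hV ⟨h3, by linarith, h5⟩, h3.trans (by linarith), ?_⟩
      rw [abs_le]
      constructor <;> linarith
    refine ⟨a i, rfl, (hc (a i) ha1 x ⟨hx.1, h2, by linarith [h1.2]⟩).mono hsub⟩
  refine ⟨⟨fun h2 => ?_, fun h2 => ⟨hxV, fun j _ => ?_⟩⟩, fun h2 => ?_⟩
  · by_contra h3
    push Not at h3
    exact h2.2 i (Finset.mem_univ i) (hxN h3)
  · by_cases hij : i = j
    · subst hij
      intro h3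
      have h4 := abs_le.1 (O.N_sub_box i h3).2
      linarith [h4.1]
    · intro h3
      have h4 := abs_le.1 (O.N_sub_box j h3).2
      have h5 : e < dist (dp δ x) (dp δ x) := by
        refine sep_strands O.epos O.e20 hij (hx.1.trans ?_) ?_
          ((O.N_sub_box j h3).1.trans (O.rR.trans O.Re)) ?_
        · linarith [O.rR, O.Re]
        · linarith [h1.1, O.epos]
        · linarith [h4.1, O.le0 j, O.rR, O.Re]
      rw [dist_self] at h5
      linarith [O.epos]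
  · exact O.ηJ_mem (Finset.mem_univ i) (hxN h2)

end Obs

end Vale.Agent.P153.R2.SDAR
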