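import Vale.Agent.P153.R2.SDAR.K33
import Vale.Agent.P153.R2.SDAR.RedLat
import Vale.Agent.P153.R2.INTF.Markov

/-!
# P153-R2, block SDAR (helper443): the two pinch points of an arc domain

In an arc domain `F` with the walls `P` and `M`, the spots from which both walls are visible in a
box of radius `R` are separated from the base point by two boxes of radius `3 R + 1`.
-/

set_option autoImplicit false

namespace Vale.Agent.P153.R2.SDAR

open Set
open Vale.Agent.P153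
open Vale.Agent.P153.Topo (Conn)
open Vale.Agent.P153.R2.INTF (Arcs)
open Vale.Agent.P153.R2.PLAN.K33 (K3)

/-- From `a` both `P` and `M` are visible in the box. -/
def Bad (F P M : Set Pt) (R : ℤ) (x a : Pt) : Prop :=
  a ∈ F ∧ a ∈ bx x R ∧ (∃ u ∈ Cl (F ∩ bx x R) {a}, ∃ y ∈ P, Adj u y) ∧
    ∃ u ∈ Cl (F ∩ bx x R) {a}, ∃ y ∈ M, Adj u y

theorem adj_near {x y : Pt} (h : Adj x y) : |x.1 - y.1| ≤ 1 ∧ |x.2 - y.2| ≤ 1 := by
  rw [Topo.adj_iff] at h
  rw [abs_le, abs_le]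
  omega

/-- The conclusion: two boxes separate the bad spots from the base point. -/
def Two (F P M : Set Pt) (R : ℤ) (z₀ : Pt) : Prop :=
  ∃ c : Fin 2 → Pt, (∀ k, (∃ x ∈ F, x ∈ bx (c k) (R + 1)) ∧ ∃ y, y ∉ F ∧ y ∈ bx (c k) (R + 1)) ∧
    ∀ x a, Bad F P M R x a →
      ¬ Conn (F \ (bx (c 0) (3 * R + 1) ∪ bx (c 1) (3 * R + 1))) z₀ a

variable {F P M : Set Pt} {R : ℤ} {z₀ : Pt}

theorem Bad.near (hA : Arcs F P M) {x a : Pt} (h : Bad F P M R x a) :
    (∃ u ∈ F, u ∈ bx x (R + 1)) ∧ ∃ y, y ∉ F ∧ y ∈ bx x (R + 1) := by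
  obtain ⟨h1, ⟨h2, h2'⟩, ⟨u, hu, y, hy, huy⟩, -⟩ := h
  refine ⟨⟨a, h1, by linarith, by linarith⟩, y, fun hyF => disjoint_left.1 hA.dFP hyF hy, ?_⟩
  obtain ⟨h3, h4⟩ := (cl_sub _ _ hu).2
  obtain ⟨h5, h6⟩ := adj_near huy
  rw [abs_le] at h3 h4 h5 h6
  constructor
  · rw [abs_le]; constructor <;> linarith [h3.1, h3.2, h5.1, h5.2]
  · rw [abs_le]; constructor <;> linarith [h4.1, h4.2, h6.1, h6.2]

theorem Bad.not_z (hA : Arcs F P M) (hz₀ : bx z₀ (2 * R + 1) ⊆ F) {x a : Pt}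
    (h : Bad F P M R x a) : z₀ ∉ Cl (F ∩ bx x R) {a} := by
  intro hz
  obtain ⟨-, -, ⟨u, hu, y, hy, huy⟩, -⟩ := h
  refine disjoint_left.1 hA.dFP (hz₀ ?_) hy
  obtain ⟨h1, h2⟩ := (cl_sub _ _ hz).2
  obtain ⟨h3, h4⟩ := (cl_sub _ _ hu).2
  obtain ⟨h5, h6⟩ := adj_near huy
  rw [abs_le] at h1 h2 h3 h4 h5 h6
  constructor
  · rw [abs_le]; constructor <;> linarith [h1.1, h1.2, h3.1, h3.2, h5.1, h5.2]
  · rw [abs_le]; constructor <;> linarith [h2.1, h2.2, h4.1, h4.2, h6.1, h6.2]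

/-- Boxes at distance are disjoint. -/
theorem far_disj {x y : Pt} (h : y ∉ bx x (2 * R + 1)) (a b : Pt) :
    Disjoint (Cl (F ∩ bx x R) {a}) (Cl (F ∩ bx y R) {b}) := by
  rw [Set.disjoint_left]
  intro z hz hz'
  apply h
  obtain ⟨h1, h2⟩ := (cl_sub _ _ hz).2
  obtain ⟨h3, h4⟩ := (cl_sub _ _ hz').2
  rw [abs_le] at h1 h2 h3 h4
  constructor
  · rw [abs_le]; constructor <;> linarith [h1.1, h1.2, h3.1, h3.2]
  · rw [abs_le]; constructor <;> linarith [h2.1, h2.2, h4.1, h4.2]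

theorem far_symm {x y : Pt} {r : ℤ} (h : y ∉ bx x r) : x ∉ bx y r := by
  intro h'
  apply h
  obtain ⟨h1, h2⟩ := h'
  refine ⟨?_, ?_⟩
  · rw [abs_sub_comm]; exact h1
  · rw [abs_sub_comm]; exact h2

/-- Replacing a set `B` which is not adjacent to the component by `A`. -/
theorem shrink {A B C : Set Pt} (hF : F.Finite) {a₀ : Pt} (hz : z₀ ∈ F \ (A ∪ (B ∪ C)))
    (ha : a₀ ∈ A) (hac : Conn (F \ (B ∪ C)) z₀ a₀)
    (hno : ∀ x ∈ B, ∀ y ∈ Cl (F \ (A ∪ (B ∪ C))) {z₀}, ¬ Adj x y) :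
    (Cl (F \ (A ∪ C)) {z₀}).ncard < (Cl (F \ (B ∪ C)) {z₀}).ncard := by
  have h1 : Cl (F \ (A ∪ C)) {z₀} ⊆ Cl (F \ (A ∪ (B ∪ C))) {z₀} := by
    rintro y ⟨x, hx, h⟩
    rw [mem_singleton_iff] at hx
    subst hx
    refine Conn.ind (P := fun w => w ∈ Cl (F \ (A ∪ (B ∪ C))) {x})
      ⟨x, rfl, Conn.refl hz⟩ ?_ h
    intro u v _ huv hv ih
    refine cl_step ih huv ⟨hv.1, ?_⟩
    rintro (hvA | hvB | hvC)
    · exact hv.2 (Or.inl hvA)
    · exact hno v hvB u ih (Topo.adj_symm huv)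
    · exact hv.2 (Or.inr hvC)
  have h2 : Cl (F \ (A ∪ (B ∪ C))) {z₀} ⊆ Cl (F \ (B ∪ C)) {z₀} :=
    cl_mono (sdiff_subset_sdiff_right subset_union_right) _
  refine ncard_lt_ncard ⟨h1.trans h2, fun h3 => ?_⟩ (hF.subset ((cl_sub _ _).trans sdiff_subset))
  have h4 : a₀ ∈ Cl (F \ (B ∪ C)) {z₀} := ⟨z₀, rfl, hac⟩
  exact (cl_sub _ _ (h1 (h3 h4))).2 (Or.inl ha)

theorem far_pair (hA : Arcs F P M) (hR : 0 ≤ R) (hz₀ : bx z₀ (2 * R + 1) ⊆ F) (n : ℕ) :
    ∀ x₁ a₁ x₂ a₂ : Pt, Bad F P M R x₁ a₁ → Bad F P M R x₂ a₂ → x₂ ∉ bx x₁ (2 * R + 1) →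
      (Cl (F \ (Cl (F ∩ bx x₁ R) {a₁} ∪ Cl (F ∩ bx x₂ R) {a₂})) {z₀}).ncard = n →
      Two F P M R z₀ := by
  classical
  induction n using Nat.strong_induction_on with
  | _ n ih =>
    intro x₁ a₁ x₂ a₂ b₁ b₂ h12 hn
    by_contra hcon
    have hc : ∃ x₀ a₀, Bad F P M R x₀ a₀ ∧
        Conn (F \ (bx x₁ (3 * R + 1) ∪ bx x₂ (3 * R + 1))) z₀ a₀ := by
      by_contra hno
      push Not at hno
      refine hcon ⟨![x₁, x₂], fun k => ?_, fun x a h => hno x a h⟩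
      rcases (by omega : k.val = 0 ∨ k.val = 1) with hk | hk
      · have : k = 0 := Fin.ext hk
        subst this
        exact b₁.near hA
      · have : k = 1 := Fin.ext hk
        subst this
        exact b₂.near hA
    obtain ⟨x₀, a₀, b₀, hconn⟩ := hc
    -- distances
    have ha₀ := hconn.right_mem
    have far : ∀ {x : Pt}, a₀ ∉ bx x (3 * R + 1) → x₀ ∉ bx x (2 * R + 1) := by
      intro x hx hx0
      apply hx
      obtain ⟨h1, h2⟩ := b₀.2.1
      obtain ⟨h3, h4⟩ := hx0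
      rw [abs_le] at h1 h2 h3 h4
      constructor
      · rw [abs_le]; constructor <;> linarith [h1.1, h1.2, h3.1, h3.2]
      · rw [abs_le]; constructor <;> linarith [h2.1, h2.2, h4.1, h4.2]
    have h01 : x₀ ∉ bx x₁ (2 * R + 1) := far fun h => ha₀.2 (Or.inl h)
    have h02 : x₀ ∉ bx x₂ (2 * R + 1) := far fun h => ha₀.2 (Or.inr h)
    set W₀ := Cl (F ∩ bx x₀ R) {a₀} with hW₀
    set W₁ := Cl (F ∩ bx x₁ R) {a₁} with hW₁
    set W₂ := Cl (F ∩ bx x₂ R) {a₂} with hW₂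
    have haW : a₀ ∈ W₀ := ⟨a₀, rfl, Conn.refl ⟨b₀.1, b₀.2.1⟩⟩
    have hsub : ∀ x a : Pt, Cl (F ∩ bx x R) {a} ⊆ bx x (3 * R + 1) := by
      intro x a y hy
      obtain ⟨h1, h2⟩ := (cl_sub _ _ hy).2
      exact ⟨by linarith, by linarith⟩
    have hss : F \ (bx x₁ (3 * R + 1) ∪ bx x₂ (3 * R + 1)) ⊆ F \ (W₁ ∪ W₂) :=
      sdiff_subset_sdiff_right (union_subset_union (hsub _ _) (hsub _ _))
    have hac : Conn (F \ (W₁ ∪ W₂)) z₀ a₀ := hconn.mono hss
    have hzF : z₀ ∈ F := hac.left_mem.1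
    have hz : z₀ ∈ F \ (W₀ ∪ (W₁ ∪ W₂)) := ⟨hzF, by
      rintro (h | h | h)
      · exact b₀.not_z hA hz₀ h
      · exact b₁.not_z hA hz₀ h
      · exact b₂.not_z hA hz₀ h⟩
    set Z := Cl (F \ (W₀ ∪ (W₁ ∪ W₂))) {z₀} with hZ
    have hZ0 : ∃ x ∈ W₀, ∃ y ∈ Z, Adj x y := by
      have key : a₀ ∈ Z ∨ ∃ x ∈ W₀, ∃ y ∈ Z, Adj x y := by
        refine Conn.ind (P := fun w => w ∈ Z ∨ ∃ x ∈ W₀, ∃ y ∈ Z, Adj x y)
          (Or.inl ⟨z₀, rfl, Conn.refl hz⟩) ?_ hac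
        intro u v _ huv hv ih
        rcases ih with ih | ih
        · by_cases hvW : v ∈ W₀
          · exact Or.inr ⟨v, hvW, u, ih, Topo.adj_symm huv⟩
          · exact Or.inl (cl_step ih huv ⟨hv.1, fun h => h.elim hvW hv.2⟩)
        · exact Or.inr ih
      rcases key with h | h
      · exact absurd haW fun h' => (cl_sub _ _ h).2 (Or.inl h')
      · exact h
    have hsm : ∀ x ∈ W₁, ∀ y ∈ Z, Adj x y → ∀ x ∈ W₂, ∀ y ∈ Z, Adj x y → False := by
      intro p hp q hq hpq p' hp' q' hq' hpq'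
      have hWF : ∀ x a : Pt, Cl (F ∩ bx x R) {a} ⊆ F := fun x a y hy => (cl_sub _ _ hy).1
      have hZF : Z ⊆ F := fun y hy => (cl_sub _ _ hy).1
      refine K3.false (P := P) (M := M) (Z := Z) (C := ![W₀, W₁, W₂]) ?_ hA.finP
      refine ⟨hA.cP, hA.cM, cn_cl _ _, ?_, hA.dPM, ?_, ?_, ?_, ?_, ?_, ?_, ?_, ?_, ?_⟩
      · intro i
        rcases fin3 i with rfl | rfl | rfl
        · exact cn_cl _ _
        · exact cn_cl _ _
        · exact cn_cl _ _
      · exact (hA.dFP.mono_left hZF).symm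
      · exact (hA.dFM.mono_left hZF).symm
      · intro i
        rcases fin3 i with rfl | rfl | rfl
        · exact (hA.dFP.mono_left (hWF _ _)).symm
        · exact (hA.dFP.mono_left (hWF _ _)).symm
        · exact (hA.dFP.mono_left (hWF _ _)).symm
      · intro i
        rcases fin3 i with rfl | rfl | rfl
        · exact (hA.dFM.mono_left (hWF _ _)).symm
        · exact (hA.dFM.mono_left (hWF _ _)).symm
        · exact (hA.dFM.mono_left (hWF _ _)).symm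
      · intro i
        rw [Set.disjoint_left]
        intro y hy hy'
        have := (cl_sub _ _ hy).2
        rcases fin3 i with rfl | rfl | rfl
        · exact this (Or.inl hy')
        · exact this (Or.inr (Or.inl hy'))
        · exact this (Or.inr (Or.inr hy'))
      · have d12 : Disjoint W₁ W₂ := far_disj h12 _ _
        have d10 : Disjoint W₁ W₀ := far_disj h01 _ _
        have d20 : Disjoint W₂ W₀ := far_disj h02 _ _
        intro i j hij
        rcases fin3 i with rfl | rfl | rfl <;> rcases fin3 j with rfl | rfl | rfl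
        · exact absurd rfl hij
        · exact d10.symm
        · exact d20.symm
        · exact d10
        · exact absurd rfl hij
        · exact d12
        · exact d20
        · exact d12.symm
        · exact absurd rfl hij
      · intro i
        rcases fin3 i with rfl | rfl | rfl
        · exact b₀.2.2.1
        · exact b₁.2.2.1
        · exact b₂.2.2.1
      · intro i
        rcases fin3 i with rfl | rfl | rfl
        · exact b₀.2.2.2
        · exact b₁.2.2.2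
        · exact b₂.2.2.2
      · intro i
        rcases fin3 i with rfl | rfl | rfl
        · exact hZ0
        · exact ⟨p, hp, q, hq, hpq⟩
        · exact ⟨p', hp', q', hq', hpq'⟩
    by_cases h1 : ∀ x ∈ W₁, ∀ y ∈ Z, ¬ Adj x y
    · have k1 := shrink hA.fin hz haW hac h1
      rw [hn] at k1
      exact hcon (ih _ k1 x₀ a₀ x₂ a₂ b₀ b₂ (far_symm h02) rfl)
    · push Not at h1
      obtain ⟨p, hp, q, hq, hpq⟩ := h1
      have h2 : ∀ x ∈ W₂, ∀ y ∈ Z, ¬ Adj x y := fun x hx y hy hxy =>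
        hsm p hp q hq hpq x hx y hy hxy
      rw [hZ, union_comm W₁ W₂] at h2
      rw [union_comm W₁ W₂] at hac hz hn
      have k1 := shrink hA.fin hz haW hac h2
      rw [hn] at k1
      exact hcon (ih _ k1 x₀ a₀ x₁ a₁ b₀ b₁ (far_symm h01) rfl)

/-- **The pinch points.** -/
theorem pinch (hA : Arcs F P M) (hR : 0 ≤ R) (hz₀ : bx z₀ (2 * R + 1) ⊆ F) : Two F P M R z₀ := by
  by_cases hfar : ∃ x₁ a₁ x₂ a₂, Bad F P M R x₁ a₁ ∧ Bad F P M R x₂ a₂ ∧ x₂ ∉ bx x₁ (2 * R + 1)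
  · obtain ⟨x₁, a₁, x₂, a₂, b₁, b₂, h12⟩ := hfar
    exact far_pair hA hR hz₀ _ x₁ a₁ x₂ a₂ b₁ b₂ h12 rfl
  · push Not at hfar
    by_cases hb : ∃ x₁ a₁, Bad F P M R x₁ a₁
    · obtain ⟨x₁, a₁, b₁⟩ := hb
      refine ⟨fun _ => x₁, fun _ => b₁.near hA, fun x a b hcon => ?_⟩
      have h1 := hfar x₁ a₁ x a b₁ b
      apply hcon.right_mem.2
      refine Or.inl ?_
      obtain ⟨h3, h4⟩ := b.2.1
      obtain ⟨h5, h6⟩ := h1
      rw [abs_le] at h3 h4 h5 h6
      constructor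
      · rw [abs_le]; constructor <;> linarith [h3.1, h3.2, h5.1, h5.2]
      · rw [abs_le]; constructor <;> linarith [h4.1, h4.2, h6.1, h6.2]
    · push Not at hb
      -- a boundary point
      have hzF : z₀ ∈ F := hz₀ ⟨by simp; linarith, by simp; linarith⟩
      obtain ⟨x, hx, hmax⟩ := hA.fin.exists_maximalFor (fun v : Pt => v.1) F ⟨z₀, hzF⟩
      have hy : (x.1 + 1, x.2) ∉ F := fun h => by
        have := hmax h (by simp)
        simp at this
      refine ⟨fun _ => x, fun _ => ⟨⟨x, hx, by simp; linarith, by simp; linarith⟩, _, hy, ?_, ?_⟩,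
        fun x a b _ => hb x a b⟩
      · simp; linarith
      · simp; linarith

end Vale.Agent.P153.R2.SDAR
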