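import Vale.Agent.P153.R2.SDAR.CellF
import Mathlib.LinearAlgebra.Lagrange

/-!
P153-R2, block SDAR (helper506): polarisation (test functions of both signs), linearity in the
first test function.
-/

set_option autoImplicit false

namespace Vale.Agent.P153.R2.SDAR

open Filter Topology Set MeasureTheory
open Vale.Agent.P145.PT Vale.Agent.P153 Vale.Agent.P153.F Vale.Agent.P153.F.SD
open Vale.Agent.P153.F.Top (dp c1 c2 lat_finite S_mb S_l2)
open Vale.Agent.P153.Topo (Conn)

/-- The value at `-1` of a polynomial of degree at most `j` is a fixed combination of its values at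
`0, ..., j`. -/
theorem lagr (j : ℕ) : ∃ w : ℕ → ℝ, ∀ p : Polynomial ℝ, p.natDegree ≤ j →
    p.eval (-1) = ∑ k ∈ Finset.range (j + 1), w k * p.eval (k : ℝ) := by
  refine ⟨fun k => (Lagrange.basis (Finset.range (j + 1)) (fun k : ℕ => (k : ℝ)) k).eval (-1),
    fun p hp => ?_⟩
  have h1 : Set.InjOn (fun k : ℕ => (k : ℝ)) (Finset.range (j + 1)) :=
    fun x _ y _ h => Nat.cast_injective h
  have h2 : p.degree < ((Finset.range (j + 1)).card : ℕ) := by
    rw [Finset.card_range]
    refine (Polynomial.degree_le_natDegree).trans_lt ?_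
    exact_mod_cast Nat.lt_succ_of_le hp
  have h3 := Lagrange.eq_interpolate h1 h2
  conv_lhs => rw [h3]
  rw [Lagrange.interpolate_apply, Polynomial.eval_finsetSum]
  refine Finset.sum_congr rfl fun k _ => ?_
  rw [Polynomial.eval_mul, Polynomial.eval_C, mul_comm]

/-- The observable as a polynomial. -/
theorem poly_pt (j : ℕ) : ∃ w : ℕ → ℝ, ∀ G A B c I J : ℝ,
    G * (A - B) ^ j + c * j * (I - J) * (A - B) ^ (j - 1) =
      ∑ k ∈ Finset.range (j + 1), w k * (G * (A + k * B) ^ j +
        c * j * (I + k * J) * (A + k * B) ^ (j - 1)) := by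
  obtain ⟨w, hw⟩ := lagr j
  refine ⟨w, fun G A B c I J => ?_⟩
  rcases Nat.eq_zero_or_pos j with rfl | hj
  · have h := hw (Polynomial.C G) (by rw [Polynomial.natDegree_C])
    simp only [Polynomial.eval_C] at h
    simpa using h
  set L : Polynomial ℝ := Polynomial.C A + Polynomial.C B * Polynomial.X with hL
  set M : Polynomial ℝ := Polynomial.C I + Polynomial.C J * Polynomial.X with hM
  set p : Polynomial ℝ := Polynomial.C G * L ^ j + Polynomial.C (c * j) * (M * L ^ (j - 1)) with hp
  have dL : L.natDegree ≤ 1 := by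
    rw [hL]; compute_degree
  have dM : M.natDegree ≤ 1 := by
    rw [hM]; compute_degree
  have dp : p.natDegree ≤ j := by
    rw [hp]
    refine (Polynomial.natDegree_add_le _ _).trans (max_le ?_ ?_)
    · refine (Polynomial.natDegree_C_mul_le _ _).trans ?_
      refine (Polynomial.natDegree_pow_le).trans ?_
      nlinarith
    · refine (Polynomial.natDegree_C_mul_le _ _).trans ?_
      refine (Polynomial.natDegree_mul_le).trans ?_
      have := (Polynomial.natDegree_pow_le (p := L) (n := j - 1))
      have h2 : (j - 1) * L.natDegree ≤ (j - 1) * 1 := Nat.mul_le_mul_left _ dL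
      omega
  have ev : ∀ t : ℝ, p.eval t = G * (A + t * B) ^ j + c * j * (I + t * J) * (A + t * B) ^ (j - 1) := by
    intro t
    rw [hp, hL, hM]
    simp only [Polynomial.eval_add, Polynomial.eval_mul, Polynomial.eval_C, Polynomial.eval_X,
      Polynomial.eval_pow]
    ring
  have h := hw p dp
  rw [ev] at h
  simp only [ev] at h
  convert h using 2
  · ring
  · ring

end Vale.Agent.P153.R2.SDAR
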