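import Vale.Agent.P153.R2.SDAR.Geo

/-!
# P153-R2, block SDAR (helper443): geometry of the first exits, for `S_red`
-/

set_option autoImplicit false
set_option linter.unusedSimpArgs false

namespace Vale.Agent.P153.R2.SDAR

open Filter Topology Set MeasureTheory
open Vale.Agent.P145.PT Vale.Agent.P153 Vale.Agent.P153.F Vale.Agent.P153.F.SD
open Vale.Agent.P153.F.Top (dp c1 c2)
open Vale.Agent.P153.Topo (Conn)

theorem ext_tl (i : Fin 3) {z w : ℝ × ℝ} (h1 : ts i z = ts i w) (h2 : ls i z = ls i w) : z = w := by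
  rw [← qp_eq i z, ← qp_eq i w, h1, h2]

theorem ts_lin (i : Fin 3) (a b : ℝ) (z w : ℝ × ℝ) :
    ts i (a • z + b • w) = a * ts i z + b * ts i w := by
  rcases fin3 i with rfl | rfl | rfl
  · simp only [ts0, c1, Prod.fst_add, Prod.snd_add, Prod.smul_fst, Prod.smul_snd, smul_eq_mul]
    ring
  · simp only [ts1, c1, Prod.fst_add, Prod.snd_add, Prod.smul_fst, Prod.smul_snd, smul_eq_mul]
    ring
  · simp only [ts2, c1, c2, Prod.fst_add, Prod.snd_add, Prod.smul_fst, Prod.smul_snd, smul_eq_mul]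
    ring

theorem ls_lin (i : Fin 3) (a b : ℝ) (z w : ℝ × ℝ) :
    ls i (a • z + b • w) = a * ls i z + b * ls i w := by
  rcases fin3 i with rfl | rfl | rfl
  · simp only [ls0, c2, Prod.fst_add, Prod.snd_add, Prod.smul_fst, Prod.smul_snd, smul_eq_mul]
    ring
  · simp only [ls1, c2, Prod.fst_add, Prod.snd_add, Prod.smul_fst, Prod.smul_snd, smul_eq_mul]
    ring
  · simp only [ls2, c2, Prod.fst_add, Prod.snd_add, Prod.smul_fst, Prod.smul_snd, smul_eq_mul]
    ring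

theorem mem_seg {i : Fin 3} {t s s' : ℝ} (hs : s < s') {p : ℝ × ℝ}
    (hp : p ∈ openSegment ℝ (qp i t s) (qp i t s')) : ∃ u, s < u ∧ u < s' ∧ p = qp i t u := by
  obtain ⟨a, b, ha, hb, hab, rfl⟩ := hp
  have e1 : a * s + b * s' = s + b * (s' - s) := by linear_combination s * hab
  have e2 : a * s + b * s' = s' - a * (s' - s) := by linear_combination s' * hab
  have p1 := mul_pos hb (sub_pos.2 hs)
  have p2 := mul_pos ha (sub_pos.2 hs)
  refine ⟨a * s + b * s', ?_, ?_, ext_tl i ?_ ?_⟩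
  · rw [e1]; linarith
  · rw [e2]; linarith
  · rw [ts_lin, ts_qp, ts_qp, ts_qp, ← add_mul, hab, one_mul]
  · rw [ls_lin, ls_qp, ls_qp, ls_qp]

theorem seg_mem {i : Fin 3} {t s s' u : ℝ} (h1 : s < u) (h2 : u < s') :
    qp i t u ∈ openSegment ℝ (qp i t s) (qp i t s') := by
  have h3 : 0 < s' - s := by linarith
  refine ⟨(s' - u) / (s' - s), (u - s) / (s' - s), div_pos (by linarith) h3,
    div_pos (by linarith) h3, ?_, ext_tl i ?_ ?_⟩
  · rw [← add_div, div_eq_one_iff_eq h3.ne']; ring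
  · rw [ts_lin, ts_qp, ts_qp, ts_qp]; field_simp; ring
  · rw [ls_lin, ls_qp, ls_qp, ls_qp]; field_simp; ring

/-- The first exit of the line of the strand. -/
theorem exit {D : Set (ℝ × ℝ)} (hD : IsOpen D) {Rb : ℝ} (hb : D ⊆ Metric.ball (0 : ℝ × ℝ) Rb)
    (i : Fin 3) (t l : ℝ) (h0 : qp i t l ∈ D) : ∃ le, l < le ∧ (∀ s, l ≤ s → s < le → qp i t s ∈ D) ∧
      qp i t le ∈ frontier D := by
  set S : Set ℝ := {s | l ≤ s ∧ qp i t s ∉ D} with hS
  have hcl : IsClosed S := by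
    have : S = Ici l ∩ (qp i t) ⁻¹' Dᶜ := by
      ext s; simp [hS]
    rw [this]
    exact isClosed_Ici.inter (hD.isClosed_compl.preimage (cont_qp i t))
  have hne : S.Nonempty := by
    refine ⟨l + 4 * Rb + 1, ?_, fun hcon => ?_⟩
    · have h1 := hb h0
      rw [Metric.mem_ball] at h1
      have : 0 ≤ dist (qp i t l) 0 := dist_nonneg
      linarith
    · have h1 := hb h0
      have h2 := hb hcon
      rw [Metric.mem_ball] at h1 h2
      have h3 := abs_ls_le i (qp i t (l + 4 * Rb + 1)) (qp i t l)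
      rw [ls_qp, ls_qp] at h3
      have h4 := dist_triangle_right (qp i t (l + 4 * Rb + 1)) (qp i t l) 0
      have h5 := (abs_le.1 h3).2
      linarith
  have hbd : BddBelow S := ⟨l, fun s hs => hs.1⟩
  have hm := hcl.csInf_mem hne hbd
  have hlt : l < sInf S := lt_of_le_of_ne hm.1 fun h => hm.2 (h ▸ h0)
  have hin : ∀ s, l ≤ s → s < sInf S → qp i t s ∈ D := by
    intro s h1 h2
    by_contra hcon
    exact absurd (csInf_le hbd ⟨h1, hcon⟩) (not_le.2 h2)
  refine ⟨sInf S, hlt, hin, ?_⟩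
  rw [hD.frontier_eq]
  refine ⟨?_, hm.2⟩
  have h1 : Tendsto (qp i t) (𝓝[<] (sInf S)) (𝓝 (qp i t (sInf S))) :=
    ((cont_qp i t).tendsto _).mono_left nhdsWithin_le_nhds
  refine mem_closure_of_tendsto h1 ?_
  filter_upwards [Ioo_mem_nhdsLT hlt] with s hs
  exact hin s hs.1.le hs.2

/-- Closed rectangles in the coordinates of a strand. -/
def rct (i : Fin 3) (t η s s' : ℝ) : Set (ℝ × ℝ) := {z | |ts i z - t| ≤ η ∧ s ≤ ls i z ∧ ls i z ≤ s'}

theorem rct_compact (i : Fin 3) (t η s s' : ℝ) : IsCompact (rct i t η s s') := by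
  refine Metric.isCompact_of_isClosed_isBounded ?_ ?_
  · exact (isClosed_le ((cont_ts i).sub continuous_const).abs continuous_const).inter
      ((isClosed_le continuous_const (cont_ls i)).inter (isClosed_le (cont_ls i) continuous_const))
  · refine (Metric.isBounded_iff_subset_closedBall (qp i t s)).2 ⟨2 * (η + |s' - s|), fun z hz => ?_⟩
    rw [Metric.mem_closedBall]
    refine (dist_le_tl i _ _).trans ?_
    rw [ts_qp, ls_qp]
    have h1 : |ls i z - s| ≤ |s' - s| := by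
      rw [abs_of_nonneg (by linarith [hz.2.1]), abs_of_nonneg (by linarith [hz.2.1, hz.2.2])]
      linarith [hz.2.2]
    linarith [hz.1]

/-- A tube around a segment in `D`. -/
theorem tube {D : Set (ℝ × ℝ)} (hD : IsOpen D) (i : Fin 3) (t s s' : ℝ)
    (h : ∀ u, s ≤ u → u ≤ s' → qp i t u ∈ D) : ∃ η : ℝ, 0 < η ∧ rct i t η s s' ⊆ D := by
  have hc : IsCompact ((qp i t) '' Icc s s') := isCompact_Icc.image (cont_qp i t)
  obtain ⟨η, hη, hsub⟩ := hc.exists_cthickening_subset_open hD (by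
    rintro _ ⟨u, hu, rfl⟩
    exact h u hu.1 hu.2)
  refine ⟨η / 2, by positivity, fun z hz => hsub ?_⟩
  refine Metric.mem_cthickening_of_dist_le z (qp i t (ls i z)) η _ ⟨_, ⟨hz.2.1, hz.2.2⟩, rfl⟩ ?_
  refine (dist_le_tl i _ _).trans ?_
  rw [ts_qp, ls_qp, sub_self, abs_zero]
  linarith [hz.1]

theorem tcell_compact (b : PW) (w : ℝ) : IsCompact (tcell b w) := by
  have hcl : IsClosed (tcell b w) := by
    have k1 : Continuous c1 := by unfold c1; fun_prop
    have k2 : Continuous c2 := by unfold c2; fun_prop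
    exact (isClosed_le continuous_const k1).inter ((isClosed_le continuous_const k2).inter
      (isClosed_le (k1.add k2) continuous_const))
  refine Metric.isCompact_of_isClosed_isBounded hcl ?_
  refine (Metric.isBounded_iff_subset_closedBall (qp 0 b.x0 b.y0)).2
    ⟨2 * (|b.s0 - b.x0 - b.y0| + 3 * |w|), fun z hz => ?_⟩
  obtain ⟨h1, h2, h3⟩ := hz
  rw [Metric.mem_closedBall]
  refine (dist_le_c _ _).trans ?_
  have e1 : c1 (qp 0 b.x0 b.y0) = b.x0 := by rw [← ts0, ts_qp]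
  have e2 : c2 (qp 0 b.x0 b.y0) = b.y0 := by rw [← ls0, ls_qp]
  rw [e1, e2]
  have a1 : |c1 z - b.x0| ≤ |b.s0 - b.x0 - b.y0| + 3 * |w| := by
    rw [abs_le]
    constructor
    · linarith [le_abs_self w, abs_nonneg w, abs_nonneg (b.s0 - b.x0 - b.y0)]
    · linarith [le_abs_self w, abs_nonneg w, le_abs_self (b.s0 - b.x0 - b.y0)]
  have a2 : |c2 z - b.y0| ≤ |b.s0 - b.x0 - b.y0| + 3 * |w| := by
    rw [abs_le]
    constructor
    · linarith [le_abs_self w, abs_nonneg w, abs_nonneg (b.s0 - b.x0 - b.y0)]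
    · linarith [le_abs_self w, abs_nonneg w, le_abs_self (b.s0 - b.x0 - b.y0)]
  linarith

theorem tcell_mono (b : PW) {w w' : ℝ} (h : w ≤ w') : tcell b w ⊆ tcell b w' := fun _ hz =>
  ⟨by linarith [hz.1], by linarith [hz.2.1], by linarith [hz.2.2]⟩

/-- The thickened cells are in `D`. -/
theorem tcell_small {D : Set (ℝ × ℝ)} (hD : IsOpen D) {b : PW} (h : tcell b 0 ⊆ D) :
    ∃ w : ℝ, 0 < w ∧ tcell b w ⊆ D := by
  by_contra hcon
  push Not at hcon
  have hne : ∀ n : ℕ, ((tcell b (1 / ((n : ℝ) + 1))) \ D).Nonempty := by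
    intro n
    obtain ⟨z, h1, h2⟩ := Set.not_subset.1 (hcon (1 / ((n : ℝ) + 1)) (by positivity))
    exact ⟨z, h1, h2⟩
  have key := IsCompact.nonempty_iInter_of_sequence_nonempty_isCompact_isClosed
    (fun n : ℕ => (tcell b (1 / ((n : ℝ) + 1))) \ D) (fun n => ?_) hne
    ((tcell_compact b _).diff hD) (fun n => ((tcell_compact b _).diff hD).isClosed)
  · obtain ⟨z, hz⟩ := key
    rw [mem_iInter] at hz
    apply (hz 0).2
    apply h
    have hlim : Tendsto (fun n : ℕ => 1 / ((n : ℝ) + 1)) atTop (𝓝 0) :=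
      tendsto_one_div_add_atTop_nhds_zero_nat
    refine ⟨?_, ?_, ?_⟩
    · have h1 : Tendsto (fun n : ℕ => b.x0 - 1 / ((n : ℝ) + 1)) atTop (𝓝 (b.x0 - 0)) :=
        tendsto_const_nhds.sub hlim
      exact le_of_tendsto' h1 fun n => (hz n).1.1
    · have h1 : Tendsto (fun n : ℕ => b.y0 - 1 / ((n : ℝ) + 1)) atTop (𝓝 (b.y0 - 0)) :=
        tendsto_const_nhds.sub hlim
      exact le_of_tendsto' h1 fun n => (hz n).1.2.1
    · have h1 : Tendsto (fun n : ℕ => b.s0 + 1 / ((n : ℝ) + 1)) atTop (𝓝 (b.s0 + 0)) :=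
        tendsto_const_nhds.add hlim
      exact ge_of_tendsto' h1 fun n => (hz n).1.2.2
  · refine sdiff_subset_sdiff_left (tcell_mono b ?_)
    push_cast
    apply one_div_le_one_div_of_le (by positivity)
    linarith

/-- The start of the line of a strand is a corner of the cell. -/
theorem corner {b : PW} (hb : b.x0 + b.y0 < b.s0) (i : Fin 3) : qp i (t0 b i) (l0 b i) ∈ tcell b 0 := by
  rcases fin3 i with rfl | rfl | rfl
  · have e1 : c1 (qp 0 (t0 b 0) (l0 b 0)) = b.x0 := by rw [← ts0, ts_qp, t00]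
    have e2 : c2 (qp 0 (t0 b 0) (l0 b 0)) = b.s0 - b.x0 := by rw [← ls0, ls_qp, l00]
    refine ⟨?_, ?_, ?_⟩ <;> linarith
  · have e1 : c1 (qp 1 (t0 b 1) (l0 b 1)) = b.x0 := by
      have := ts_qp 1 (t0 b 1) (l0 b 1); rw [ts1, t01] at this; rw [t01]; linarith
    have e2 : c2 (qp 1 (t0 b 1) (l0 b 1)) = b.y0 := by
      have := ls_qp 1 (t0 b 1) (l0 b 1); rw [ls1, l01] at this; rw [l01]; linarith
    refine ⟨?_, ?_, ?_⟩ <;> linarith
  · have e1 : c1 (qp 2 (t0 b 2) (l0 b 2)) + c2 (qp 2 (t0 b 2) (l0 b 2)) = b.s0 := by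
      have := ts_qp 2 (t0 b 2) (l0 b 2); rw [ts2, t02] at this; rw [t02]; linarith
    have e2 : c2 (qp 2 (t0 b 2) (l0 b 2)) = b.y0 := by
      have := ls_qp 2 (t0 b 2) (l0 b 2); rw [ls2, l02] at this; rw [l02]; linarith
    refine ⟨?_, ?_, ?_⟩ <;> linarith

/-- The cell is in front of the strands. -/
theorem tcell_ls {b : PW} {w : ℝ} (hw : 0 ≤ w) {z : ℝ × ℝ} (hz : z ∈ tcell b w) (i : Fin 3) :
    ls i z ≤ l0 b i + 2 * w := by
  obtain ⟨h1, h2, h3⟩ := hz
  rcases fin3 i with rfl | rfl | rfl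
  · rw [ls0, l00]; linarith
  · rw [ls1, l01]; linarith
  · rw [ls2, l02]; linarith

/-- Half strips of different strands are far apart. -/
theorem sep_strands {b : PW} {e : ℝ} (he : 0 < e) (he' : 20 * e ≤ b.s0 - b.x0 - b.y0) {i j : Fin 3}
    (hij : i ≠ j) {z w : ℝ × ℝ} (h1 : |ts i z - t0 b i| ≤ e) (h2 : l0 b i - e ≤ ls i z)
    (h3 : |ts j w - t0 b j| ≤ e) (h4 : l0 b j - e ≤ ls j w) : e < dist z w := by
  have a1 := (abs_le.1 (abs_ls_le 0 z w))
  have a2 := (abs_le.1 (abs_ts_le 0 z w))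
  rw [ls0, ls0] at a1
  rw [ts0, ts0] at a2
  rw [abs_le] at h1 h3
  by_contra hcon
  push Not at hcon
  rcases fin3 i with rfl | rfl | rfl <;> rcases fin3 j with rfl | rfl | rfl
  · exact hij rfl
  · simp only [ts0, ls0, ts1, ls1, ts2, ls2, t00, t01, t02, l00, l01, l02] at *; linarith
  · simp only [ts0, ls0, ts1, ls1, ts2, ls2, t00, t01, t02, l00, l01, l02] at *; linarith
  · simp only [ts0, ls0, ts1, ls1, ts2, ls2, t00, t01, t02, l00, l01, l02] at *; linarith
  · exact hij rfl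
  · simp only [ts0, ls0, ts1, ls1, ts2, ls2, t00, t01, t02, l00, l01, l02] at *; linarith
  · simp only [ts0, ls0, ts1, ls1, ts2, ls2, t00, t01, t02, l00, l01, l02] at *; linarith
  · simp only [ts0, ls0, ts1, ls1, ts2, ls2, t00, t01, t02, l00, l01, l02] at *; linarith
  · exact hij rfl

/-- Finite unions of balls. -/
theorem exists_un {C : Set (ℝ × ℝ)} (hC : IsCompact C) {ρ : ℝ} (hρ : 0 < ρ) :
    ∃ K : Set (ℝ × ℝ), Un K ∧ C ⊆ K ∧ ∀ z ∈ K, ∃ x ∈ C, dist z x < ρ := by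
  obtain ⟨t, htC, htf, hcov⟩ := hC.finite_cover_balls hρ
  obtain ⟨k, f, -, hf⟩ := htf.fin_param
  refine ⟨⋃ m, Metric.ball (f m) ρ, ⟨k, fun m => Metric.ball (f m) ρ, fun m =>
    ⟨Metric.isOpen_ball, (Metric.nonempty_ball.2 hρ), (convex_ball _ _).isPreconnected⟩, rfl⟩,
    fun z hz => ?_, fun z hz => ?_⟩
  · obtain ⟨x, hx, hzx⟩ := mem_iUnion₂.1 (hcov hz)
    rw [← hf] at hx
    obtain ⟨m, rfl⟩ := hx
    exact mem_iUnion.2 ⟨m, hzx⟩
  · obtain ⟨m, hm⟩ := mem_iUnion.1 hz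
    exact ⟨f m, htC (hf ▸ mem_range_self m), hm⟩

/-- A compact set off the half lines of the strands is at positive distance from them. -/
theorem exists_dist (b : PW) {C : Set (ℝ × ℝ)} (hC : IsCompact C)
    (h : ∀ i, ∀ z ∈ C, ¬ (ts i z = t0 b i ∧ l0 b i ≤ ls i z)) :
    ∃ ρ : ℝ, 0 < ρ ∧ ∀ i, ∀ z ∈ C, ∀ s, l0 b i ≤ s → ρ ≤ dist z (qp i (t0 b i) s) := by
  have key : ∀ i : Fin 3, ∃ ρ : ℝ, 0 < ρ ∧ ∀ z ∈ C, ∀ s, l0 b i ≤ s →
      ρ ≤ dist z (qp i (t0 b i) s) := by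
    intro i
    set H : Set (ℝ × ℝ) := {z | ts i z = t0 b i ∧ l0 b i ≤ ls i z} with hH
    have hcl : IsClosed H := (isClosed_eq (cont_ts i) continuous_const).inter
      (isClosed_le continuous_const (cont_ls i))
    have hdis : Disjoint C H := Set.disjoint_left.2 fun z hz hz' => h i z hz hz'
    obtain ⟨ρ, hρ, hd⟩ := hdis.exists_cthickenings hC hcl
    refine ⟨ρ, hρ, fun z hz s hs => ?_⟩
    by_contra hcon
    push Not at hcon
    have h1 : qp i (t0 b i) s ∈ H := ⟨ts_qp i _ _, by rw [ls_qp]; exact hs⟩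
    refine Set.disjoint_left.1 hd (Metric.self_subset_cthickening C hz) ?_
    exact Metric.mem_cthickening_of_dist_le z _ ρ H h1 hcon.le
  choose ρ hρ hd using key
  refine ⟨min (ρ 0) (min (ρ 1) (ρ 2)), lt_min (hρ 0) (lt_min (hρ 1) (hρ 2)),
    fun i z hz s hs => le_trans ?_ (hd i z hz s hs)⟩
  rcases fin3 i with rfl | rfl | rfl
  · exact min_le_left _ _
  · exact (min_le_right _ _).trans (min_le_left _ _)
  · exact (min_le_right _ _).trans (min_le_right _ _)

end Vale.Agent.P153.R2.SDAR
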